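import Crest.Agent.R290.Cons

/-!
Row 290.  Splitting long equations into chains.
-/

set_option autoImplicit false

namespace Crest.Agent.R290

open Finset

namespace BSys

variable {Blk CN X : Type} [DecidableEq Blk] (S : BSys Blk CN X) {K : ℕ} {β : Blk → ZMod 2}

/-- The value of column number `t` of block `B`. -/
def chainCol (s : X → ZMod 2) (B : Blk) (t : ℕ) : ZMod 2 :=
  ((S.cols B)[t]?.bind (S.cv B)).elim 0 s

/-- The lift of an assignment to the chain variables. -/
def chainLift (β : Blk → ZMod 2) (s : X → ZMod 2) : CX Blk X → ZMod 2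
  | none => 0
  | some (Sum.inl x) => s x
  | some (Sum.inr q) => β q.1 + ∑ i ∈ range q.2, S.chainCol s q.1 i

theorem chain_list_sum (s : X → ZMod 2) (f : CN → Option X) (l : List CN) :
    lhs s (l.filterMap f) = ∑ i ∈ range l.length, (l[i]?.bind f).elim 0 s := by
  induction l with
  | nil => simp [lhs]
  | cons a l ih =>
    rw [List.length_cons, sum_range_succ']
    simp only [List.getElem?_cons_succ, List.getElem?_cons_zero, Option.bind_some]
    rw [← ih, List.filterMap_cons]
    cases f a <;> simp [lhs, add_comm]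

omit [DecidableEq Blk] in
theorem chain_lhs_eqn (s : X → ZMod 2) (B : Blk) :
    lhs s (S.eqn B) = ∑ i ∈ range (S.cols B).length, S.chainCol s B i :=
  chain_list_sum s _ _

omit [DecidableEq Blk] in
theorem chain_lhs_some (σ : CX Blk X → ZMod 2) (B : Blk) (t : ℕ) :
    lhs σ (S.ceqn (some (B, t))) = σ (S.usum B t) + σ (S.usum B (t + 1)) + σ (S.colv B t) := by
  simp [lhs, ceqn, var3, add_assoc]

omit [DecidableEq Blk] in
theorem chain_lhs_none (σ : CX Blk X → ZMod 2) : lhs σ (S.ceqn none) = σ none := by
  simp [lhs, ceqn, var3, cons_add_self]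

omit [DecidableEq Blk] in
theorem chain_colv (σ : CX Blk X → ZMod 2) (h0 : σ none = 0) (B : Blk) (t : ℕ) :
    σ (S.colv B t) = S.chainCol (fun x => σ (some (Sum.inl x))) B t := by
  unfold colv chainCol
  cases (S.cols B)[t]?.bind (S.cv B) <;> simp [h0]

omit [DecidableEq Blk] in
theorem chain_lift_sat (s : X → ZMod 2) (c : CC Blk) (hc : S.cok c)
    (hs : ∀ q, c = some q → lhs s (S.eqn q.1) = β q.1) :
    lhs (S.chainLift β s) (S.ceqn c) = crhs β c := by
  rcases c with _ | ⟨B, t⟩
  · rw [chain_lhs_none]; rfl
  · have ht : t < (S.cols B).length := hc.2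
    have h1 := hs _ rfl
    rw [chain_lhs_eqn] at h1
    have h2 : S.chainLift β s (S.usum B (t + 1)) = β B + ∑ i ∈ range (t + 1), S.chainCol s B i := by
      unfold usum
      by_cases h : t + 1 = (S.cols B).length
      · rw [if_pos (Or.inr h), h, h1, cons_add_self]; rfl
      · rw [if_neg (by omega)]; rfl
    have h3 : S.chainLift β s (S.colv B t) = S.chainCol s B t := S.chain_colv _ rfl B t
    rw [chain_lhs_some, h2, h3, sum_range_succ]
    by_cases h0 : t = 0
    · subst h0
      have : S.chainLift β s (S.usum B 0) = 0 := by simp [usum, chainLift]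
      rw [this]
      simp [crhs, add_assoc, cons_add_self]
    · have : S.chainLift β s (S.usum B t) = β B + ∑ i ∈ range t, S.chainCol s B i := by
        unfold usum
        rw [if_neg (by omega)]; rfl
      rw [this]
      simp only [crhs, Option.elim, h0, if_false]
      linear_combination cons_add_self (β B) + cons_add_self (S.chainCol s B t)
        + cons_add_self (∑ i ∈ range t, S.chainCol s B i)

omit [DecidableEq Blk] in
theorem chain_lift_congr {s s' : X → ZMod 2} (c : CC Blk)
    (hs : ∀ q, c = some q → ∀ x ∈ S.eqn q.1, s' x = s x) :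
    ∀ v ∈ S.ceqn c, S.chainLift β s' v = S.chainLift β s v := by
  rcases c with _ | ⟨B, t⟩
  · intro v hv
    have : v = none := by simpa [ceqn, var3] using hv
    rw [this]; rfl
  · have hcol : ∀ i, S.chainCol s' B i = S.chainCol s B i := by
      intro i
      unfold chainCol
      cases h : (S.cols B)[i]?.bind (S.cv B) with
      | none => rfl
      | some x =>
        obtain ⟨κ, h1, h2⟩ := Option.bind_eq_some_iff.1 h
        exact hs _ rfl x (List.mem_filterMap.2 ⟨κ, List.mem_of_getElem? h1, h2⟩)
    have hu : ∀ i, S.chainLift β s' (S.usum B i) = S.chainLift β s (S.usum B i) := by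
      intro i
      unfold usum
      split_ifs
      · rfl
      · simp only [chainLift, hcol]
    intro v hv
    have : v = S.usum B t ∨ v = S.usum B (t + 1) ∨ v = S.colv B t := by
      simpa [ceqn, var3] using hv
    rcases this with rfl | rfl | rfl
    · exact hu _
    · exact hu _
    · rw [S.chain_colv (S.chainLift β s') rfl, S.chain_colv (S.chainLift β s) rfl]
      exact hcol t

theorem chain_cons (hne : ∀ B, S.ok B → S.cols B ≠ []) (h : Cons K S.ok S.eqn β) :
    Cons K S.cok S.ceqn (crhs β) := by
  obtain ⟨F, h⟩ := h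
  refine ⟨{r | (∀ c ∈ r.1, S.cok c) ∧ ∃ p s, (p, s) ∈ F ∧ (∀ q, some q ∈ r.1 → q.1 ∈ p) ∧
      r.2 = S.chainLift β s}, ?_, fun r σ hr => hr.1, ?_, ?_, ?_⟩
  · obtain ⟨⟨p, s⟩, hp⟩ := h.ne
    exact ⟨(∅, S.chainLift β s), by simp, p, s, hp, by simp, rfl⟩
  · rintro r σ ⟨h1, p, s, hp, h2, h3⟩ c hc
    have h3' : σ = S.chainLift β s := h3
    rw [h3']
    exact S.chain_lift_sat s c (h1 c hc) fun q hq => h.sat p s hp _ (h2 q (hq ▸ hc))
  · rintro r σ ⟨h1, p, s, hp, h2, h3⟩ r' hr'
    exact ⟨fun c hc => h1 c (hr' hc), p, s, hp, fun q hq => h2 q (hr' hq), h3⟩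
  · rintro r σ ⟨h1, p, s, hp, h2, h3⟩ hK c hc
    have h3' : σ = S.chainLift β s := h3
    have hok : ∀ c' ∈ insert c r, S.cok c' := fun c' hc' => by
      rcases mem_insert.1 hc' with rfl | h4
      · exact hc
      · exact h1 c' h4
    rcases c with _ | ⟨B, t⟩
    · exact ⟨σ, ⟨hok, p, s, hp, fun q hq => h2 q (by simpa using hq), h3⟩, fun _ _ => rfl⟩
    · set p' := (eraseNone r).image Prod.fst with hp'
      have hsub : p' ⊆ p := by
        intro a ha
        obtain ⟨q, hq, rfl⟩ := mem_image.1 ha
        exact h2 q (mem_eraseNone.1 hq)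
      have hcard : p'.card < K :=
        lt_of_le_of_lt (card_image_le.trans (card_eraseNone_le r)) hK
      obtain ⟨s', h4, h5⟩ := h.ext p' s (h.down p s hp p' hsub) hcard B hc.1
      refine ⟨S.chainLift β s', ⟨hok, _, s', h4, fun q hq => ?_, rfl⟩, ?_⟩
      · rcases mem_insert.1 hq with h6 | h6
        · rw [Option.some.inj h6]; exact mem_insert_self _ _
        · exact mem_insert_of_mem (mem_image_of_mem _ (mem_eraseNone.2 h6))
      · rintro v ⟨c', hc', hv⟩
        rw [h3']
        refine S.chain_lift_congr c' (fun q hq x hx => h5 x ⟨q.1, ?_, hx⟩) v hv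
        exact mem_image_of_mem _ (mem_eraseNone.2 (hq ▸ hc'))

omit [DecidableEq Blk] in
theorem chain_sat_iff (hne : ∀ B, S.ok B → S.cols B ≠ []) :
    Sat S.cok S.ceqn (crhs β) ↔ Sat S.ok S.eqn β := by
  constructor
  · rintro ⟨σ, h⟩
    have h0 : σ none = 0 := by
      have := h none trivial
      rwa [chain_lhs_none] at this
    refine ⟨fun x => σ (some (Sum.inl x)), fun B hB => ?_⟩
    have key : ∀ t < (S.cols B).length, σ (S.usum B (t + 1)) =
        β B + ∑ i ∈ range (t + 1), S.chainCol (fun x => σ (some (Sum.inl x))) B i := by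
      intro t
      induction t with
      | zero =>
        intro ht
        have := h (some (B, 0)) ⟨hB, ht⟩
        rw [chain_lhs_some, S.chain_colv σ h0] at this
        have e : σ (S.usum B 0) = 0 := by simp [usum, h0]
        simp only [crhs, Option.elim, if_true, e] at this
        rw [sum_range_one]
        linear_combination this - cons_add_self
          (S.chainCol (fun x => σ (some (Sum.inl x))) B 0)
      | succ t ih =>
        intro ht
        have := h (some (B, t + 1)) ⟨hB, ht⟩
        rw [chain_lhs_some, S.chain_colv σ h0, ih (by omega)] at this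
        simp only [crhs, Option.elim, Nat.succ_ne_zero, if_false] at this
        rw [sum_range_succ _ (t + 1)]
        linear_combination this - cons_add_self (β B) - cons_add_self
          (S.chainCol (fun x => σ (some (Sum.inl x))) B (t + 1)) - cons_add_self
          (∑ i ∈ range (t + 1), S.chainCol (fun x => σ (some (Sum.inl x))) B i)
    have hpos : 0 < (S.cols B).length := List.length_pos_iff.2 (hne B hB)
    have := key ((S.cols B).length - 1) (by omega)
    rw [Nat.sub_add_cancel hpos, ← chain_lhs_eqn] at this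
    have e : σ (S.usum B (S.cols B).length) = 0 := by simp [usum, h0]
    rw [e] at this
    linear_combination -this - cons_add_self (β B)
  · rintro ⟨s, h⟩
    exact ⟨S.chainLift β s, fun c hc => S.chain_lift_sat s c hc fun q hq =>
      h _ (by subst hq; exact hc.1)⟩

/-- Every right-hand side of the chains is a translate of an induced one. -/
theorem chain_normalise (b : CC Blk → ZMod 2) :
    ∃ β : Blk → ZMod 2, (Cons K S.cok S.ceqn b → Cons K S.cok S.ceqn (crhs β)) ∧
      (Sat S.cok S.ceqn (crhs β) → Sat S.cok S.ceqn b) := by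
  let τ₀ : CX Blk X → ZMod 2 := fun v => v.elim (b none) fun _ => 0
  let g : Blk → ℕ → ZMod 2 := fun B t =>
    ∑ s ∈ Ico t (S.cols B).length, (b (some (B, s)) + τ₀ (S.colv B s)) + b none
  let τ : CX Blk X → ZMod 2 := fun v => v.elim (b none) fun w => w.elim (fun _ => 0)
    fun q => g q.1 q.2
  have hcol : ∀ B t, τ (S.colv B t) = τ₀ (S.colv B t) := by
    intro B t
    unfold colv
    cases (S.cols B)[t]?.bind (S.cv B) <;> rfl
  have hu : ∀ B t, t ≠ 0 → τ (S.usum B t) = g B t := by
    intro B t ht
    unfold usum
    split_ifs with h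
    · have : t = (S.cols B).length := by omega
      simp [g, τ, this]
    · rfl
  have key : ∀ c, S.cok c → b c + lhs τ (S.ceqn c) =
      crhs (fun B => b (some (B, 0)) + lhs τ (S.ceqn (some (B, 0)))) c := by
    rintro (_ | ⟨B, t⟩) hc
    · rw [chain_lhs_none]
      exact cons_add_self _
    · by_cases h0 : t = 0
      · subst h0; rfl
      · have ht : t < (S.cols B).length := hc.2
        rw [chain_lhs_some, hcol, hu B t h0, hu B (t + 1) (by omega)]
        simp only [crhs, Option.elim, h0, if_false, g]
        rw [sum_eq_sum_Ico_succ_bot ht]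
        linear_combination cons_add_self (b (some (B, t))) + cons_add_self (τ₀ (S.colv B t))
          + cons_add_self (b none) + cons_add_self
            (∑ s ∈ Ico (t + 1) (S.cols B).length, (b (some (B, s)) + τ₀ (S.colv B s)))
  refine ⟨_, fun h => (h.translate τ).congr key, fun h => (h.translate τ).congr fun c hc => ?_⟩
  rw [← key c hc, add_assoc, cons_add_self, add_zero]

end BSys

end Crest.Agent.R290
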