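import Crest.Agent.R290.DefsRed

/-!
Row 290.  The codes of graphs are self-delimiting; membership in the languages.
-/

set_option autoImplicit false

namespace Crest.Agent.R290

open Crest.Agent.Lib.PT Crest.WLRefine Crest.Enc

theorem Code_length_flatMap {ι : Type} (l : List ι) (f : ι → List Bool) (n : ℕ)
    (h : ∀ i, (f i).length = n) : (l.flatMap f).length = l.length * n := by
  induction l with
  | nil => simp
  | cons x l ih => rw [List.flatMap_cons, List.length_append, ih, h, List.length_cons]; ring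

theorem Code_getD_flatMap {ι : Type} (f : ι → List Bool) (n : ℕ) (h : ∀ i, (f i).length = n)
    (r : List Bool) (b : ℕ) (hb : b < n) (l : List ι) (a : ℕ) (ha : a < l.length) :
    (l.flatMap f ++ r).getD (a * n + b) false = (f l[a]).getD b false := by
  induction l generalizing a with
  | nil => simp at ha
  | cons x l ih =>
    rw [List.flatMap_cons, List.append_assoc]
    cases a with
    | zero => rw [zero_mul, zero_add, List.getD_append _ _ _ _ (by rw [h]; exact hb)]; rfl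
    | succ a =>
      rw [List.getD_append_right _ _ _ _ (by rw [h]; nlinarith), h,
        show (a + 1) * n + b - n = a * n + b by rw [add_mul]; omega, ih a (by simpa using ha)]
      rfl

theorem sd_adjMatrixCode :
    SD (fun G : (Σ n : ℕ, Fin n → Fin n → Bool) => adjMatrixCode G.2) := by
  have h0 := Reads.self fun p : (Σ n : ℕ, Fin n → Fin n → Bool) × List Bool =>
    adjMatrixCode p.1.2 ++ p.2
  have h1 := Reads.split SD.natCode (x := fun p : (Σ n : ℕ, Fin n → Fin n → Bool) × List Bool =>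
    p.1.1) (h0.congr fun i => by rw [adjMatrixCode, List.append_assoc])
  have h2 := Reads.split_bitSquare (t := fun p : (Σ n : ℕ, Fin n → Fin n → Bool) × List Bool =>
    p.1.2) (r := fun p => p.2) h1.1
    (h1.2.congr fun i => by simp only [List.ofFn_eq_map, List.flatMap_def])
  exact SD.mk' (h1.1.sigmaMk h2.1) h2.2

theorem length_adjMatrixCode {n : ℕ} (G : Fin n → Fin n → Bool) :
    (adjMatrixCode G).length = (natCode n).length + n * n := by
  rw [adjMatrixCode, List.length_append, Code_length_flatMap _ _ n (by simp), List.length_finRange]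

theorem Code_inj {n n' : ℕ} {G : Fin n → Fin n → Bool} {G' : Fin n' → Fin n' → Bool}
    {r r' : List Bool} (h : adjMatrixCode G ++ r = adjMatrixCode G' ++ r') :
    (⟨n, G⟩ : Σ n : ℕ, Fin n → Fin n → Bool) = ⟨n', G'⟩ ∧ r = r' :=
  sd_adjMatrixCode.append_inj (x := ⟨n, G⟩) (y := ⟨n', G'⟩) h

theorem Code_inj' {n n' : ℕ} {G : Fin n → Fin n → Bool} {G' : Fin n' → Fin n' → Bool}
    (h : adjMatrixCode G = adjMatrixCode G') :
    (⟨n, G⟩ : Σ n : ℕ, Fin n → Fin n → Bool) = ⟨n', G'⟩ :=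
  sd_adjMatrixCode.injective (a₁ := ⟨n, G⟩) (a₂ := ⟨n', G'⟩) h

variable {k n m : ℕ}

theorem mem_varDim_iff (G : Fin n → Fin n → Bool) (H : Fin m → Fin m → Bool) :
    natCode k ++ adjMatrixCode G ++ adjMatrixCode H ∈ varDimEquivLang ↔
      2 ≤ k ∧ IsSimple G ∧ IsSimple H ∧ JEquiv k G H := by
  refine ⟨?_, fun ⟨h1, h2, h3, h4⟩ => ⟨k, n, m, G, H, h1, h2, h3, h4, rfl⟩⟩
  rintro ⟨k', n', m', G', H', h1, h2, h3, h4, h5⟩
  rw [List.append_assoc, List.append_assoc] at h5
  obtain ⟨rfl, h6⟩ := SD.natCode.append_inj h5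
  obtain ⟨h7, h8⟩ := Code_inj h6
  cases h7
  cases Code_inj' h8
  exact ⟨h1, h2, h3, h4⟩

theorem mem_subcubic_iff (G H : Fin n → Fin n → Bool) :
    natCode k ++ adjMatrixCode G ++ adjMatrixCode H ∈ subcubicVarDimEquivLang ↔
      2 ≤ k ∧ 0 < n ∧ SimpleConnSubcubic G ∧ SimpleConnSubcubic H ∧ JEquiv k G H := by
  refine ⟨?_, fun ⟨h0, h1, h2, h3, h4⟩ => ⟨k, n, G, H, h0, h1, h2, h3, h4, rfl⟩⟩
  rintro ⟨k', n', G', H', h0, h1, h2, h3, h4, h5⟩
  rw [List.append_assoc, List.append_assoc] at h5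
  obtain ⟨rfl, h6⟩ := SD.natCode.append_inj h5
  obtain ⟨h7, h8⟩ := Code_inj h6
  cases h7
  cases Code_inj' h8
  exact ⟨h0, h1, h2, h3, h4⟩

theorem mem_wlDimLe_iff (G : Fin n → Fin n → Bool) :
    natCode k ++ adjMatrixCode G ∈ wlDimLeLang ↔
      1 ≤ k ∧ 0 < n ∧ IsSimple G ∧ ∃ k', 1 ≤ k' ∧ k' ≤ k ∧ Identifies k' G := by
  refine ⟨?_, fun ⟨h1, h2, h3, h4⟩ => ⟨k, n, G, h1, h2, h3, h4, rfl⟩⟩
  rintro ⟨k', n', G', h1, h2, h3, h4, h5⟩
  obtain ⟨rfl, h6⟩ := SD.natCode.append_inj h5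
  cases Code_inj' h6
  exact ⟨h1, h2, h3, h4⟩

theorem mem_joint_iff (G : Fin n → Fin n → Bool) (H : Fin m → Fin m → Bool) :
    adjMatrixCode G ++ adjMatrixCode H ∈ jointEquivLang k ↔
      IsSimple G ∧ IsSimple H ∧ JEquiv k G H := by
  refine ⟨?_, fun ⟨h2, h3, h4⟩ => ⟨n, m, G, H, h2, h3, h4, rfl⟩⟩
  rintro ⟨n', m', G', H', h2, h3, h4, h6⟩
  obtain ⟨h7, h8⟩ := Code_inj h6
  cases h7
  cases Code_inj' h8
  exact ⟨h2, h3, h4⟩

theorem mem_sep_iff (G : Fin n → Fin n → Bool) (H : Fin m → Fin m → Bool) :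
    adjMatrixCode G ++ adjMatrixCode H ∈ sepEquivLang k ↔
      IsSimple G ∧ IsSimple H ∧ SEquiv k G H := by
  refine ⟨?_, fun ⟨h2, h3, h4⟩ => ⟨n, m, G, H, h2, h3, h4, rfl⟩⟩
  rintro ⟨n', m', G', H', h2, h3, h4, h6⟩
  obtain ⟨h7, h8⟩ := Code_inj h6
  cases h7
  cases Code_inj' h8
  exact ⟨h2, h3, h4⟩

/-- A total polynomial-time reader for a graph code at the front of a bit string: the order, the
matrix bits, the rest. -/
theorem exists_graphReader :
    ∃ (ord : List Bool → ℕ) (A : List Bool → ℕ → ℕ → Bool) (rest : List Bool → List Bool),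
      PT ord ∧ PT (fun p : List Bool × ℕ × ℕ => A p.1 p.2.1 p.2.2) ∧ PT rest ∧
      (∀ w, ord w * ord w ≤ w.length) ∧
      ∀ (n : ℕ) (G : Fin n → Fin n → Bool) (r : List Bool),
        ord (adjMatrixCode G ++ r) = n ∧ rest (adjMatrixCode G ++ r) = r ∧
          ∀ a b : Fin n, A (adjMatrixCode G ++ r) a b = G a b := by
  obtain ⟨P, hP, h⟩ := SD.natCode.exists_parser
  refine ⟨fun w => if (P w).1 * (P w).1 ≤ w.length then (P w).1 else 0,
    fun w a b => (P w).2.getD (a * (P w).1 + b) false,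
    fun w => (P w).2.drop ((P w).1 * (P w).1), by fun_prop, by fun_prop, by fun_prop,
    fun w => ?_, fun n G r => ?_⟩
  · dsimp only
    split_ifs with h1
    · exact h1
    · simp
  · have h1 := length_adjMatrixCode G
    have h2 : P (adjMatrixCode G ++ r) =
        (n, ((List.finRange n).flatMap fun v => (List.finRange n).map fun w => G v w) ++ r) := by
      rw [adjMatrixCode, List.append_assoc, h]
    simp only [h2]
    refine ⟨if_pos (by rw [List.length_append, h1]; omega), ?_, fun a b => ?_⟩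
    · exact List.drop_left' (by rw [Code_length_flatMap _ _ n (by simp), List.length_finRange])
    · rw [Code_getD_flatMap _ n (by simp) r b b.2 _ a (by simp)]
      simp

end Crest.Agent.R290
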