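import Crest.Agent.R290.DefsXor

/-!
Row 290.  General facts on local consistency.
-/

set_option autoImplicit false

namespace Crest.Agent.R290

open Finset

variable {C X : Type} [DecidableEq C] {K : ℕ} {ok : C → Prop} {eqn : C → List X}
  {b b' : C → ZMod 2}

omit [DecidableEq C] in
theorem cons_lhs_add (σ τ : X → ZMod 2) (l : List X) :
    lhs (fun x => σ x + τ x) l = lhs σ l + lhs τ l := by
  unfold lhs
  exact List.sum_map_add

omit [DecidableEq C] in
theorem cons_lhs_congr {σ τ : X → ZMod 2} {l : List X} (h : ∀ x ∈ l, σ x = τ x) :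
    lhs σ l = lhs τ l := by
  unfold lhs
  rw [List.map_congr_left h]

theorem cons_add_self (c : ZMod 2) : c + c = 0 := by
  revert c; decide

omit [DecidableEq C] in
theorem cons_touch_mono {p q : Finset C} {x : X} (h : Touch eqn p x) (hpq : p ⊆ q) :
    Touch eqn q x := by
  obtain ⟨c, hc, hx⟩ := h
  exact ⟨c, hpq hc, hx⟩

theorem Cons.congr (h : Cons K ok eqn b) (hb : ∀ c, ok c → b c = b' c) : Cons K ok eqn b' := by
  obtain ⟨F, h⟩ := h
  exact ⟨F, h.ne, h.mem_ok,
    fun p σ hp c hc => (h.sat p σ hp c hc).trans (hb c (h.mem_ok p σ hp c hc)), h.down, h.ext⟩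

omit [DecidableEq C] in
theorem Sat.congr (h : Sat ok eqn b) (hb : ∀ c, ok c → b c = b' c) : Sat ok eqn b' := by
  obtain ⟨σ, h⟩ := h
  exact ⟨σ, fun c hc => (h c hc).trans (hb c hc)⟩

theorem Cons.translate (h : Cons K ok eqn b) (τ : X → ZMod 2) :
    Cons K ok eqn (fun c => b c + lhs τ (eqn c)) := by
  obtain ⟨F, h⟩ := h
  have e : ∀ σ : X → ZMod 2, (fun x => σ x + τ x + τ x) = σ := fun σ => by
    funext x; rw [add_assoc, cons_add_self, add_zero]
  refine ⟨{q | (q.1, fun x => q.2 x + τ x) ∈ F}, ?_, fun p σ hp => h.mem_ok p _ hp,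
    fun p σ hp c hc => ?_, fun p σ hp q hq => h.down p _ hp q hq, fun p σ hp hK c hc => ?_⟩
  · obtain ⟨⟨p, σ⟩, hp⟩ := h.ne
    exact ⟨(p, fun x => σ x + τ x), by simpa only [Set.mem_ofPred_eq, e] using hp⟩
  · have := h.sat p _ hp c hc
    rw [cons_lhs_add] at this
    rw [← this, add_assoc, cons_add_self, add_zero]
  · obtain ⟨σ', h1, h2⟩ := h.ext p _ hp hK c hc
    refine ⟨fun x => σ' x + τ x, by simpa only [Set.mem_ofPred_eq, e] using h1, fun x hx => ?_⟩
    show σ' x + τ x = σ x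
    rw [h2 x hx, add_assoc, cons_add_self, add_zero]

omit [DecidableEq C] in
theorem Sat.translate (h : Sat ok eqn b) (τ : X → ZMod 2) :
    Sat ok eqn (fun c => b c + lhs τ (eqn c)) := by
  obtain ⟨σ, h⟩ := h
  exact ⟨fun x => σ x + τ x, fun c hc => by rw [cons_lhs_add, h c hc]⟩

theorem Sat.cons (h : Sat ok eqn b) (K : ℕ) : Cons K ok eqn b := by
  obtain ⟨σ, h⟩ := h
  refine ⟨{q | q.2 = σ ∧ ∀ c ∈ q.1, ok c}, ⟨(∅, σ), rfl, by simp⟩, fun p _ hp => hp.2,
    fun p σ' hp c hc => ?_, fun p _ hp q hq => ⟨hp.1, fun c hc => hp.2 c (hq hc)⟩,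
    fun p σ' hp _ c hc => ⟨σ', ⟨hp.1, ?_⟩, fun _ _ => rfl⟩⟩
  · have : σ' = σ := hp.1
    rw [this]; exact h c (hp.2 c hc)
  · intro c' hc'
    rcases mem_insert.1 hc' with rfl | h1
    · exact hc
    · exact hp.2 c' h1

/-- Extend a position to any larger set of at most `K` equations. -/
theorem IsCons.extend {F : Set (Finset C × (X → ZMod 2))} (h : IsCons K ok eqn b F)
    {p : Finset C} {σ : X → ZMod 2} (hp : (p, σ) ∈ F) (Q : Finset C) (hQ : ∀ c ∈ Q, ok c)
    (hK : (p ∪ Q).card ≤ K) :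
    ∃ σ', (p ∪ Q, σ') ∈ F ∧ ∀ x, Touch eqn p x → σ' x = σ x := by
  induction Q using Finset.induction_on with
  | empty => exact ⟨σ, by simpa using hp, fun _ _ => rfl⟩
  | insert c Q _ ih =>
    rw [union_insert] at hK ⊢
    obtain ⟨σ', h1, h2⟩ := ih (fun c hc => hQ c (mem_insert_of_mem hc))
      ((card_le_card (subset_insert _ _)).trans hK)
    by_cases hc : c ∈ p ∪ Q
    · rw [insert_eq_of_mem hc]
      exact ⟨σ', h1, h2⟩
    · rw [card_insert_of_notMem hc] at hK
      obtain ⟨σ'', h3, h4⟩ := h.ext _ _ h1 hK c (hQ c (mem_insert_self _ _))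
      exact ⟨σ'', h3, fun x hx => (h4 x (cons_touch_mono hx subset_union_left)).trans (h2 x hx)⟩

theorem Cons.sat (h : Cons K ok eqn b) (s : Finset C) (hs : ∀ c, ok c → c ∈ s)
    (hK : s.card ≤ K) : Sat ok eqn b := by
  classical
  obtain ⟨F, h⟩ := h
  obtain ⟨⟨p, σ⟩, hp⟩ := h.ne
  obtain ⟨σ', h1, -⟩ := h.extend (h.down p σ hp ∅ (empty_subset _)) (s.filter ok)
    (fun c hc => (mem_filter.1 hc).2) (by
      rw [empty_union]; exact (card_filter_le _ _).trans hK)
  exact ⟨σ', fun c hc => h.sat _ _ h1 c (by simp [hs c hc, hc])⟩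

/-- Migration: a sum of fewer than `K` variables that is constant on the positions containing a
fixed set `Q` of equations touching them is constant on all positions touching them. -/
theorem IsCons.migrate {F : Set (Finset C × (X → ZMod 2))} (h : IsCons K ok eqn b F)
    {ι : Type} (J : Finset ι) (x : ι → X) (Q : Finset C) (ζ : ZMod 2) (hJ : J.card < K)
    (hQ : ∀ c ∈ Q, ok c) (hQK : Q.card ≤ K) (hx : ∀ i ∈ J, Touch eqn Q (x i))
    (hζ : ∀ p σ, (p, σ) ∈ F → Q ⊆ p → ∑ i ∈ J, σ (x i) = ζ)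
    {p : Finset C} {σ : X → ZMod 2} (hp : (p, σ) ∈ F) (ht : ∀ i ∈ J, Touch eqn p (x i)) :
    ∑ i ∈ J, σ (x i) = ζ := by
  classical
  rcases J.eq_empty_or_nonempty with rfl | ⟨i₀, hi₀⟩
  · obtain ⟨σ', h1, -⟩ := h.extend (h.down p σ hp ∅ (empty_subset _)) Q hQ (by simpa using hQK)
    simpa using hζ _ _ h1 subset_union_right
  have : Nonempty C := ⟨(hx i₀ hi₀).choose⟩
  choose! c hc1 hc2 using hx
  choose! c' hc1' hc2' using ht
  have key : ∀ S ⊆ J, ∃ σ', (S.image c ∪ (J \ S).image c', σ') ∈ F ∧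
      ∀ i ∈ J, σ' (x i) = σ (x i) := by
    intro S
    induction S using Finset.induction_on with
    | empty =>
      intro _
      refine ⟨σ, h.down p σ hp _ ?_, fun _ _ => rfl⟩
      intro a ha
      simp only [image_empty, empty_union, sdiff_empty, mem_image] at ha
      obtain ⟨i, hi, rfl⟩ := ha
      exact hc1' i hi
    | insert j S hj ih =>
      intro hS
      have hjJ : j ∈ J := hS (mem_insert_self _ _)
      have hSJ : S ⊆ J := (subset_insert _ _).trans hS
      obtain ⟨σ', h1, h2⟩ := ih hSJ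
      have hcard : (S.image c ∪ (J \ S).image c').card < K := by
        have a1 := card_union_le (S.image c) ((J \ S).image c')
        have a2 : (S.image c).card ≤ S.card := card_image_le
        have a3 : ((J \ S).image c').card ≤ (J \ S).card := card_image_le
        have a4 := card_sdiff_add_card_eq_card hSJ
        omega
      obtain ⟨σ'', h3, h4⟩ := h.ext _ _ h1 hcard (c j) (hQ _ (hc1 j hjJ))
      refine ⟨σ'', h.down _ _ h3 _ ?_, fun i hi => (h4 _ ?_).trans (h2 i hi)⟩
      · rw [image_insert, insert_union]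
        exact insert_subset_insert _ (union_subset_union Subset.rfl
          (image_subset_image (sdiff_subset_sdiff Subset.rfl (subset_insert _ _))))
      · by_cases hiS : i ∈ S
        · exact ⟨c i, mem_union_left _ (mem_image_of_mem _ hiS), hc2 i hi⟩
        · exact ⟨c' i, mem_union_right _ (mem_image_of_mem _ (mem_sdiff.2 ⟨hi, hiS⟩)), hc2' i hi⟩
  obtain ⟨σ', h1, h2⟩ := key J Subset.rfl
  rw [sdiff_self, bot_eq_empty, image_empty, union_empty] at h1
  have hsub : J.image c ⊆ Q := by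
    intro a ha
    obtain ⟨i, hi, rfl⟩ := mem_image.1 ha
    exact hc1 i hi
  obtain ⟨σ'', h3, h4⟩ := h.extend h1 Q hQ (by rwa [union_eq_right.2 hsub])
  rw [← hζ _ _ h3 subset_union_right]
  exact sum_congr rfl fun i hi =>
    ((h4 _ ⟨c i, mem_image_of_mem _ hi, hc2 i hi⟩).trans (h2 i hi)).symm

/-- Transport of consistency along a map of names that is injective on the admissible names. -/
theorem cons_pull {C' : Type} [DecidableEq C'] {ok' : C' → Prop} (f : C' → C)
    (hf : ∀ a, ok' a → ok (f a)) (h : Cons K ok eqn b) :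
    Cons K ok' (fun a => eqn (f a)) (fun a => b (f a)) := by
  obtain ⟨F, h⟩ := h
  refine ⟨{q | (∀ a ∈ q.1, ok' a) ∧ (q.1.image f, q.2) ∈ F}, ?_, fun p σ hp => hp.1,
    fun p σ hp a ha => h.sat _ _ hp.2 _ (mem_image_of_mem _ ha),
    fun p σ hp q hq => ⟨fun a ha => hp.1 a (hq ha), h.down _ _ hp.2 _ (image_subset_image hq)⟩,
    fun p σ hp hK a ha => ?_⟩
  · obtain ⟨⟨p, σ⟩, hp⟩ := h.ne
    exact ⟨(∅, σ), by simp, h.down p σ hp _ (by simp)⟩
  · obtain ⟨σ', h1, h2⟩ := h.ext _ _ hp.2 (lt_of_le_of_lt card_image_le hK) (f a) (hf a ha)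
    refine ⟨σ', ⟨fun a' ha' => ?_, by simpa only [image_insert] using h1⟩, fun x hx => h2 x ?_⟩
    · rcases mem_insert.1 ha' with rfl | h3
      · exact ha
      · exact hp.1 a' h3
    · obtain ⟨a', h3, h4⟩ := hx
      exact ⟨f a', mem_image_of_mem _ h3, h4⟩

theorem cons_congr_eqn {eqn' : C → List X} (h : Cons K ok eqn b)
    (he : ∀ c, ok c → eqn c = eqn' c) : Cons K ok eqn' b := by
  obtain ⟨F, h⟩ := h
  refine ⟨F, h.ne, h.mem_ok, fun p σ hp c hc => ?_, h.down, fun p σ hp hK c hc => ?_⟩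
  · rw [← he c (h.mem_ok p σ hp c hc)]; exact h.sat p σ hp c hc
  · obtain ⟨σ', h1, h2⟩ := h.ext p σ hp hK c hc
    refine ⟨σ', h1, fun x hx => h2 x ?_⟩
    obtain ⟨a, h3, h4⟩ := hx
    exact ⟨a, h3, by rwa [he a (h.mem_ok p σ hp a h3)]⟩

/-- Numbering the equations by a list. -/
theorem cons_list_iff (cs : List C) (hnd : cs.Nodup) (hcs : ∀ c, c ∈ cs ↔ ok c) (c₀ : C) :
    Cons K (fun a => a < cs.length) (fun a => eqn (cs.getD a c₀)) (fun a => b (cs.getD a c₀)) ↔
      Cons K ok eqn b := by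
  constructor
  · intro h
    have e : ∀ c, ok c → cs.getD (cs.idxOf c) c₀ = c := fun c hc => by
      have := List.idxOf_lt_length_of_mem ((hcs c).2 hc)
      rw [List.getD_eq_getElem _ _ this, List.getElem_idxOf]
    have := cons_pull (ok' := ok) (fun c => cs.idxOf c)
      (fun c hc => List.idxOf_lt_length_of_mem ((hcs c).2 hc)) h
    exact (cons_congr_eqn this fun c hc => by rw [e c hc]).congr fun c hc => by rw [e c hc]
  · exact cons_pull (fun a => cs.getD a c₀) fun a ha => (hcs _).1 (by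
      rw [List.getD_eq_getElem _ _ ha]; exact List.getElem_mem _)

omit [DecidableEq C] in
theorem sat_list_iff (cs : List C) (hcs : ∀ c, c ∈ cs ↔ ok c) (c₀ : C) :
    Sat (fun a => a < cs.length) (fun a => eqn (cs.getD a c₀)) (fun a => b (cs.getD a c₀)) ↔
      Sat ok eqn b := by
  constructor
  · rintro ⟨σ, h⟩
    refine ⟨σ, fun c hc => ?_⟩
    obtain ⟨a, ha, rfl⟩ := List.getElem_of_mem ((hcs c).2 hc)
    have := h a ha
    simpa only [List.getD_eq_getElem _ _ ha] using this
  · rintro ⟨σ, h⟩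
    exact ⟨σ, fun a ha => h _ ((hcs _).1 (by
      rw [List.getD_eq_getElem _ _ ha]; exact List.getElem_mem _))⟩

/-- Every right-hand side on numbers comes from one on names. -/
theorem exists_rhs_of_list (cs : List C) (hnd : cs.Nodup) (c₀ : C) (β : ℕ → ZMod 2) :
    ∃ b : C → ZMod 2, ∀ a < cs.length, β a = b (cs.getD a c₀) := by
  refine ⟨fun c => β (cs.idxOf c), fun a ha => ?_⟩
  show β a = β (cs.idxOf _)
  rw [List.getD_eq_getElem _ _ ha, hnd.idxOf_getElem]

end Crest.Agent.R290
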