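import Crest.Agent.R290.DefsXor

/-!
Row 290.  Gadget systems.

There are `m` rows; rows `2 ρ` and `2 ρ + 1` form register `ρ` (when `m` is odd the last row is a
dummy whose value is always `0`).  A type `f` has the port variables `(f, i, s)`, `i` a row and `s`
a value.  Gadget `r` has one long equation for every row `i` and every value `d` of the register of
`i` (only `d = 0` when the register is not wild in `r`): the ports of the types in `F r`, an
optional foreign port, a variable shared by the two rows of a wild register, and one variable for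
every other row, shared with that row.  Adding the equations of all rows in one world `d` gives
`∑ f ∈ F r, ∑ i, x (f, i, wv r f d (i / 2)) + foreign = b r`.
-/

set_option autoImplicit false

namespace Crest.Agent.R290

open Finset

/-- The data of a gadget system. -/
structure GSys (R T : Type) where
  m : ℕ
  n : ℕ
  okR : R → Prop
  F : R → List T
  wild : R → ℕ → Bool
  fix : R → T → ℕ → ℕ
  fgn : R → Option (T × ℕ × ℕ)
  b : R → ZMod 2

/-- Variables: ports, register variables `(r, ρ, d)`, clique variables `(r, j, l)`. -/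
abbrev GX (R T : Type) : Type := (T × ℕ × ℕ) ⊕ (R × ℕ × ℕ) ⊕ (R × ℕ × ℕ)

/-- Column names: a type, the foreign column (`false`), the register column (`true`), a pair of
rows. -/
abbrev GC (T : Type) : Type := T ⊕ Bool ⊕ (ℕ × ℕ)

/-- Blocks `(r, i, d)`. -/
abbrev GB (R : Type) : Type := R × ℕ × ℕ

/-- The pairs `j < l < m`. -/
def rowPairs (m : ℕ) : List (ℕ × ℕ) :=
  (List.range m).flatMap fun l => (List.range l).map fun j => (j, l)

namespace GSys

variable {R T : Type} (G : GSys R T)

/-- The value of type `f` in register `ρ` when the block value is `d`. -/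
def val (r : R) (f : T) (ρ d : ℕ) : ℕ := if G.wild r ρ then d else G.fix r f ρ

/-- The world of type `f` in gadget `r` when the wild registers carry `d`. -/
def wv (r : R) (f : T) (d : ℕ → ℕ) : ℕ → ℕ := fun ρ => G.val r f ρ (d ρ)

def cols (B : GB R) : List (GC T) :=
  (G.F B.1).map Sum.inl ++ [Sum.inr (Sum.inl false), Sum.inr (Sum.inl true)] ++
    (rowPairs G.m).map fun q => Sum.inr (Sum.inr q)

def cv (B : GB R) (κ : GC T) : Option (GX R T) :=
  κ.elim (fun f => some (Sum.inl (f, B.2.1, G.val B.1 f (B.2.1 / 2) B.2.2))) fun κ' =>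
    κ'.elim
      (fun e => if e then
          (if G.wild B.1 (B.2.1 / 2) then some (Sum.inr (Sum.inl (B.1, B.2.1 / 2, B.2.2))) else none)
        else (G.fgn B.1).bind fun y => if B.2.1 = y.2.1 then some (Sum.inl y) else none)
      (fun q => if B.2.1 = q.1 ∨ B.2.1 = q.2 then some (Sum.inr (Sum.inr (B.1, q.1, q.2))) else none)

def ok (B : GB R) : Prop :=
  G.okR B.1 ∧ B.2.1 < G.m ∧ (if G.wild B.1 (B.2.1 / 2) then B.2.2 < G.n else B.2.2 = 0)

/-- The long equations. -/
def sys : BSys (GB R) (GC T) (GX R T) := ⟨G.ok, G.cols, G.cv⟩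

/-- The standard right-hand side. -/
def rhs (B : GB R) : ZMod 2 := if B.2.1 = 0 then G.b B.1 else 0

/-- The ports of type `f` in the world `a`. -/
def ports [DecidableEq R] [DecidableEq T] (f : T) (a : ℕ → ℕ) : Finset (GX R T) :=
  (range G.m).image fun i => Sum.inl (f, i, a (i / 2))

/-- Row `i` is the dummy row. -/
def dummy (i : ℕ) : Prop := G.m / 2 ≤ i / 2

/-- Structural conditions. -/
structure WF : Prop where
  m4 : 4 ≤ G.m
  npos : 0 < G.n
  nodup : ∀ r, G.okR r → (G.F r).Nodup
  out : ∀ r, G.okR r → ∀ ρ, G.m / 2 ≤ ρ → G.wild r ρ = false ∧ ∀ f, G.fix r f ρ = 0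
  fix_lt : ∀ r, G.okR r → ∀ f ∈ G.F r, ∀ ρ, G.fix r f ρ < G.n
  fgn : ∀ r, G.okR r → ∀ y, G.fgn r = some y → y.2.1 < G.m ∧ (G.dummy y.2.1 → y.2.2 = 0) ∧
    y.1 ∉ G.F r ∧ ∀ ρ, G.wild r ρ = false

/-- The types a gadget mentions. -/
def Ment (r : R) (f : T) : Prop := f ∈ G.F r ∨ ∃ y, G.fgn r = some y ∧ y.1 = f

/-- The hypotheses under which Duplicator wins; `Tr f a` reads "type `f` is true in world `a`". -/
structure Safe (Tr : T → (ℕ → ℕ) → Prop) : Prop where
  share : ∀ r r', G.okR r → G.okR r' → r ≠ r' → ∀ f g, G.Ment r f → G.Ment r' f →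
    G.Ment r g → G.Ment r' g → f = g
  two : ∀ r, G.okR r → ∀ ρ, G.wild r ρ = true → 2 ≤ (G.F r).length
  congr : ∀ f a a', (∀ ρ < G.m / 2, a ρ = a' ρ) → Tr f a → Tr f a'
  local' : ∀ r, G.okR r → ∀ d : ℕ → ℕ, (∀ ρ, d ρ < G.n) →
    ((∀ f ∈ G.F r, Tr f (G.wv r f d)) ∧ G.b r = 0 ∧ G.fgn r = none) ∨
      ∃ f ∈ G.F r, ∃ g ∈ G.F r, f ≠ g ∧ ¬ Tr f (G.wv r f d) ∧ ¬ Tr g (G.wv r g d)

end GSys

end Crest.Agent.R290
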