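import Mathlib

/-!
Row 290.  Linear systems over the field with two elements: local consistency, splitting long
equations into chains of three-variable equations, forced sums.
-/

set_option autoImplicit false

namespace Crest.Agent.R290

open Finset

section Cons

variable {C X : Type} [DecidableEq C]

/-- The left-hand side of an equation (a list of variables). -/
def lhs (σ : X → ZMod 2) (l : List X) : ZMod 2 := (l.map σ).sum

/-- The variable `x` occurs in an equation of `p`. -/
def Touch (eqn : C → List X) (p : Finset C) (x : X) : Prop := ∃ c ∈ p, x ∈ eqn c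

/-- `F` witnesses `K`-consistency of the system with equations `eqn c = b c`, `c` ranging over the
names with `ok c`. -/
structure IsCons (K : ℕ) (ok : C → Prop) (eqn : C → List X) (b : C → ZMod 2)
    (F : Set (Finset C × (X → ZMod 2))) : Prop where
  ne : F.Nonempty
  mem_ok : ∀ p σ, (p, σ) ∈ F → ∀ c ∈ p, ok c
  sat : ∀ p σ, (p, σ) ∈ F → ∀ c ∈ p, lhs σ (eqn c) = b c
  down : ∀ p σ, (p, σ) ∈ F → ∀ q, q ⊆ p → (q, σ) ∈ F
  ext : ∀ p σ, (p, σ) ∈ F → p.card < K → ∀ c, ok c →
    ∃ σ', (insert c p, σ') ∈ F ∧ ∀ x, Touch eqn p x → σ' x = σ x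

/-- `K`-consistency. -/
def Cons (K : ℕ) (ok : C → Prop) (eqn : C → List X) (b : C → ZMod 2) : Prop :=
  ∃ F, IsCons K ok eqn b F

/-- Global satisfiability. -/
def Sat (ok : C → Prop) (eqn : C → List X) (b : C → ZMod 2) : Prop :=
  ∃ σ : X → ZMod 2, ∀ c, ok c → lhs σ (eqn c) = b c

end Cons

/-- A system of long equations: block `B` has the columns `cols B`, and column `κ` contributes the
variable `cv B κ` (or nothing). -/
structure BSys (Blk CN X : Type) where
  ok : Blk → Prop
  cols : Blk → List CN
  cv : Blk → CN → Option X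

namespace BSys

variable {Blk CN X : Type} (S : BSys Blk CN X)

/-- The long equation of a block. -/
def eqn (B : Blk) : List X := (S.cols B).filterMap (S.cv B)

/-- Names of the short equations: `none` is the equation `z + z + z = 0`, and `some (B, t)` the
link number `t` of the chain of block `B`. -/
abbrev CC (Blk : Type) : Type := Option (Blk × ℕ)

/-- Variables of the short equations: `none` is the zero variable `z`, then the old variables and
the partial sums. -/
abbrev CX (Blk X : Type) : Type := Option (X ⊕ (Blk × ℕ))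

/-- The partial sum of the first `t` columns of block `B`; both ends are the zero variable. -/
def usum (B : Blk) (t : ℕ) : CX Blk X :=
  if t = 0 ∨ t = (S.cols B).length then none else some (Sum.inr (B, t))

/-- The variable of column number `t` of block `B` (the zero variable if there is none). -/
def colv (B : Blk) (t : ℕ) : CX Blk X := ((S.cols B)[t]?.bind (S.cv B)).map Sum.inl

/-- The `j`-th variable (`j = 0, 1, 2`) of a short equation. -/
def var3 (c : CC Blk) (j : ℕ) : CX Blk X :=
  c.elim none fun q =>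
    if j = 0 then S.usum q.1 q.2 else if j = 1 then S.usum q.1 (q.2 + 1) else S.colv q.1 q.2

def cok : CC Blk → Prop
  | none => True
  | some q => S.ok q.1 ∧ q.2 < (S.cols q.1).length

def ceqn (c : CC Blk) : List (CX Blk X) := [S.var3 c 0, S.var3 c 1, S.var3 c 2]

/-- The right-hand sides of the short equations induced by those of the long ones. -/
def crhs (β : Blk → ZMod 2) (c : CC Blk) : ZMod 2 :=
  c.elim 0 fun q => if q.2 = 0 then β q.1 else 0

/-- Column `κ` of the blocks `B i`, `i ∈ J`, sums to the sum of the variables in `A`. -/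
def Col (J : Finset ℕ) (B : ℕ → Blk) (κ : CN) (A : Finset X) : Prop :=
  (∀ x ∈ A, ∃ i ∈ J, S.cv (B i) κ = some x) ∧
    ∀ σ : X → ZMod 2, ∑ i ∈ J, (S.cv (B i) κ).elim 0 σ = ∑ x ∈ A, σ x

/-- What Spoiler can do with `K` pebbles on the chains: `BF A ζ` is to be read as "the sum of the
variables in `A` is `ζ` in every position touching all of them". -/
structure Forcing [DecidableEq X] (K : ℕ) (β : Blk → ZMod 2)
    (BF : Finset X → ZMod 2 → Prop) : Prop where
  empty : BF ∅ 0
  union : ∀ A A' ζ ζ', BF A ζ → BF A' ζ' → Disjoint A A' → BF (A ∪ A') (ζ + ζ')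
  check : ∀ (J : Finset ℕ) (B : ℕ → Blk) (cl : List CN) (A : CN → Finset X) (ζ : CN → ZMod 2),
    J.card < K → (∀ i ∈ J, S.ok (B i) ∧ S.cols (B i) = cl) →
    (∀ κ ∈ cl, S.Col J B κ (A κ) ∧ BF (A κ) (ζ κ)) → ∑ i ∈ J, β (B i) = (cl.map ζ).sum
  solve : ∀ (J : Finset ℕ) (B : ℕ → Blk) (cl : List CN) (A : CN → Finset X) (κ₀ : CN),
    J.card < K → (∀ i ∈ J, S.ok (B i) ∧ S.cols (B i) = cl) → cl.Nodup → κ₀ ∈ cl →
    (∀ κ ∈ cl, S.Col J B κ (A κ)) → (∀ κ ∈ cl, κ ≠ κ₀ → ∃ ζ, BF (A κ) ζ) → ∃ ζ, BF (A κ₀) ζ

end BSys

/-- The three-variable equation number `c`, the variable of occurrence `o` being `ov o`. -/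
def geqn {X : Type} (ov : ℕ → X) (c : ℕ) : List X := [ov (3 * c), ov (3 * c + 1), ov (3 * c + 2)]

end Crest.Agent.R290
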