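import Crest.Agent.R290.DefsPeb
import Crest.Agent.R290.DefsXor

/-!
Row 290.  The subcubic connected graph of a system of `N` three-variable equations.

Occurrence `o < 3 N` belongs to equation `o / 3`.  It has four two-vertex nodes `pr κ o`,
`κ = 0, 1, 2, 3`, joined in a path by matchings; node `0` is attached to the four-vertex node
`ck (o / 3)`, node `3` to the nodes `3` of the previous and next occurrence of the same variable,
nodes `1` and `2` carry the markers `mu (2 o)`, `mu (2 o + 1)`.  The markers hang on a path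
`q 0, q 1, …` with a tail of `L + 2` vertices.
-/

set_option autoImplicit false

namespace Crest.Agent.R290

/-- Vertex names. -/
inductive Vx : Type
  | q (j : ℕ)
  | mu (τ : ℕ)
  | pr (κ o : ℕ) (x : ZMod 2)
  | ck (c : ℕ) (y₁ y₂ : ZMod 2)
  deriving DecidableEq

namespace Vx

/-- The names that are vertices. -/
def ok (N L : ℕ) : Vx → Prop
  | q j => j < L + 2 + 12 * N
  | mu τ => τ < 6 * N
  | pr κ o _ => κ < 4 ∧ o < 3 * N
  | ck c _ _ => c < N

/-- The node a vertex belongs to. -/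
def base : Vx → Vx
  | q j => q j
  | mu τ => mu τ
  | pr κ o _ => pr κ o 0
  | ck c _ _ => ck c 0 0

end Vx

/-- The value that the vertex `ck c y₁ y₂` gives to position `j` of an equation with right-hand
side `β`. -/
def ckBit (β y₁ y₂ : ZMod 2) (j : ℕ) : ZMod 2 :=
  if j = 0 then y₁ else if j = 1 then y₂ else y₁ + y₂ + β

section

variable {X : Type} [DecidableEq X]

/-- `o'` is the next occurrence of the variable of occurrence `o`. -/
def nxt (ov : ℕ → X) (o o' : ℕ) : Bool :=
  decide (o < o' ∧ ov o = ov o' ∧ ∀ o'' < o', o < o'' → ov o'' ≠ ov o)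

/-- Edges, each listed in one direction. -/
def ged (L : ℕ) (ov : ℕ → X) (b : ℕ → ZMod 2) : Vx → Vx → Bool
  | .q j, .q j' => decide (j' = j + 1)
  | .q j, .mu τ => decide (j = L + 2 + 2 * τ)
  | .mu τ, .pr κ o _ => decide ((κ = 1 ∧ τ = 2 * o) ∨ (κ = 2 ∧ τ = 2 * o + 1))
  | .pr κ o x, .pr κ' o' x' =>
      decide (x = x') && (decide (o = o' ∧ κ' = κ + 1) || (decide (κ = 3 ∧ κ' = 3) && nxt ov o o'))
  | .ck c y₁ y₂, .pr κ o x => decide (κ = 0 ∧ o / 3 = c ∧ x = ckBit (b c) y₁ y₂ (o % 3))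
  | _, _ => false

/-- Adjacency of vertex names. -/
def gadj (L : ℕ) (ov : ℕ → X) (b : ℕ → ZMod 2) (u v : Vx) : Bool :=
  ged L ov b u v || ged L ov b v u

/-- The vertex type. -/
abbrev GV (N L : ℕ) : Type := {v : Vx // v.ok N L}

/-- The graph, on the vertex type. -/
def gr (N L : ℕ) (ov : ℕ → X) (b : ℕ → ZMod 2) : GV N L → GV N L → Bool :=
  fun u v => gadj L ov b u.1 v.1

/-- The number of vertices. -/
def nv (N L : ℕ) : ℕ := L + 2 + 46 * N

/-- The vertex with a given number. -/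
def vx (N L a : ℕ) : Vx :=
  if a < L + 2 + 12 * N then .q a
  else if a < L + 2 + 18 * N then .mu (a - (L + 2 + 12 * N))
  else if a < L + 2 + 42 * N then
    .pr ((a - (L + 2 + 18 * N)) % 8 / 2) ((a - (L + 2 + 18 * N)) / 8)
      (((a - (L + 2 + 18 * N)) % 2 : ℕ) : ZMod 2)
  else .ck ((a - (L + 2 + 42 * N)) / 4) (((a - (L + 2 + 42 * N)) % 4 / 2 : ℕ) : ZMod 2)
    (((a - (L + 2 + 42 * N)) % 2 : ℕ) : ZMod 2)

/-- The graph, on vertex numbers. -/
def adjN (N L : ℕ) (ov : ℕ → X) (b : ℕ → ZMod 2) (a a' : ℕ) : Bool :=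
  gadj L ov b (vx N L a) (vx N L a')

end

end Crest.Agent.R290
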