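import Crest.Agent.R290.DefsGad

/-!
Row 290.  Horn rules over registers, their gadget system, and Horn rules on a grid.
-/

set_option autoImplicit false

namespace Crest.Agent.R290

open Finset

/-- A pattern: for each register, `none` (wild) or the values on the premise and on the conclusion
side.  Registers beyond the list are fixed to `0` on both sides. -/
abbrev Pat : Type := List (Option (ℕ × ℕ))

/-- The entry of a pattern at a register. -/
def patAt (π : Pat) (ρ : ℕ) : Option (ℕ × ℕ) := π.getD ρ (some (0, 0))

/-- The fixed value at a register, on the conclusion (`true`) or premise (`false`) side. -/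
def patFix (π : Pat) (side : Bool) (ρ : ℕ) : ℕ :=
  (patAt π ρ).elim 0 fun v => if side then v.2 else v.1

/-- The world on one side of a pattern when the wild registers carry `d`. -/
def patInst (π : Pat) (side : Bool) (d : ℕ → ℕ) : ℕ → ℕ :=
  fun ρ => if (patAt π ρ).isNone then d ρ else patFix π side ρ

/-- A rule: pattern, conclusion, premises. -/
abbrev Rule (A : Type) : Type := Pat × A × List A

/-- Derivable atoms in worlds with values below `n`. -/
inductive Der {A : Type} (n : ℕ) (rs : List (Rule A)) : A → (ℕ → ℕ) → Prop
  | rule (r : Rule A) (hr : r ∈ rs) (d : ℕ → ℕ) (hd : ∀ ρ, d ρ < n)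
      (h : ∀ τ ∈ r.2.2, Der n rs τ (patInst r.1 false d)) : Der n rs r.2.1 (patInst r.1 true d)

/-- Well-formed rule lists, for `m` rows, values below `n` and the goal atom `acc`. -/
structure HornWF {A : Type} (m n : ℕ) (rs : List (Rule A)) (acc : A) : Prop where
  m4 : 4 ≤ m
  npos : 0 < n
  len : ∀ r ∈ rs, r.1.length ≤ m / 2
  lt : ∀ r ∈ rs, ∀ v, some v ∈ r.1 → v.1 < n ∧ v.2 < n
  fact : ∀ r ∈ rs, r.2.2 = [] → none ∉ r.1
  prem : ∀ r ∈ rs, acc ∉ r.2.2
  concl : ∀ r ∈ rs, r.2.1 = acc → none ∉ r.1 ∧ ∀ ρ, patFix r.1 true ρ = 0
  ex : ∃ r ∈ rs, r.2.1 = acc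

/-- Slots of a rule gadget: the conclusion, or copy `γ` of premise number `j`. -/
abbrev Slot : Type := Option (ℕ × Bool)

/-- Private types: rule number, copy of the rule, slot. -/
abbrev Priv : Type := ℕ × Bool × Slot

/-- Master types (atom, copy) and private types. -/
abbrev T0 (A : Type) : Type := (A × Bool) ⊕ Priv

/-- Tests: the goal test, or the test of one port. -/
abbrev Test (A : Type) : Type := Option (T0 A × ℕ × ℕ)

/-- All types: the previous ones and two point types for each test. -/
abbrev HT (A : Type) : Type := T0 A ⊕ (Test A × Bool)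

/-- Gadgets: rule gadgets, copy gadgets of private types, tests, copy gadgets of point types. -/
abbrev HR (A : Type) : Type := (ℕ × Bool) ⊕ Priv ⊕ Test A ⊕ (Test A × Bool)

instance instDecEqPriv : DecidableEq Priv := inferInstance
instance instDecEqT0 {A : Type} [DecidableEq A] : DecidableEq (T0 A) := inferInstance
instance instDecEqTest {A : Type} [DecidableEq A] : DecidableEq (Test A) := inferInstance
instance instDecEqHT {A : Type} [DecidableEq A] : DecidableEq (HT A) := inferInstance
instance instDecEqHR {A : Type} [DecidableEq A] : DecidableEq (HR A) := inferInstance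
instance instDecEqGB {A : Type} [DecidableEq A] : DecidableEq (GB (HR A)) := inferInstance
instance instDecEqGX {A : Type} [DecidableEq A] : DecidableEq (GX (HR A) (HT A)) := inferInstance
instance instDecEqCC {A : Type} [DecidableEq A] : DecidableEq (BSys.CC (GB (HR A))) :=
  inferInstance
instance instDecEqCX {A : Type} [DecidableEq A] :
    DecidableEq (BSys.CX (GB (HR A)) (GX (HR A) (HT A))) := inferInstance

section

variable {A : Type} (m n : ℕ) (rs : List (Rule A)) (acc : A)

/-- Rule number `k`. -/
def ruleAt (k : ℕ) : Rule A := rs.getD k ([], acc, [])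

/-- The slots of rule number `k`. -/
def slots (k : ℕ) : List Slot :=
  none :: (List.range (ruleAt rs acc k).2.2.length).flatMap fun j => [some (j, false), some (j, true)]

/-- The master type of a private type. -/
def master (p : Priv) : A × Bool :=
  p.2.2.elim ((ruleAt rs acc p.1).2.1, p.2.1) fun q => ((ruleAt rs acc p.1).2.2.getD q.1 acc, q.2)

/-- All private types. -/
def privs : List Priv :=
  (List.range rs.length).flatMap fun k =>
    [false, true].flatMap fun β => (slots rs acc k).map fun s => (k, β, s)

/-- The types whose ports get a test. -/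
def tested [DecidableEq A] : List (T0 A) :=
  (privs rs acc).map Sum.inr ++
    (((privs rs acc).map (master rs acc)).filter fun q => decide (q.1 ≠ acc)).map Sum.inl

/-- All tests. -/
def tests [DecidableEq A] : List (Test A) :=
  none :: (tested rs acc).flatMap fun f => (List.range m).flatMap fun i =>
    (List.range (if m / 2 ≤ i / 2 then 1 else n)).map fun s => some (f, i, s)

/-- All gadgets. -/
def gads [DecidableEq A] : List (HR A) :=
  ((List.range rs.length).flatMap fun k => [Sum.inl (k, false), Sum.inl (k, true)]) ++
  (privs rs acc).map (fun p => Sum.inr (Sum.inl p)) ++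
  (tests m n rs acc).map (fun o => Sum.inr (Sum.inr (Sum.inl o))) ++
  (tests m n rs acc).flatMap fun o =>
    [Sum.inr (Sum.inr (Sum.inr (o, false))), Sum.inr (Sum.inr (Sum.inr (o, true)))]

def hF (r : HR A) : List (HT A) :=
  r.elim (fun q => (slots rs acc q.1).map fun s => Sum.inl (Sum.inr (q.1, q.2, s))) fun r' =>
    r'.elim (fun p => [Sum.inl (Sum.inr p), Sum.inl (Sum.inl (master rs acc p))]) fun r'' =>
      r''.elim (fun o => [Sum.inr (o, false), Sum.inr (o, true)])
        fun q => [Sum.inr q, Sum.inl (Sum.inl (acc, q.2))]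

/-- The pattern of a gadget (tests are fixed at the zero world). -/
def hPat (r : HR A) : Pat :=
  r.elim (fun q => (ruleAt rs acc q.1).1) fun r' =>
    r'.elim (fun p => (ruleAt rs acc p.1).1) fun _ => []

/-- The side of its pattern on which type `f` sits in gadget `r`. -/
def hSide (r : HR A) (f : HT A) : Bool :=
  r.elim (fun _ => f.elim (fun g => g.elim (fun _ => true) fun p => p.2.2.isNone) fun _ => true)
    fun r' => r'.elim (fun p => p.2.2.isNone) fun _ => true

def hFgn (r : HR A) : Option (HT A × ℕ × ℕ) :=
  r.elim (fun _ => none) fun r' => r'.elim (fun _ => none) fun r'' =>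
    r''.elim (fun o => o.map fun y => (Sum.inl y.1, y.2)) fun _ => none

def hB (r : HR A) : ZMod 2 :=
  r.elim (fun _ => 0) fun r' => r'.elim (fun _ => 0) fun r'' =>
    r''.elim (fun o => if o.isNone then 1 else 0) fun _ => 0

/-- The gadget system of a list of Horn rules. -/
def hornG [DecidableEq A] : GSys (HR A) (HT A) where
  m := m
  n := n
  okR r := r ∈ gads m n rs acc
  F := hF rs acc
  wild r ρ := (patAt (hPat rs acc r) ρ).isNone
  fix r f ρ := patFix (hPat rs acc r) (hSide r f) ρ
  fgn := hFgn
  b := hB

/-- All blocks. -/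
def hBlocks [DecidableEq A] : List (GB (HR A)) :=
  (gads m n rs acc).flatMap fun r => (List.range m).flatMap fun i =>
    (List.range (if (hornG m n rs acc).wild r (i / 2) then n else 1)).map fun d => (r, i, d)

/-- All short equations, without repetition. -/
def hChecks [DecidableEq A] : List (BSys.CC (GB (HR A))) :=
  (none :: (hBlocks m n rs acc).flatMap fun B =>
    (List.range ((hornG m n rs acc).cols B).length).map fun t => some (B, t)).dedup

/-- The variable of occurrence `o`. -/
def hOv [DecidableEq A] (o : ℕ) : BSys.CX (GB (HR A)) (GX (HR A) (HT A)) :=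
  (hornG m n rs acc).sys.var3 ((hChecks m n rs acc).getD (o / 3) none) (o % 3)

/-- The right-hand side of equation number `c`. -/
def hRhs [DecidableEq A] (c : ℕ) : ZMod 2 :=
  BSys.crhs (hornG m n rs acc).rhs ((hChecks m n rs acc).getD c none)

end

/-! ### Rules on a grid -/

/-- How one coordinate changes from the premises to the conclusion: `inl none` keeps it,
`inl (some true)` adds one, `inl (some false)` subtracts one, `inr (c, c')` goes from `c` to
`c'`. -/
abbrev Mode : Type := Option Bool ⊕ (ℕ × ℕ)

namespace Mode

def same : Mode := Sum.inl none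
def up : Mode := Sum.inl (some true)
def down : Mode := Sum.inl (some false)
def const (c c' : ℕ) : Mode := Sum.inr (c, c')

/-- Premise coordinate `x`, conclusion coordinate `y`. -/
def rel (μ : Mode) (x y : ℕ) : Prop :=
  μ.elim (fun o => o.elim (y = x) fun u => if u then y = x + 1 else x = y + 1)
    fun c => x = c.1 ∧ y = c.2

/-- The digit patterns (`h` digits in base `n`, least significant first) of a mode. -/
def pats (n h : ℕ) (μ : Mode) : List Pat :=
  μ.elim
    (fun o => o.elim [List.replicate h none] fun u =>
      (List.range h).flatMap fun p => (List.range (n - 1)).map fun v => (List.range h).map fun j =>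
        if j < p then some (if u then (n - 1, 0) else (0, n - 1))
        else if j = p then some (if u then (v, v + 1) else (v + 1, v)) else none)
    fun c => if c.1 < n ^ h ∧ c.2 < n ^ h then
      [(List.range h).map fun j => some (c.1 / n ^ j % n, c.2 / n ^ j % n)] else []

end Mode

/-- A grid rule: modes of the two coordinates, conclusion, premises. -/
abbrev GRule (A : Type) : Type := Mode × Mode × A × List A

/-- Derivable atoms on the grid of side `W`. -/
inductive GDer {A : Type} (W : ℕ) (gs : List (GRule A)) : A → ℕ → ℕ → Prop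
  | rule (g : GRule A) (hg : g ∈ gs) (t p t' p' : ℕ) (ht : t < W) (hp : p < W) (ht' : t' < W)
      (hp' : p' < W) (h₁ : g.1.rel t t') (h₂ : g.2.1.rel p p')
      (h : ∀ τ ∈ g.2.2.2, GDer W gs τ t p) : GDer W gs g.2.2.1 t' p'

/-- The register rules of a list of grid rules. -/
def gridRules {A : Type} (n h : ℕ) (gs : List (GRule A)) : List (Rule A) :=
  gs.flatMap fun g => (g.1.pats n h).flatMap fun π₁ => (g.2.1.pats n h).map fun π₂ =>
    (π₁ ++ π₂, g.2.2.1, g.2.2.2)

/-- Well-formed grid rule lists. -/
structure GridWF {A : Type} (W : ℕ) (gs : List (GRule A)) (acc : A) : Prop where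
  fact : ∀ g ∈ gs, g.2.2.2 = [] → g.1.isRight ∧ g.2.1.isRight
  prem : ∀ g ∈ gs, acc ∉ g.2.2.2
  concl : ∀ g ∈ gs, g.2.2.1 = acc → ∃ c c', g.1 = Mode.const c 0 ∧ g.2.1 = Mode.const c' 0
  ex : ∃ g ∈ gs, g.2.2.1 = acc ∧ ∃ c < W, ∃ c' < W, g.1 = Mode.const c 0 ∧ g.2.1 = Mode.const c' 0

end Crest.Agent.R290
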