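import Mathlib
import Crest.Prelude.Def_WL
import Crest.Prelude.Def_ParityLift

/-!
Row 290.  The bijective pebble game, as a family of winning positions.
-/

set_option autoImplicit false

namespace Crest.Agent.R290

open Finset

/-- `F` is a winning family of positions for Duplicator in the bijective `K`-pebble game on the
Boolean adjacencies `G` and `H`. -/
structure IsPeb {V W : Type} [DecidableEq V] [DecidableEq W] (K : ℕ) (G : V → V → Bool)
    (H : W → W → Bool) (F : Set (Finset (V × W))) : Prop where
  empty : ∅ ∈ F
  down : ∀ P ∈ F, ∀ Q, Q ⊆ P → Q ∈ F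
  eq : ∀ P ∈ F, ∀ a ∈ P, ∀ b ∈ P, (a.1 = b.1 ↔ a.2 = b.2)
  adj : ∀ P ∈ F, ∀ a ∈ P, ∀ b ∈ P, G a.1 b.1 = H a.2 b.2
  ext : ∀ P ∈ F, P.card < K → ∃ π : V ≃ W, ∀ z, insert (z, π z) P ∈ F

/-- Duplicator wins the bijective `K`-pebble game. -/
def Peb {V W : Type} [DecidableEq V] [DecidableEq W] (K : ℕ) (G : V → V → Bool)
    (H : W → W → Bool) : Prop :=
  ∃ F, IsPeb K G H F

/-- Isomorphism of Boolean adjacencies (`AdjIso` of the prelude is the case of matrices). -/
def Iso {V W : Type} (G : V → V → Bool) (H : W → W → Bool) : Prop :=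
  ∃ e : V ≃ W, ∀ v w, H (e v) (e w) = G v w

/-- The set of coordinate pairs of two tuples. -/
def pairsOf {V W : Type} [DecidableEq V] [DecidableEq W] {k : ℕ} (u : Fin k → V) (v : Fin k → W) :
    Finset (V × W) :=
  univ.image fun i => (u i, v i)

/-- The matrix on `Fin n` read off an adjacency on natural numbers. -/
def toMat (n : ℕ) (A : ℕ → ℕ → Bool) : Fin n → Fin n → Bool := fun a b => A a b

/-- Add the vertex `n`, adjacent to all vertices below `n`. -/
def apexN (n : ℕ) (A : ℕ → ℕ → Bool) : ℕ → ℕ → Bool := fun a b =>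
  if a = n then decide (b ≠ n) else if b = n then true else A a b

/-- The bit string of the graph on `n` vertices given by an adjacency on natural numbers. -/
def rawCode (n : ℕ) (A : ℕ → ℕ → Bool) : List Bool :=
  Crest.Enc.natCode n ++ (List.range n).flatMap fun v => (List.range n).map fun w => A v w

/-- The number of adjacency preserving maps from the template on `t` mains into a graph. -/
noncomputable def homCount (t : ℕ) {V : Type} [Fintype V] (X : V → V → Bool) : ℕ := by
  classical
  exact (univ.filter fun φ : Crest.WLRefine.ParityLift.TV t → V =>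
    ∀ a a', Crest.WLRefine.ParityLift.tAdj a a' = true → X (φ a) (φ a') = true).card

end Crest.Agent.R290
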