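import Crest.Agent.R290.DefsTab
import Crest.Agent.Lib.PT.Rec
import Crest.Prelude.Def_WordRAM

/-!
Row 290.  Encodings of the names used by the reduction, and deciders on the promise inputs.
-/

set_option autoImplicit false

namespace Crest.Agent.R290

open Crest.Agent.Lib.PT Crest.WLRefine

instance instEncAtom : Enc Atom := inferInstance
instance instEncPat : Enc Pat := inferInstance
instance instEncMode : Enc Mode := inferInstance
instance instEncRule : Enc (Rule Atom) := inferInstance
instance instEncGRule : Enc (GRule Atom) := inferInstance
instance instEncTabD : Enc TabD := inferInstance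
instance instEncInp : Enc Inp := inferInstance
instance instEncSlot : Enc Slot := inferInstance
instance instEncPriv : Enc Priv := inferInstance
instance instEncT0 : Enc (T0 Atom) := inferInstance
instance instEncTest : Enc (Test Atom) := inferInstance
instance instEncHT : Enc (HT Atom) := inferInstance
instance instEncHR : Enc (HR Atom) := inferInstance
instance instEncGB : Enc (GB (HR Atom)) := inferInstance
instance instEncGC : Enc (GC (HT Atom)) := inferInstance
instance instEncGX : Enc (GX (HR Atom) (HT Atom)) := inferInstance
instance instEncCC : Enc (BSys.CC (GB (HR Atom))) := inferInstance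
instance instEncCX : Enc (BSys.CX (GB (HR Atom)) (GX (HR Atom) (HT Atom))) := inferInstance

/-- The program `p` decides the `K`-pebble game on the codes of pairs of connected graphs of
diameter at most two, at cost `S n` on `n`-vertex pairs. -/
def Decides (p : Prog) (K : ℕ) (S : ℕ → ℕ) : Prop :=
  ∀ (n : ℕ) (G H : Fin n → Fin n → Bool), SimpleConnDiamTwo G → SimpleConnDiamTwo H →
    ∃ o : Bool, (o = true ↔ Peb K G H) ∧
      EvalLe p (Enc.enc (adjMatrixCode G ++ adjMatrixCode H)) (Enc.enc [o]) (S n)

end Crest.Agent.R290
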