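import Crest.Agent.R290.DefsHorn
import Crest.Agent.R290.DefsGraph
import Crest.Agent.Lib.PT.Tableau

/-!
Row 290.  Tableau data of a machine, its grid rules, and the whole reduction.
-/

set_option autoImplicit false

namespace Crest.Agent.R290

open Crest.Agent.Lib.PT

/-- Tableau data: cell width `a` and radius `d` (both in unary), the cells of the input bits
`false`, `true` and the blank cell, the gates of the local rule, the wires carrying the new cell
(for each position class and bit), the wire carrying the answer. -/
abbrev TabD : Type :=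
  List Unit × List Unit × List Bool × List Bool × List Bool × List (ℕ × ℕ) × List ℕ × ℕ

namespace TabD

variable (τ : TabD)

def a : ℕ := τ.1.length
def d : ℕ := τ.2.1.length
def i0 : List Bool := τ.2.2.1
def i1 : List Bool := τ.2.2.2.1
def ib : List Bool := τ.2.2.2.2.1
def gates : List (ℕ × ℕ) := τ.2.2.2.2.2.1
def outs : List ℕ := τ.2.2.2.2.2.2.1
def ow : ℕ := τ.2.2.2.2.2.2.2

/-- The number of input wires of the local rule. -/
def nin : ℕ := (3 * τ.d + 1) * τ.a

/-- The `j`-th neighbour of position `i` in a row of width `W`. -/
def nb (W i j : ℕ) : ℕ := if j < τ.d then j else min (i + (j - τ.d) - τ.d) (W - 1)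

/-- All wires of the local rule at position `i` of the row `c`. -/
def wires (W : ℕ) (c : ℕ → ℕ → Bool) (i : ℕ) : List Bool :=
  Slp.run τ.gates ((List.range τ.nin).map fun v => c (τ.nb W i (v / τ.a)) (v % τ.a))

/-- Bit `b` of the cell at time `t` and position `i`. -/
def cell (x : List Bool) (W : ℕ) : ℕ → ℕ → ℕ → Bool
  | 0 => fun i b =>
      (if i < x.length then (if x.getD i false then τ.i1 else τ.i0) else τ.ib).getD b false
  | t + 1 => fun i b =>
      (τ.wires W (cell x W t) i).getD (τ.outs.getD (min i (2 * τ.d) * τ.a + b) 0) false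

/-- The answer, read at the last time and the first position. -/
def out (x : List Bool) (W : ℕ) : Bool := (τ.wires W (τ.cell x W (W - 1)) 0).getD τ.ow false

structure WF : Prop where
  gates : Slp.WF τ.gates τ.nin
  outs : ∀ p ≤ 2 * τ.d, ∀ b < τ.a, τ.outs.getD (p * τ.a + b) 0 < τ.nin + τ.gates.length
  ow : τ.ow < τ.nin + τ.gates.length

end TabD

/-- Atoms: family, two indices, a bit. -/
abbrev Atom : Type := ℕ × ℕ × ℕ × Bool

instance instDecEqAtom : DecidableEq Atom := inferInstance

namespace Atom

def val (b : ℕ) (β : Bool) : Atom := (0, 0, b, β)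
def top (j b : ℕ) (β : Bool) : Atom := (1, j, b, β)
def lft (s b : ℕ) (β : Bool) : Atom := (2, s, b, β)
def rgt (s b : ℕ) (β : Bool) : Atom := (3, s, b, β)
def wire (w : ℕ) (β : Bool) : Atom := (4, 0, w, β)
def ge : Atom := (5, 0, 0, false)
def blank : Atom := (6, 0, 0, false)
def acc : Atom := (7, 0, 0, false)

end Atom

open Mode in
/-- The rules about bit `b` of the cells having the value `β`. -/
def bitRules (τ : TabD) (W b : ℕ) (β : Bool) : List (GRule Atom) :=
  ((List.range τ.d).flatMap fun j =>
    [(same, const j 0, Atom.top j b β, [Atom.val b β]),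
     (same, up, Atom.top j b β, [Atom.top j b β]),
     (same, up, Atom.lft (j + 1) b β, [Atom.lft j b β]),
     (same, const 0 0, Atom.lft (j + 1) b β, [Atom.lft j b β]),
     (same, down, Atom.rgt (j + 1) b β, [Atom.rgt j b β]),
     (same, const (W - 1) (W - 1), Atom.rgt (j + 1) b β, [Atom.rgt j b β])]) ++
  [(same, same, Atom.lft 0 b β, [Atom.val b β]), (same, same, Atom.rgt 0 b β, [Atom.val b β]),
   (up, same, Atom.val b β, [Atom.wire (τ.outs.getD (2 * τ.d * τ.a + b) 0) β, Atom.ge])] ++
  ((List.range (3 * τ.d + 1)).map fun j =>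
    (same, same, Atom.wire (j * τ.a + b) β,
      [if j < τ.d then Atom.top j b β
        else if j < 2 * τ.d then Atom.lft (2 * τ.d - j) b β else Atom.rgt (j - 2 * τ.d) b β])) ++
  ((List.range (2 * τ.d)).map fun p =>
    (up, const p p, Atom.val b β, [Atom.wire (τ.outs.getD (p * τ.a + b) 0) β]))

open Mode in
/-- The grid rules of a tableau on input `x` and width `W`; the goal says that the answer is
`flag`. -/
def tabRules (τ : TabD) (x : List Bool) (W : ℕ) (flag : Bool) : List (GRule Atom) :=
  [(const 0 0, const x.length x.length, Atom.blank, []),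
   (const 0 0, up, Atom.blank, [Atom.blank]),
   (const 0 0, const (2 * τ.d) (2 * τ.d), Atom.ge, []),
   (up, same, Atom.ge, [Atom.ge]),
   (same, up, Atom.ge, [Atom.ge]),
   (const (W - 1) 0, const 0 0, Atom.acc, [Atom.wire τ.ow flag])] ++
  ((List.range τ.a).flatMap fun b =>
    (const 0 0, same, Atom.val b (τ.ib.getD b false), [Atom.blank]) ::
    ((List.range x.length).map fun i =>
      (const 0 0, const i i,
        Atom.val b ((if x.getD i false then τ.i1 else τ.i0).getD b false), [])) ++
    bitRules τ W b false ++ bitRules τ W b true) ++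
  ((List.range τ.gates.length).flatMap fun k =>
    [(same, same, Atom.wire (τ.nin + k) true, [Atom.wire (τ.gates.getD k (0, 0)).1 false]),
     (same, same, Atom.wire (τ.nin + k) true, [Atom.wire (τ.gates.getD k (0, 0)).2 false]),
     (same, same, Atom.wire (τ.nin + k) false,
       [Atom.wire (τ.gates.getD k (0, 0)).1 true, Atom.wire (τ.gates.getD k (0, 0)).2 true])])

/-- Inputs of the reduction: tableau data, machine input, number of rows `m` and base `n` (both in
unary), the answer that the goal stands for. -/
abbrev Inp : Type := TabD × List Bool × List Unit × List Unit × Bool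

namespace Inp

variable (I : Inp)

def tab : TabD := I.1
def x : List Bool := I.2.1
def m : ℕ := I.2.2.1.length
def n : ℕ := I.2.2.2.1.length
def flag : Bool := I.2.2.2.2

/-- The side of the grid. -/
def W : ℕ := I.n ^ (I.m / 4)

def rules : List (Rule Atom) := gridRules I.n (I.m / 4) (tabRules I.tab I.x I.W I.flag)

/-- The number of equations. -/
def N : ℕ := (hChecks I.m I.n I.rules Atom.acc).length

/-- The number of vertices, with a tail parameter `L`. -/
def nv (L : ℕ) : ℕ := R290.nv I.N L

/-- The graph of the homogeneous system (`false`) or of the standard system (`true`). -/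
def adj (L : ℕ) (e : Bool) : ℕ → ℕ → Bool :=
  adjN I.N L (hOv I.m I.n I.rules Atom.acc)
    fun c => if e then hRhs I.m I.n I.rules Atom.acc c else 0

structure OK : Prop where
  wf : I.tab.WF
  m4 : 4 ≤ I.m
  npos : 0 < I.n
  d_lt : 2 * I.tab.d < I.W
  x_lt : I.x.length < I.W

end Inp

end Crest.Agent.R290
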