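import Crest.Agent.R290.DefsPeb

/-!
Row 290.  Elementary properties of the bijective pebble game.
-/

set_option autoImplicit false

namespace Crest.Agent.R290

open Finset Crest.WLRefine Crest.WLRefine.ParityLift

variable {U V W : Type} [DecidableEq U] [DecidableEq V] [DecidableEq W] {K : ℕ}
  {G : V → V → Bool} {H : W → W → Bool} {X : U → U → Bool}

theorem adjIso_iff {n m : ℕ} (A : Fin n → Fin n → Bool) (B : Fin m → Fin m → Bool) :
    AdjIso A B ↔ Iso A B := Iff.rfl

omit [DecidableEq V] in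
theorem Iso.refl (G : V → V → Bool) : Iso G G := ⟨Equiv.refl _, fun _ _ => rfl⟩

omit [DecidableEq V] [DecidableEq W] in
theorem Iso.symm (h : Iso G H) : Iso H G := by
  obtain ⟨e, he⟩ := h
  exact ⟨e.symm, fun v w => by rw [← he]; simp⟩

omit [DecidableEq U] [DecidableEq V] [DecidableEq W] in
theorem Iso.trans (h : Iso G H) (h' : Iso H X) : Iso G X := by
  obtain ⟨e, he⟩ := h
  obtain ⟨e', he'⟩ := h'
  exact ⟨e.trans e', fun v w => by simp [he', he]⟩

theorem Iso.peb (h : Iso G H) (K : ℕ) : Peb K G H := by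
  obtain ⟨e, he⟩ := h
  refine ⟨{P | ∀ a ∈ P, a.2 = e a.1}, fun a ha => by simp at ha,
    fun P hP Q hQ a ha => hP a (hQ ha), fun P hP a ha b hb => ?_, fun P hP a ha b hb => ?_,
    fun P hP _ => ⟨e, fun z a ha => ?_⟩⟩
  · rw [hP a ha, hP b hb, e.apply_eq_iff_eq]
  · rw [hP a ha, hP b hb, he]
  · rcases mem_insert.1 ha with rfl | ha
    · rfl
    · exact hP a ha

/-- The swapped family. -/
theorem IsPeb.symm {F : Set (Finset (V × W))} (h : IsPeb K G H F) :
    IsPeb K H G {P | P.image Prod.swap ∈ F} := by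
  refine ⟨by simpa using h.empty, fun P hP Q hQ => h.down _ hP _ (image_subset_image hQ),
    fun P hP a ha b hb => (h.eq _ hP _ (mem_image_of_mem _ ha) _ (mem_image_of_mem _ hb)).symm,
    fun P hP a ha b hb => (h.adj _ hP _ (mem_image_of_mem _ ha) _ (mem_image_of_mem _ hb)).symm,
    fun P hP hK => ?_⟩
  obtain ⟨π, hπ⟩ := h.ext _ hP (card_image_le.trans_lt hK)
  refine ⟨π.symm, fun z => ?_⟩
  have := hπ (π.symm z)
  simpa [image_insert] using this

theorem Peb.symm (h : Peb K G H) : Peb K H G := by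
  obtain ⟨F, hF⟩ := h
  exact ⟨_, hF.symm⟩

/-- The composed family: `P` is in it when it is the outer projection of a set of triples whose two
other projections are positions. -/
theorem IsPeb.trans {F : Set (Finset (V × W))} {F' : Set (Finset (W × U))} (h : IsPeb K G H F)
    (h' : IsPeb K H X F') :
    IsPeb K G X {P | ∃ T : Finset (V × W × U), P = T.image (fun a => (a.1, a.2.2)) ∧
      T.image (fun a => (a.1, a.2.1)) ∈ F ∧ T.image (fun a => a.2) ∈ F'} := by
  have heq : ∀ T : Finset (V × W × U), T.image (fun a => (a.1, a.2.1)) ∈ F →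
      ∀ a ∈ T, ∀ b ∈ T, (a.1 = b.1 ↔ a.2.1 = b.2.1) := fun T hT a ha b hb =>
    h.eq _ hT _ (mem_image_of_mem _ ha) _ (mem_image_of_mem _ hb)
  have heq' : ∀ T : Finset (V × W × U), T.image (fun a => a.2) ∈ F' →
      ∀ a ∈ T, ∀ b ∈ T, (a.2.1 = b.2.1 ↔ a.2.2 = b.2.2) := fun T hT a ha b hb =>
    h'.eq _ hT _ (mem_image_of_mem _ ha) _ (mem_image_of_mem _ hb)
  refine ⟨⟨∅, by simp, by simpa using h.empty, by simpa using h'.empty⟩, ?_, ?_, ?_, ?_⟩
  · rintro P ⟨T, rfl, h1, h2⟩ Q hQ
    refine ⟨T.filter fun a => (a.1, a.2.2) ∈ Q, ?_,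
      h.down _ h1 _ (image_subset_image (filter_subset _ _)),
      h'.down _ h2 _ (image_subset_image (filter_subset _ _))⟩
    ext a
    constructor
    · intro ha
      obtain ⟨b, hb, rfl⟩ := mem_image.1 (hQ ha)
      exact mem_image_of_mem _ (mem_filter.2 ⟨hb, ha⟩)
    · intro ha
      obtain ⟨b, hb, rfl⟩ := mem_image.1 ha
      exact (mem_filter.1 hb).2
  · rintro P ⟨T, rfl, h1, h2⟩ a ha b hb
    obtain ⟨c, hc, rfl⟩ := mem_image.1 ha
    obtain ⟨d, hd, rfl⟩ := mem_image.1 hb
    exact (heq T h1 c hc d hd).trans (heq' T h2 c hc d hd)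
  · rintro P ⟨T, rfl, h1, h2⟩ a ha b hb
    obtain ⟨c, hc, rfl⟩ := mem_image.1 ha
    obtain ⟨d, hd, rfl⟩ := mem_image.1 hb
    exact (h.adj _ h1 _ (mem_image_of_mem _ hc) _ (mem_image_of_mem _ hd)).trans
      (h'.adj _ h2 _ (mem_image_of_mem _ hc) _ (mem_image_of_mem _ hd))
  · rintro P ⟨T, rfl, h1, h2⟩ hK
    rw [card_image_of_injOn fun a ha b hb hab => by
      have h3 : a.1 = b.1 := (Prod.ext_iff.1 hab).1
      have h4 : a.2.2 = b.2.2 := (Prod.ext_iff.1 hab).2
      exact Prod.ext h3 (Prod.ext ((heq T h1 a ha b hb).1 h3) h4)] at hK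
    obtain ⟨π, hπ⟩ := h.ext _ h1 (card_image_le.trans_lt hK)
    obtain ⟨π', hπ'⟩ := h'.ext _ h2 (card_image_le.trans_lt hK)
    refine ⟨π.trans π', fun z => ⟨insert (z, π z, π' (π z)) T, ?_, ?_, ?_⟩⟩
    · rw [image_insert]; rfl
    · rw [image_insert]; exact hπ z
    · rw [image_insert]; exact hπ' (π z)

theorem Peb.trans (h : Peb K G H) (h' : Peb K H X) : Peb K G X := by
  obtain ⟨F, hF⟩ := h
  obtain ⟨F', hF'⟩ := h'
  exact ⟨_, hF.trans hF'⟩

theorem IsPeb.mono {F : Set (Finset (V × W))} (h : IsPeb K G H F) {K' : ℕ} (hK : K' ≤ K) :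
    IsPeb K' G H F := by
  exact ⟨h.empty, h.down, h.eq, h.adj, fun P hP hc => h.ext P hP (hc.trans_le hK)⟩

theorem Peb.mono (h : Peb K G H) {K' : ℕ} (hK : K' ≤ K) : Peb K' G H := by
  obtain ⟨F, hF⟩ := h
  exact ⟨F, hF.mono hK⟩

theorem Peb.iso [Fintype V] (h : Peb K G H) (hK : Fintype.card V < K) : Iso G H := by
  obtain ⟨F, hF⟩ := h
  have key : ∀ S : Finset V, ∃ P ∈ F, P.card ≤ S.card ∧ ∀ v ∈ S, ∃ w, (v, w) ∈ P := by
    intro S
    induction S using Finset.induction_on with
    | empty => exact ⟨∅, hF.empty, le_rfl, by simp⟩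
    | insert v S hv ih =>
      obtain ⟨P, hP, hc, hS⟩ := ih
      obtain ⟨π, hπ⟩ := hF.ext P hP (hc.trans_lt ((card_le_univ S).trans_lt hK))
      refine ⟨_, hπ v, (card_insert_le _ _).trans (by rw [card_insert_of_notMem hv]; omega),
        fun u hu => ?_⟩
      rcases mem_insert.1 hu with rfl | hu
      · exact ⟨_, mem_insert_self _ _⟩
      · obtain ⟨w, hw⟩ := hS u hu
        exact ⟨w, mem_insert_of_mem hw⟩
  obtain ⟨P, hP, hc, hS⟩ := key univ
  obtain ⟨π, hπ⟩ := hF.ext P hP (hc.trans_lt hK)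
  refine ⟨π, fun v z => ?_⟩
  obtain ⟨w, hw⟩ := hS v (mem_univ v)
  have h1 : π v = w :=
    (hF.eq _ (hπ v) _ (mem_insert_self _ _) _ (mem_insert_of_mem hw)).1 rfl
  rw [h1]
  exact (hF.adj _ (hπ z) _ (mem_insert_of_mem hw) _ (mem_insert_self _ _)).symm

theorem Peb.card_eq [Fintype V] [Fintype W] (h : Peb K G H) (hK : 1 ≤ K) :
    Fintype.card V = Fintype.card W := by
  obtain ⟨F, hF⟩ := h
  obtain ⟨π, -⟩ := hF.ext ∅ hF.empty hK
  exact Fintype.card_congr π

theorem peb_congr {V' W' : Type} [DecidableEq V'] [DecidableEq W'] {G' : V' → V' → Bool}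
    {H' : W' → W' → Bool} (h₁ : Iso G G') (h₂ : Iso H H') : Peb K G H ↔ Peb K G' H' := by
  exact ⟨fun h => ((h₁.symm.peb K).trans h).trans (h₂.peb K),
    fun h => ((h₁.peb K).trans h).trans (h₂.symm.peb K)⟩

omit [DecidableEq V] in
theorem iso_asMatrix [Fintype V] (G : V → V → Bool) : Iso G (asMatrix G) := by
  exact ⟨Fintype.equivFin V, fun v w => by simp [asMatrix]⟩

theorem peb_asMatrix [Fintype V] [Fintype W] :
    Peb K (asMatrix G) (asMatrix H) ↔ Peb K G H := by
  exact (peb_congr (iso_asMatrix G) (iso_asMatrix H)).symm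

/-- One extension step, with everything it preserves. -/
theorem IsPeb.ext' {F : Set (Finset (V × W))} (h : IsPeb K G H F) {P : Finset (V × W)}
    (hP : P ∈ F) (hK : P.card < K) :
    ∃ π : V ≃ W, (∀ z, insert (z, π z) P ∈ F) ∧ (∀ z, ({(z, π z)} : Finset (V × W)) ∈ F) ∧
      (∀ a ∈ P, π a.1 = a.2) ∧ (∀ a ∈ P, ∀ z, G a.1 z = H a.2 (π z)) ∧
      (∀ a ∈ P, ∀ z, G z a.1 = H (π z) a.2) := by
  obtain ⟨π, hπ⟩ := h.ext P hP hK
  exact ⟨π, hπ, fun z => h.down _ (hπ z) _ (singleton_subset_iff.2 (mem_insert_self _ _)),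
    fun a ha => (h.eq _ (hπ a.1) _ (mem_insert_self _ _) _ (mem_insert_of_mem ha)).1 rfl,
    fun a ha z => h.adj _ (hπ z) _ (mem_insert_of_mem ha) _ (mem_insert_self _ _),
    fun a ha z => h.adj _ (hπ z) _ (mem_insert_self _ _) _ (mem_insert_of_mem ha)⟩

/-- Degrees are preserved. -/
theorem IsPeb.deg_eq [Fintype V] [Fintype W] {F : Set (Finset (V × W))} (h : IsPeb K G H F)
    (hK : 2 ≤ K) {v : V} {w : W} (hvw : ({(v, w)} : Finset (V × W)) ∈ F) :
    (univ.filter fun z => G v z = true).card = (univ.filter fun z => H w z = true).card := by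
  obtain ⟨π, -, -, -, h1, -⟩ := h.ext' hvw (by rw [card_singleton]; omega)
  refine card_equiv π fun z => ?_
  simp only [mem_filter, mem_univ, true_and]
  rw [← h1 (v, w) (mem_singleton_self _) z]

theorem adjMatrixCode_toMat (n : ℕ) (A : ℕ → ℕ → Bool) :
    adjMatrixCode (toMat n A) = rawCode n A := by
  unfold adjMatrixCode rawCode toMat
  congr 1
  rw [← List.map_coe_finRange_eq_range, List.flatMap_map]
  simp only [List.map_map]
  rfl

theorem simpleConnDiamTwo_apex {n : ℕ} {A : ℕ → ℕ → Bool} (h : IsSimple (toMat n A)) :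
    SimpleConnDiamTwo (toMat (n + 1) (apexN n A)) := by
  have hs : IsSimple (toMat (n + 1) (apexN n A)) := by
    refine ⟨fun v w => ?_, fun v => ?_⟩
    · induction v using Fin.lastCases with
      | last =>
        induction w using Fin.lastCases with
        | last => rfl
        | cast w => simp [toMat, apexN, w.2.ne]
      | cast v =>
        induction w using Fin.lastCases with
        | last => simp [toMat, apexN, v.2.ne]
        | cast w => simpa [toMat, apexN, v.2.ne, w.2.ne] using h.1 v w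
    · induction v using Fin.lastCases with
      | last => simp [toMat, apexN]
      | cast v => simpa [toMat, apexN, v.2.ne] using h.2 v
  have hl : ∀ v : Fin (n + 1), v ≠ Fin.last n →
      toMat (n + 1) (apexN n A) v (Fin.last n) = true := fun v hv => by
    have : (v : ℕ) ≠ n := fun h => hv (Fin.ext h)
    simp [toMat, apexN, this]
  refine ⟨hs, ?_, fun v w hvw => ?_⟩
  · have hr : ∀ v, (adjGraph (toMat (n + 1) (apexN n A))).Reachable v (Fin.last n) := fun v => by
      by_cases hv : v = Fin.last n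
      · rw [hv]
      · exact SimpleGraph.Adj.reachable ((SimpleGraph.fromRel_adj _ _ _).2 ⟨hv, Or.inl (hl v hv)⟩)
    exact ⟨fun v w => (hr v).trans (hr w).symm⟩
  · by_cases hv : v = Fin.last n
    · left
      rw [hs.1, hv]
      exact hl w fun hw => hvw (hv.trans hw.symm)
    · by_cases hw : w = Fin.last n
      · left
        rw [hw]
        exact hl v hv
      · exact Or.inr ⟨Fin.last n, hl v hv, by rw [hs.1]; exact hl w hw⟩

/-- Adding a dominating vertex, on `Option`. -/
def PebBasic_apexO (G : V → V → Bool) : Option V → Option V → Bool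
  | none, none => false
  | none, some _ => true
  | some _, none => true
  | some a, some b => G a b

theorem PebBasic_iso_apex (n : ℕ) (A : ℕ → ℕ → Bool) :
    Iso (toMat (n + 1) (apexN n A)) (PebBasic_apexO (toMat n A)) := by
  refine ⟨finSuccEquivLast, fun v w => ?_⟩
  induction v using Fin.lastCases with
  | last =>
    induction w using Fin.lastCases with
    | last => simp [PebBasic_apexO, toMat, apexN]
    | cast w => simp [PebBasic_apexO, toMat, apexN, w.2.ne]
  | cast v =>
    induction w using Fin.lastCases with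
    | last => simp [PebBasic_apexO, toMat, apexN, v.2.ne]
    | cast w => simp [PebBasic_apexO, toMat, apexN, v.2.ne, w.2.ne]

theorem PebBasic_apexO_of (h : Peb K G H) : Peb K (PebBasic_apexO G) (PebBasic_apexO H) := by
  obtain ⟨F, hF⟩ := h
  refine ⟨{P | (∀ a ∈ P, a.1 = none ↔ a.2 = none) ∧
      ∃ Q ∈ F, ∀ v w, (some v, some w) ∈ P ↔ (v, w) ∈ Q},
    ⟨by simp, ∅, hF.empty, by simp⟩, ?_, ?_, ?_, ?_⟩
  · rintro P ⟨h1, Q, hQ, h2⟩ P' hP'
    refine ⟨fun a ha => h1 a (hP' ha), Q.filter fun a => (some a.1, some a.2) ∈ P',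
      hF.down _ hQ _ (filter_subset _ _), fun v w => ?_⟩
    rw [mem_filter]
    exact ⟨fun h => ⟨(h2 v w).1 (hP' h), h⟩, fun h => h.2⟩
  · rintro P ⟨h1, Q, hQ, h2⟩ ⟨a, a'⟩ ha ⟨b, b'⟩ hb
    have h3 := h1 _ ha
    have h4 := h1 _ hb
    cases a <;> cases a' <;> cases b <;> cases b' <;> simp at h3 h4 ⊢
    exact hF.eq _ hQ _ ((h2 _ _).1 ha) _ ((h2 _ _).1 hb)
  · rintro P ⟨h1, Q, hQ, h2⟩ ⟨a, a'⟩ ha ⟨b, b'⟩ hb
    have h3 := h1 _ ha
    have h4 := h1 _ hb
    cases a <;> cases a' <;> cases b <;> cases b' <;> simp [PebBasic_apexO] at h3 h4 ⊢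
    exact hF.adj _ hQ _ ((h2 _ _).1 ha) _ ((h2 _ _).1 hb)
  · rintro P ⟨h1, Q, hQ, h2⟩ hK
    have hc : Q.card ≤ P.card := card_le_card_of_injOn (fun a => (some a.1, some a.2))
      (fun a ha => (h2 _ _).2 ha) fun a _ b _ hab => by
        simp only [Prod.mk.injEq, Option.some.injEq] at hab
        exact Prod.ext hab.1 hab.2
    obtain ⟨π, hπ⟩ := hF.ext Q hQ (hc.trans_lt hK)
    refine ⟨π.optionCongr, fun z => ⟨fun a ha => ?_, ?_⟩⟩
    · rcases mem_insert.1 ha with rfl | ha
      · cases z <;> simp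
      · exact h1 a ha
    · cases z with
      | none => exact ⟨Q, hQ, fun v w => by simp [h2]⟩
      | some z => exact ⟨_, hπ z, fun v w => by simp [h2]⟩

theorem PebBasic_apexO_iff [Fintype V] [Fintype W] (hK : 2 ≤ K) (hn : 5 ≤ Fintype.card V)
    (hB : ∀ w, (univ.filter fun z => H w z = true).card ≤ 3) :
    Peb K (PebBasic_apexO G) (PebBasic_apexO H) ↔ Peb K G H := by
  refine ⟨fun h => ?_, PebBasic_apexO_of⟩
  obtain ⟨F, hF⟩ := h
  refine ⟨{P | P.image (fun a => (some a.1, some a.2)) ∈ F}, by simpa using hF.empty,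
    fun P hP Q hQ => hF.down _ hP _ (image_subset_image hQ), fun P hP a ha b hb => ?_,
    fun P hP a ha b hb => ?_, fun P hP hc => ?_⟩
  · simpa using hF.eq _ hP _ (mem_image_of_mem _ ha) _ (mem_image_of_mem _ hb)
  · have := hF.adj _ hP _ (mem_image_of_mem _ ha) _ (mem_image_of_mem _ hb)
    exact this
  obtain ⟨π, h1, h2, -⟩ := hF.ext' hP (card_image_le.trans_lt hc)
  have h3 : π none = none := by
    by_contra hne
    obtain ⟨w, hw⟩ := Option.ne_none_iff_exists'.1 hne
    have h4 := hF.deg_eq hK (h2 none)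
    rw [hw] at h4
    have h5 : Fintype.card V ≤ (univ.filter fun z => PebBasic_apexO G none z = true).card :=
      card_le_card_of_injOn some (fun a _ => by simp [PebBasic_apexO])
        (Option.some_injective _).injOn
    have h6 : (univ.filter fun z => PebBasic_apexO H (some w) z = true) ⊆
        insert none ((univ.filter fun z => H w z = true).image some) := fun z hz => by
      cases z with
      | none => exact mem_insert_self _ _
      | some z => simpa [PebBasic_apexO] using hz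
    have h7 := (card_le_card h6).trans ((card_insert_le _ _).trans
      (Nat.add_le_add_right (card_image_le.trans (hB w)) 1))
    omega
  refine ⟨π.removeNone, fun z => ?_⟩
  have h4 : some (π.removeNone z) = π (some z) := π.removeNone_some
    (Option.ne_none_iff_exists'.1 fun h => by simpa using π.injective (h.trans h3.symm))
  have h5 := h1 (some z)
  rw [← h4] at h5
  simpa [image_insert] using h5

/-- Adding a dominating vertex to two subcubic graphs does not change the game. -/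
theorem peb_apex_iff {n : ℕ} {A B : ℕ → ℕ → Bool} (hK : 2 ≤ K) (hn : 5 ≤ n)
    (hA : MaxDegLeThree (toMat n A)) (hB : MaxDegLeThree (toMat n B)) :
    Peb K (toMat (n + 1) (apexN n A)) (toMat (n + 1) (apexN n B)) ↔
      Peb K (toMat n A) (toMat n B) := by
  rw [peb_congr (PebBasic_iso_apex n A) (PebBasic_iso_apex n B)]
  exact PebBasic_apexO_iff hK (by simpa using hn) hB

end Crest.Agent.R290
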