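import Crest.Agent.R290.DefsGraph
import Crest.Agent.R290.PebBasic

/-!
Row 290.  The graph of a system: numbering, simplicity, degrees, connectedness.
-/

set_option autoImplicit false

namespace Crest.Agent.R290

open Finset Crest.WLRefine

variable {X : Type} [DecidableEq X] {N L : ℕ} {ov : ℕ → X} {b : ℕ → ZMod 2}

/-- The number of a vertex. -/
def GrBasic_ix (N L : ℕ) : Vx → ℕ
  | .q j => j
  | .mu τ => L + 2 + 12 * N + τ
  | .pr κ o x => L + 2 + 18 * N + 8 * o + 2 * κ + x.val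
  | .ck c y₁ y₂ => L + 2 + 42 * N + 4 * c + 2 * y₁.val + y₂.val

theorem GrBasic_zmod2 (x : ZMod 2) : x = 0 ∨ x = 1 := by revert x; decide

theorem GrBasic_val_cast (a : ℕ) (h : a < 2) : ((a : ℕ) : ZMod 2).val = a := ZMod.val_cast_of_lt h

theorem GrBasic_vx_ok {N L a : ℕ} (h : a < nv N L) : (vx N L a).ok N L := by
  unfold nv at h
  unfold vx
  split_ifs <;> simp only [Vx.ok] <;> omega

theorem GrBasic_ix_lt {N L : ℕ} {v : Vx} (h : v.ok N L) : GrBasic_ix N L v < nv N L := by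
  unfold nv
  cases v with
  | q j => simp only [Vx.ok] at h; simp only [GrBasic_ix]; omega
  | mu τ => simp only [Vx.ok] at h; simp only [GrBasic_ix]; omega
  | pr κ o x =>
    have := ZMod.val_lt x
    simp only [Vx.ok] at h; simp only [GrBasic_ix]; omega
  | ck c y₁ y₂ =>
    have := ZMod.val_lt y₁
    have := ZMod.val_lt y₂
    simp only [Vx.ok] at h; simp only [GrBasic_ix]; omega

theorem GrBasic_ix_vx (N L a : ℕ) : GrBasic_ix N L (vx N L a) = a := by
  unfold vx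
  split_ifs
  · rfl
  · simp only [GrBasic_ix]; omega
  · simp only [GrBasic_ix]
    rw [GrBasic_val_cast _ (by omega)]; omega
  · simp only [GrBasic_ix]
    rw [GrBasic_val_cast _ (by omega), GrBasic_val_cast _ (by omega)]; omega

theorem GrBasic_vx_ix {N L : ℕ} {v : Vx} (h : v.ok N L) : vx N L (GrBasic_ix N L v) = v := by
  unfold vx
  cases v with
  | q j =>
    simp only [Vx.ok] at h; simp only [GrBasic_ix]
    rw [if_pos h]
  | mu τ =>
    simp only [Vx.ok] at h; simp only [GrBasic_ix]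
    rw [if_neg (by omega), if_pos (by omega)]
    congr 1; omega
  | pr κ o x =>
    have := ZMod.val_lt x
    simp only [Vx.ok] at h; simp only [GrBasic_ix]
    rw [if_neg (by omega), if_neg (by omega), if_pos (by omega)]
    congr 1
    · omega
    · omega
    · rw [show (L + 2 + 18 * N + 8 * o + 2 * κ + x.val - (L + 2 + 18 * N)) % 2 = x.val by omega,
        ZMod.natCast_zmod_val]
  | ck c y₁ y₂ =>
    have := ZMod.val_lt y₁
    have := ZMod.val_lt y₂
    simp only [Vx.ok] at h; simp only [GrBasic_ix]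
    rw [if_neg (by omega), if_neg (by omega), if_neg (by omega)]
    congr 1
    · omega
    · rw [show (L + 2 + 42 * N + 4 * c + 2 * y₁.val + y₂.val - (L + 2 + 42 * N)) % 4 / 2 = y₁.val
        by omega, ZMod.natCast_zmod_val]
    · rw [show (L + 2 + 42 * N + 4 * c + 2 * y₁.val + y₂.val - (L + 2 + 42 * N)) % 2 = y₂.val
        by omega, ZMod.natCast_zmod_val]

/-- The numbering of the vertices. -/
theorem exists_vxEquiv (N L : ℕ) : ∃ e : Fin (nv N L) ≃ GV N L, ∀ a, (e a).1 = vx N L a := by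
  exact ⟨⟨fun a => ⟨vx N L a, GrBasic_vx_ok a.2⟩, fun v => ⟨GrBasic_ix N L v.1, GrBasic_ix_lt v.2⟩,
    fun a => Fin.ext (GrBasic_ix_vx N L a), fun v => Subtype.ext (GrBasic_vx_ix v.2)⟩,
    fun _ => rfl⟩

noncomputable instance (N L : ℕ) : Fintype (GV N L) :=
  Fintype.ofEquiv _ (exists_vxEquiv N L).choose

theorem card_GV (N L : ℕ) : Fintype.card (GV N L) = nv N L := by
  rw [← Fintype.card_congr (exists_vxEquiv N L).choose, Fintype.card_fin]

theorem iso_toMat_gr : Iso (toMat (nv N L) (adjN N L ov b)) (gr N L ov b) := by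
  obtain ⟨e, he⟩ := exists_vxEquiv N L
  exact ⟨e, fun v w => by simp only [gr, he, toMat, adjN]⟩

theorem gadj_comm (u v : Vx) : gadj L ov b u v = gadj L ov b v u := by
  simp only [gadj, Bool.or_comm]

theorem gadj_self (u : Vx) : gadj L ov b u u = false := by
  cases u <;> simp [gadj, ged, nxt]

theorem nxt_unique_right {o o₁ o₂ : ℕ} (h₁ : nxt ov o o₁ = true) (h₂ : nxt ov o o₂ = true) :
    o₁ = o₂ := by
  simp only [nxt, decide_eq_true_eq] at h₁ h₂
  rcases lt_trichotomy o₁ o₂ with h | h | h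
  · exact absurd h₁.2.1.symm (h₂.2.2 o₁ h h₁.1)
  · exact h
  · exact absurd h₂.2.1.symm (h₁.2.2 o₂ h h₂.1)

theorem nxt_unique_left {o o₁ o₂ : ℕ} (h₁ : nxt ov o₁ o = true) (h₂ : nxt ov o₂ o = true) :
    o₁ = o₂ := by
  simp only [nxt, decide_eq_true_eq] at h₁ h₂
  rcases lt_trichotomy o₁ o₂ with h | h | h
  · exact absurd (h₂.2.1.trans h₁.2.1.symm) (h₁.2.2 o₂ h₂.1 h)
  · exact h
  · exact absurd (h₁.2.1.trans h₂.2.1.symm) (h₂.2.2 o₁ h₁.1 h)

/-- Two occurrences of the same variable are joined by `nxt` steps. -/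
theorem nxt_induction {P : ℕ → Prop} {o o' : ℕ} (hle : o ≤ o') (he : ov o = ov o') (h0 : P o)
    (hs : ∀ a a', o ≤ a → a' ≤ o' → nxt ov a a' = true → P a → P a') : P o' := by
  induction hd : o' - o using Nat.strong_induction_on generalizing o with
  | _ d ih =>
    rcases hle.eq_or_lt with rfl | hlt
    · exact h0
    · have hex : ∃ a, o < a ∧ ov a = ov o := ⟨o', hlt, he.symm⟩
      have h1 := Nat.find_spec hex
      have h2 : Nat.find hex ≤ o' := Nat.find_min' hex ⟨hlt, he.symm⟩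
      have h3 : nxt ov o (Nat.find hex) = true := by
        simp only [nxt, decide_eq_true_eq]
        exact ⟨h1.1, h1.2.symm, fun a ha hoa hv => Nat.find_min hex ha ⟨hoa, hv⟩⟩
      exact ih (o' - Nat.find hex) (by omega) h2 (h1.2.trans he) (hs _ _ le_rfl h2 h3 h0)
        (fun a a' ha => hs a a' (by omega)) rfl

theorem gadj_q_iff (j : ℕ) (v : Vx) : gadj L ov b (.q j) v = true ↔
    v = .q (j + 1) ∨ (∃ j', j = j' + 1 ∧ v = .q j') ∨ ∃ τ, j = L + 2 + 2 * τ ∧ v = .mu τ := by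
  cases v <;> simp [gadj, ged]

theorem gadj_mu_iff (τ : ℕ) (v : Vx) : gadj L ov b (.mu τ) v = true ↔
    v = .q (L + 2 + 2 * τ) ∨ ∃ x, v = .pr (1 + τ % 2) (τ / 2) x := by
  cases v with
  | q j => simp [gadj, ged]
  | mu τ' => simp [gadj, ged]
  | pr κ o x => simp [gadj, ged]; omega
  | ck c y₁ y₂ => simp [gadj, ged]

theorem gadj_pr_iff (κ o : ℕ) (x : ZMod 2) (v : Vx) : gadj L ov b (.pr κ o x) v = true ↔
    v = .pr (κ + 1) o x ∨ (∃ κ', κ = κ' + 1 ∧ v = .pr κ' o x) ∨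
      (κ = 3 ∧ ∃ o', (nxt ov o o' = true ∨ nxt ov o' o = true) ∧ v = .pr 3 o' x) ∨
      (κ = 1 ∧ v = .mu (2 * o)) ∨ (κ = 2 ∧ v = .mu (2 * o + 1)) ∨
      (κ = 0 ∧ ∃ y₁ y₂, x = ckBit (b (o / 3)) y₁ y₂ (o % 3) ∧ v = .ck (o / 3) y₁ y₂) := by
  cases v with
  | q j => simp [gadj, ged]
  | mu τ' => simp [gadj, ged]
  | pr κ' o' x' => simp only [gadj, ged]; grind
  | ck c y₁ y₂ => simp only [gadj, ged]; grind

theorem gadj_ck_iff (c : ℕ) (y₁ y₂ : ZMod 2) (v : Vx) : gadj L ov b (.ck c y₁ y₂) v = true ↔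
    ∃ o, o / 3 = c ∧ v = .pr 0 o (ckBit (b c) y₁ y₂ (o % 3)) := by
  cases v with
  | q j => simp [gadj, ged]
  | mu τ' => simp [gadj, ged]
  | pr κ' o' x' => simp only [gadj, ged]; grind
  | ck c y₁ y₂ => simp [gadj, ged]

/-- Three candidates contain all neighbours of a vertex. -/
theorem GrBasic_three {u : Vx} (hu : u.ok N L) :
    ∃ v₁ v₂ v₃ : Vx, ∀ v, v.ok N L → gadj L ov b u v = true → v = v₁ ∨ v = v₂ ∨ v = v₃ := by
  classical
  cases u with
  | q j =>
    refine ⟨.q (j + 1), .q (j - 1), .mu ((j - (L + 2)) / 2), fun v _ h => ?_⟩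
    rcases (gadj_q_iff j v).1 h with h | ⟨j', rfl, rfl⟩ | ⟨τ, rfl, rfl⟩
    · exact Or.inl h
    · exact Or.inr (Or.inl rfl)
    · refine Or.inr (Or.inr ?_); congr 1; omega
  | mu τ =>
    refine ⟨.q (L + 2 + 2 * τ), .pr (1 + τ % 2) (τ / 2) 0, .pr (1 + τ % 2) (τ / 2) 1,
      fun v _ h => ?_⟩
    rcases (gadj_mu_iff τ v).1 h with h | ⟨x, rfl⟩
    · exact Or.inl h
    · rcases GrBasic_zmod2 x with rfl | rfl <;> simp
  | ck c y₁ y₂ =>
    refine ⟨.pr 0 (3 * c) (ckBit (b c) y₁ y₂ 0), .pr 0 (3 * c + 1) (ckBit (b c) y₁ y₂ 1),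
      .pr 0 (3 * c + 2) (ckBit (b c) y₁ y₂ 2), fun v _ h => ?_⟩
    obtain ⟨o, rfl, rfl⟩ := (gadj_ck_iff c y₁ y₂ v).1 h
    have : o % 3 = 0 ∨ o % 3 = 1 ∨ o % 3 = 2 := by omega
    rcases this with h | h | h
    · left; rw [h]; congr 1; omega
    · right; left; rw [h]; congr 1; omega
    · right; right; rw [h]; congr 1; omega
  | pr κ o x =>
    simp only [Vx.ok] at hu
    have hκ : κ = 0 ∨ κ = 1 ∨ κ = 2 ∨ κ = 3 := by omega
    rcases hκ with rfl | rfl | rfl | rfl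
    · have key : ∃ a₁ a₂ a₃ a₄ : ZMod 2, ∀ y₁ y₂, x = ckBit (b (o / 3)) y₁ y₂ (o % 3) →
          (y₁ = a₁ ∧ y₂ = a₂) ∨ (y₁ = a₃ ∧ y₂ = a₄) := by
        generalize b (o / 3) = β
        unfold ckBit
        split_ifs <;> revert x β <;> decide
      obtain ⟨a₁, a₂, a₃, a₄, key⟩ := key
      refine ⟨.pr 1 o x, .ck (o / 3) a₁ a₂, .ck (o / 3) a₃ a₄, fun v _ h => ?_⟩
      rcases (gadj_pr_iff 0 o x v).1 h with h | ⟨κ', h, -⟩ | ⟨h, -⟩ | ⟨h, -⟩ | ⟨h, -⟩ |
        ⟨-, y₁, y₂, h', rfl⟩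
      · exact Or.inl h
      · omega
      · omega
      · omega
      · omega
      · rcases key y₁ y₂ h' with ⟨rfl, rfl⟩ | ⟨rfl, rfl⟩ <;> simp
    · refine ⟨.pr 2 o x, .pr 0 o x, .mu (2 * o), fun v _ h => ?_⟩
      rcases (gadj_pr_iff 1 o x v).1 h with h | ⟨κ', h, rfl⟩ | ⟨h, -⟩ | ⟨-, h⟩ | ⟨h, -⟩ | ⟨h, -⟩
      · exact Or.inl h
      · obtain rfl : κ' = 0 := by omega
        simp
      · omega
      · simp [h]
      · omega
      · omega
    · refine ⟨.pr 3 o x, .pr 1 o x, .mu (2 * o + 1), fun v _ h => ?_⟩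
      rcases (gadj_pr_iff 2 o x v).1 h with h | ⟨κ', h, rfl⟩ | ⟨h, -⟩ | ⟨h, -⟩ | ⟨-, h⟩ | ⟨h, -⟩
      · exact Or.inl h
      · obtain rfl : κ' = 1 := by omega
        simp
      · omega
      · omega
      · simp [h]
      · omega
    · obtain ⟨o₁, h₁⟩ : ∃ o₁, ∀ o', nxt ov o o' = true → o' = o₁ := by
        by_cases h : ∃ o₁, nxt ov o o₁ = true
        · obtain ⟨o₁, h⟩ := h
          exact ⟨o₁, fun o' h' => nxt_unique_right h' h⟩
        · exact ⟨0, fun o' h' => absurd ⟨o', h'⟩ h⟩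
      obtain ⟨o₂, h₂⟩ : ∃ o₂, ∀ o', nxt ov o' o = true → o' = o₂ := by
        by_cases h : ∃ o₂, nxt ov o₂ o = true
        · obtain ⟨o₂, h⟩ := h
          exact ⟨o₂, fun o' h' => nxt_unique_left h' h⟩
        · exact ⟨0, fun o' h' => absurd ⟨o', h'⟩ h⟩
      refine ⟨.pr 2 o x, .pr 3 o₁ x, .pr 3 o₂ x, fun v hv h => ?_⟩
      rcases (gadj_pr_iff 3 o x v).1 h with rfl | ⟨κ', h, rfl⟩ | ⟨-, o', h' | h', rfl⟩ | ⟨h, -⟩ |
        ⟨h, -⟩ | ⟨h, -⟩
      · simp [Vx.ok] at hv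
      · obtain rfl : κ' = 2 := by omega
        simp
      · simp [h₁ o' h']
      · simp [h₂ o' h']
      · omega
      · omega
      · omega

/-- Induction along the edges, starting from `q 0`. -/
theorem GrBasic_conn {R : Vx → Prop} (h0 : R (.q 0))
    (hs : ∀ u v, u.ok N L → v.ok N L → gadj L ov b u v = true → R u → R v) :
    ∀ v, v.ok N L → R v := by
  have hq : ∀ j, j < L + 2 + 12 * N → R (.q j) := by
    intro j
    induction j with
    | zero => exact fun _ => h0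
    | succ j ih =>
      intro hj
      exact hs (.q j) _ (by simp only [Vx.ok]; omega) hj (by simp [gadj, ged]) (ih (by omega))
  have hmu : ∀ τ, τ < 6 * N → R (.mu τ) := fun τ hτ =>
    hs (.q (L + 2 + 2 * τ)) _ (by simp only [Vx.ok]; omega) hτ (by simp [gadj, ged])
      (hq _ (by omega))
  have h1 : ∀ o x, o < 3 * N → R (.pr 1 o x) := fun o x ho =>
    hs (.mu (2 * o)) _ (by simp only [Vx.ok]; omega) ⟨by omega, ho⟩ (by simp [gadj, ged])
      (hmu _ (by omega))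
  have hp0 : ∀ o x, o < 3 * N → R (.pr 0 o x) := fun o x ho =>
    hs (.pr 1 o x) _ ⟨by omega, ho⟩ ⟨by omega, ho⟩ (by simp [gadj, ged]) (h1 o x ho)
  have h2 : ∀ o x, o < 3 * N → R (.pr 2 o x) := fun o x ho =>
    hs (.pr 1 o x) _ ⟨by omega, ho⟩ ⟨by omega, ho⟩ (by simp [gadj, ged]) (h1 o x ho)
  have h3 : ∀ o x, o < 3 * N → R (.pr 3 o x) := fun o x ho =>
    hs (.pr 2 o x) _ ⟨by omega, ho⟩ ⟨by omega, ho⟩ (by simp [gadj, ged]) (h2 o x ho)
  intro v hv
  cases v with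
  | q j => exact hq j hv
  | mu τ => exact hmu τ hv
  | pr κ o x =>
    have hκ : κ = 0 ∨ κ = 1 ∨ κ = 2 ∨ κ = 3 := by have := hv.1; omega
    rcases hκ with rfl | rfl | rfl | rfl
    exacts [hp0 o x hv.2, h1 o x hv.2, h2 o x hv.2, h3 o x hv.2]
  | ck c y₁ y₂ =>
    have hc : c < N := hv
    exact hs (.pr 0 (3 * c) y₁) _ ⟨by omega, by omega⟩ hv (by simp [gadj, ged, ckBit])
      (hp0 _ _ (by omega))

theorem simpleConnSubcubic_gr : SimpleConnSubcubic (toMat (nv N L) (adjN N L ov b)) := by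
  have hsimp : IsSimple (toMat (nv N L) (adjN N L ov b)) :=
    ⟨fun v w => gadj_comm _ _, fun v => gadj_self _⟩
  refine ⟨hsimp, ?_, fun a => ?_⟩
  · have h0 : 0 < nv N L := by unfold nv; omega
    rw [SimpleGraph.connected_iff_exists_forall_reachable]
    refine ⟨⟨0, h0⟩, fun a => ?_⟩
    have key := GrBasic_conn (N := N) (L := L) (ov := ov) (b := b)
      (R := fun v => ∀ h : GrBasic_ix N L v < nv N L,
        (adjGraph (toMat (nv N L) (adjN N L ov b))).Reachable ⟨0, h0⟩ ⟨GrBasic_ix N L v, h⟩)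
      (fun _ => SimpleGraph.Reachable.refl _) (fun u v hu hv huv hR h => by
        refine (hR (GrBasic_ix_lt hu)).trans (SimpleGraph.Adj.reachable ?_)
        have hm : toMat (nv N L) (adjN N L ov b) ⟨GrBasic_ix N L u, GrBasic_ix_lt hu⟩
            ⟨GrBasic_ix N L v, h⟩ = true := by
          simp only [toMat, adjN, GrBasic_vx_ix hu, GrBasic_vx_ix hv, huv]
        refine (SimpleGraph.fromRel_adj _ _ _).2 ⟨fun he => ?_, Or.inl hm⟩
        rw [he, hsimp.2] at hm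
        exact Bool.false_ne_true hm)
      (vx N L a) (GrBasic_vx_ok a.2) (by rw [GrBasic_ix_vx]; exact a.2)
    simpa only [GrBasic_ix_vx] using key
  · obtain ⟨v₁, v₂, v₃, h⟩ := GrBasic_three (ov := ov) (b := b) (GrBasic_vx_ok a.2)
    refine le_trans (card_le_card_of_injOn (t := {v₁, v₂, v₃}) (fun w => vx N L w) ?_ ?_)
      card_le_three
    · intro w hw
      have hw' : gadj L ov b (vx N L a) (vx N L w) = true := (mem_filter.1 hw).2
      simpa using h _ (GrBasic_vx_ok w.2) hw'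
    · intro w _ w' _ hww
      have := congrArg (GrBasic_ix N L) hww
      simp only [GrBasic_ix_vx] at this
      exact Fin.ext this

end Crest.Agent.R290
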