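import Crest.Agent.R290.Sweep
import Crest.Agent.R290.GrBasic
import Crest.Agent.R290.Cons

/-!
Row 290.  Local consistency gives Duplicator's strategy on the graphs.
-/

set_option autoImplicit false

namespace Crest.Agent.R290

open Finset

variable {X : Type} [DecidableEq X] {K N L : ℕ} {ov : ℕ → X} {b : ℕ → ZMod 2}

/-- the shift of vertex names by an assignment -/
def gdT (ov : ℕ → X) (s : X → ZMod 2) : Vx → Vx
  | .q j => .q j
  | .mu τ => .mu τ
  | .pr κ o x => .pr κ o (x + s (ov o))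
  | .ck c y₁ y₂ => .ck c (y₁ + s (ov (3 * c))) (y₂ + s (ov (3 * c + 1)))

/-- the equation a vertex belongs to -/
def gdChk : Vx → Option ℕ
  | .q _ => none
  | .mu _ => none
  | .pr _ o _ => some (o / 3)
  | .ck c _ _ => some c

theorem gd_two (x y : ZMod 2) : x + y + y = x := by
  revert x y; decide

omit [DecidableEq X] in
theorem gdT_invol (s : X → ZMod 2) (v : Vx) : gdT ov s (gdT ov s v) = v := by
  cases v <;> simp [gdT, gd_two]

omit [DecidableEq X] in
theorem gdChk_T (s : X → ZMod 2) (v : Vx) : gdChk (gdT ov s v) = gdChk v := by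
  cases v <;> rfl

omit [DecidableEq X] in
theorem gdT_ok (s : X → ZMod 2) {v : Vx} (h : v.ok N L) : (gdT ov s v).ok N L := by
  cases v <;> exact h

theorem gdChk_lt {v : Vx} (h : v.ok N L) {c : ℕ} (hc : gdChk v = some c) : c < N := by
  cases v with
  | q j => simp [gdChk] at hc
  | mu τ => simp [gdChk] at hc
  | pr κ o x =>
    simp only [gdChk, Option.some.injEq] at hc
    have := h.2
    omega
  | ck c' y₁ y₂ =>
    simp only [gdChk, Option.some.injEq] at hc
    exact hc ▸ h

omit [DecidableEq X] in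
theorem gdT_congr {s s' : X → ZMod 2} {v : Vx}
    (h : ∀ c, gdChk v = some c → ∀ x ∈ geqn ov c, s' x = s x) : gdT ov s' v = gdT ov s v := by
  cases v with
  | q j => rfl
  | mu τ => rfl
  | pr κ o x =>
    have : s' (ov o) = s (ov o) := by
      apply h (o / 3) rfl
      have h3 : o = 3 * (o / 3) ∨ o = 3 * (o / 3) + 1 ∨ o = 3 * (o / 3) + 2 := by omega
      simp only [geqn, List.mem_cons, List.not_mem_nil, or_false]
      rcases h3 with h3 | h3 | h3
      · left; rw [← h3]
      · right; left; rw [← h3]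
      · right; right; rw [← h3]
    simp [gdT, this]
  | ck c y₁ y₂ =>
    have h1 : s' (ov (3 * c)) = s (ov (3 * c)) := h c rfl _ (by simp [geqn])
    have h2 : s' (ov (3 * c + 1)) = s (ov (3 * c + 1)) := h c rfl _ (by simp [geqn])
    simp [gdT, h1, h2]

theorem gd_bit (β a₀ a₁ a₂ y₁ y₂ x : ZMod 2) (h : a₀ + (a₁ + (a₂ + 0)) = β) :
    (x + a₂ = y₁ + a₀ + (y₂ + a₁) + β) ↔ (x = y₁ + y₂ + 0) := by
  revert β a₀ a₁ a₂ y₁ y₂ x; decide

theorem ged_T {s : X → ZMod 2} {u v : Vx}
    (hu : ∀ c, gdChk u = some c → lhs s (geqn ov c) = b c) :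
    ged L ov b (gdT ov s u) (gdT ov s v) = ged L ov (fun _ => 0) u v := by
  cases u <;> cases v <;> try rfl
  · rename_i κ o x κ' o' x'
    simp only [gdT, ged]
    by_cases h1 : ov o = ov o'
    · rw [h1]; simp
    · have h2 : o ≠ o' := fun e => h1 (e ▸ rfl)
      simp [nxt, h1, h2]
  · rename_i c y₁ y₂ κ o x
    simp only [gdT, ged]
    have hs := hu c rfl
    simp only [lhs, geqn, List.map_cons, List.map_nil, List.sum_cons, List.sum_nil] at hs
    rw [decide_eq_decide]
    refine and_congr_right fun _ => and_congr_right fun hc => ?_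
    have h3 : o % 3 = 0 ∨ o % 3 = 1 ∨ o % 3 = 2 := by omega
    rcases h3 with h3 | h3 | h3
    · have : o = 3 * c := by omega
      rw [h3, this]; simp [ckBit]
    · have : o = 3 * c + 1 := by omega
      rw [h3, this]; simp [ckBit]
    · have : o = 3 * c + 2 := by omega
      rw [h3, this]
      simp only [ckBit, OfNat.ofNat_ne_zero, if_false, OfNat.ofNat_ne_one]
      exact gd_bit _ _ _ _ _ _ _ hs

theorem gadj_T {s : X → ZMod 2} {u v : Vx}
    (hu : ∀ c, gdChk u = some c → lhs s (geqn ov c) = b c)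
    (hv : ∀ c, gdChk v = some c → lhs s (geqn ov c) = b c) :
    gadj L ov b (gdT ov s u) (gdT ov s v) = gadj L ov (fun _ => 0) u v := by
  simp only [gadj, ged_T hu, ged_T hv]

/-- the shift by an assignment that depends on the equation of the vertex -/
def gdEquiv (ov : ℕ → X) (N L : ℕ) (S : Option ℕ → X → ZMod 2) : GV N L ≃ GV N L where
  toFun z := ⟨gdT ov (S (gdChk z.1)) z.1, gdT_ok _ z.2⟩
  invFun z := ⟨gdT ov (S (gdChk z.1)) z.1, gdT_ok _ z.2⟩
  left_inv z := Subtype.ext (by simp only [gdChk_T, gdT_invol])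
  right_inv z := Subtype.ext (by simp only [gdChk_T, gdT_invol])

theorem peb_gr_of_cons (h : Cons K (fun c => c < N) (geqn ov) b) :
    Peb K (gr N L ov fun _ => 0) (gr N L ov b) := by
  obtain ⟨F, hF⟩ := h
  refine ⟨{P | ∃ p s, (p, s) ∈ F ∧ ∀ a ∈ P, (∀ c, gdChk a.1.1 = some c → c ∈ p) ∧
    a.2.1 = gdT ov s a.1.1}, ?_, ?_, ?_, ?_, ?_⟩
  · obtain ⟨⟨p, s⟩, hps⟩ := hF.ne
    exact ⟨p, s, hps, by simp⟩
  · rintro P ⟨p, s, hps, hP⟩ Q hQ
    exact ⟨p, s, hps, fun a ha => hP a (hQ ha)⟩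
  · rintro P ⟨p, s, hps, hP⟩ a ha a' ha'
    rw [Subtype.ext_iff, Subtype.ext_iff (a1 := a.2), (hP a ha).2, (hP a' ha').2]
    refine ⟨fun e => by rw [e], fun e => ?_⟩
    rw [← gdT_invol (ov := ov) s a.1.1, e, gdT_invol]
  · rintro P ⟨p, s, hps, hP⟩ a ha a' ha'
    simp only [gr]
    rw [(hP a ha).2, (hP a' ha').2]
    exact (gadj_T (fun c hc => hF.sat p s hps c ((hP a ha).1 c hc))
      (fun c hc => hF.sat p s hps c ((hP a' ha').1 c hc))).symm
  · rintro P ⟨p, s, hps, hP⟩ hK
    set p' : Finset ℕ := P.biUnion fun a => (gdChk a.1.1).toFinset with hp'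
    have hmem : ∀ c, c ∈ p' ↔ ∃ a ∈ P, gdChk a.1.1 = some c := by
      intro c; simp [hp', Option.mem_toFinset]
    have hsub : p' ⊆ p := fun c hc => by
      obtain ⟨a, ha, hac⟩ := (hmem c).1 hc
      exact (hP a ha).1 c hac
    have hcard : p'.card < K := by
      refine lt_of_le_of_lt ?_ hK
      refine le_trans card_biUnion_le ?_
      calc ∑ a ∈ P, (gdChk a.1.1).toFinset.card ≤ ∑ _a ∈ P, 1 :=
            sum_le_sum fun a _ => by cases gdChk a.1.1 <;> simp
        _ = P.card := by simp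
    have hp's := hF.down p s hps p' hsub
    have hex : ∀ oc : Option ℕ, ∃ σ', (∀ c, oc = some c → c < N) →
        (p' ∪ oc.toFinset, σ') ∈ F ∧ ∀ x, Touch (geqn ov) p' x → σ' x = s x := by
      intro oc
      cases oc with
      | none => exact ⟨s, fun _ => ⟨by simpa using hp's, fun _ _ => rfl⟩⟩
      | some c =>
        by_cases hc : c < N
        · obtain ⟨σ', h1, h2⟩ := hF.ext p' s hp's hcard c hc
          refine ⟨σ', fun _ => ⟨?_, h2⟩⟩
          have : p' ∪ (some c).toFinset = insert c p' := by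
            ext y; simp [or_comm]
          rw [this]; exact h1
        · exact ⟨s, fun h => absurd (h c rfl) hc⟩
    choose S hS using hex
    refine ⟨gdEquiv ov N L S, fun z => ?_⟩
    obtain ⟨h1, h2⟩ := hS (gdChk z.1) fun c hc => gdChk_lt z.2 hc
    refine ⟨_, _, h1, fun a ha => ?_⟩
    rcases mem_insert.1 ha with rfl | ha
    · exact ⟨fun c hc => mem_union_right _ (by simpa [Option.mem_toFinset] using hc), rfl⟩
    · refine ⟨fun c hc => mem_union_left _ ((hmem c).2 ⟨a, ha, hc⟩), ?_⟩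
      rw [(hP a ha).2]
      exact (gdT_congr fun c hc x hx => h2 x ⟨c, (hmem c).2 ⟨a, ha, hc⟩, hx⟩).symm

theorem iso_gr_of_sat (h : Sat (fun c => c < N) (geqn ov) b) :
    Iso (gr N L ov fun _ => 0) (gr N L ov b) := by
  obtain ⟨s, hs⟩ := h
  refine ⟨gdEquiv ov N L fun _ => s, fun v w => ?_⟩
  exact gadj_T (fun c hc => hs c (gdChk_lt v.2 hc)) (fun c hc => hs c (gdChk_lt w.2 hc))

end Crest.Agent.R290
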