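import Crest.Agent.R290.GrBasic

/-!
Row 290.  The game respects the nodes of the graph.
-/

set_option autoImplicit false

namespace Crest.Agent.R290

open Finset

variable {X : Type} [DecidableEq X] {K N L : ℕ} {ov : ℕ → X} {b b' : ℕ → ZMod 2}

/-- A bisimulation with bijective witnesses. -/
def GrIdentBis (N L : ℕ) (ov : ℕ → X) (b b' : ℕ → ZMod 2) (R : GV N L → GV N L → Prop) : Prop :=
  ∀ v w, R v w → ∃ π : GV N L ≃ GV N L, (∀ z, R z (π z)) ∧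
    ∀ z, gr N L ov b v z = gr N L ov b' w (π z)

/-- A property respected by the relation. -/
def GrIdentInv (b b' : ℕ → ZMod 2) (R : GV N L → GV N L → Prop)
    (S : (ℕ → ZMod 2) → GV N L → Prop) : Prop :=
  ∀ v w, R v w → (S b v ↔ S b' w)

/-- At least two neighbours. -/
def grIdentD2 (ov : ℕ → X) (β : ℕ → ZMod 2) (v : GV N L) : Prop :=
  ∃ u₁ u₂ : GV N L, u₁.1 ≠ u₂.1 ∧ gr N L ov β v u₁ = true ∧ gr N L ov β v u₂ = true

/-- At least three neighbours. -/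
def grIdentD3 (ov : ℕ → X) (β : ℕ → ZMod 2) (v : GV N L) : Prop :=
  ∃ u₁ u₂ u₃ : GV N L, u₁.1 ≠ u₂.1 ∧ u₁.1 ≠ u₃.1 ∧ u₂.1 ≠ u₃.1 ∧ gr N L ov β v u₁ = true ∧
    gr N L ov β v u₂ = true ∧ gr N L ov β v u₃ = true

section inv

variable {R : GV N L → GV N L → Prop} {S T : (ℕ → ZMod 2) → GV N L → Prop}

theorem GrIdentInv.congr (h : GrIdentInv b b' R S) (e : ∀ β v, T β v ↔ S β v) :
    GrIdentInv b b' R T := fun v w hr => by rw [e, e]; exact h v w hr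

theorem GrIdentInv.and (h : GrIdentInv b b' R S) (h' : GrIdentInv b b' R T) :
    GrIdentInv b b' R (fun β v => S β v ∧ T β v) := fun v w hr =>
  and_congr (h v w hr) (h' v w hr)

theorem GrIdentInv.not (h : GrIdentInv b b' R S) : GrIdentInv b b' R (fun β v => ¬ S β v) :=
  fun v w hr => not_congr (h v w hr)

theorem GrIdentInv.ex {ι : Type} {S : ι → (ℕ → ZMod 2) → GV N L → Prop}
    (h : ∀ i, GrIdentInv b b' R (S i)) : GrIdentInv b b' R (fun β v => ∃ i, S i β v) :=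
  fun v w hr => exists_congr fun i => h i v w hr

theorem GrIdentInv.cond (p : Prop) (h : p → GrIdentInv b b' R S) :
    GrIdentInv b b' R (fun β v => p ∧ S β v) :=
  fun v w hr => and_congr_right fun hp => h hp v w hr

theorem GrIdentInv.nb (hR : GrIdentBis N L ov b b' R) (h : GrIdentInv b b' R S) :
    GrIdentInv b b' R (fun β v => ∃ u, S β u ∧ gr N L ov β v u = true) := by
  intro v w hr
  obtain ⟨π, h1, h2⟩ := hR v w hr
  refine π.exists_congr fun u => ?_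
  rw [h u _ (h1 u), h2]

theorem grIdent_inv_d2 (hR : GrIdentBis N L ov b b' R) : GrIdentInv b b' R (grIdentD2 ov) := by
  intro v w hr
  obtain ⟨π, -, h2⟩ := hR v w hr
  refine π.exists_congr fun u₁ => π.exists_congr fun u₂ => ?_
  simp only [h2, Subtype.val_injective.ne_iff, π.injective.ne_iff]

theorem grIdent_inv_d3 (hR : GrIdentBis N L ov b b' R) : GrIdentInv b b' R (grIdentD3 ov) := by
  intro v w hr
  obtain ⟨π, -, h2⟩ := hR v w hr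
  refine π.exists_congr fun u₁ => π.exists_congr fun u₂ => π.exists_congr fun u₃ => ?_
  simp only [h2, Subtype.val_injective.ne_iff, π.injective.ne_iff]

end inv

theorem grIdent_adj_q {β : ℕ → ZMod 2} {j : ℕ} {u : Vx} (h : gadj L ov β (.q j) u = true) :
    u = .q (j + 1) ∨ (∃ i, j = i + 1 ∧ u = .q i) ∨ ∃ τ, j = L + 2 + 2 * τ ∧ u = .mu τ := by
  cases u <;> simp [gadj, ged] at h ⊢
  · omega
  · exact h

theorem grIdent_adj_mu {β : ℕ → ZMod 2} {τ : ℕ} {u : Vx} (h : gadj L ov β (.mu τ) u = true) :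
    u = .q (L + 2 + 2 * τ) ∨ (∃ o x, τ = 2 * o ∧ u = .pr 1 o x) ∨
      ∃ o x, τ = 2 * o + 1 ∧ u = .pr 2 o x := by
  cases u <;> simp [gadj, ged] at h ⊢
  · exact h
  · rcases h with ⟨rfl, rfl⟩ | ⟨rfl, rfl⟩ <;> simp

theorem grIdent_adj_pr {β : ℕ → ZMod 2} {κ o : ℕ} {x : ZMod 2} {u : Vx} (hκ : κ ≠ 3)
    (h : gadj L ov β (.pr κ o x) u = true) :
    u = .pr (κ + 1) o x ∨ (∃ i, κ = i + 1 ∧ u = .pr i o x) ∨ (κ ≠ 0 ∧ ∃ τ, u = .mu τ) ∨
      (κ = 0 ∧ ∃ y₁ y₂, u = .ck (o / 3) y₁ y₂) := by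
  cases u <;> simp [gadj, ged, hκ] at h ⊢
  · omega
  · rcases h with ⟨rfl, rfl, rfl⟩ | ⟨rfl, rfl, rfl⟩ <;> simp
  · exact ⟨h.1, h.2.1.symm⟩

theorem grIdent_d3_mu {β : ℕ → ZMod 2} {τ : ℕ} (h : (Vx.mu τ).ok N L) :
    grIdentD3 ov β (⟨_, h⟩ : GV N L) := by
  have h' : τ < 6 * N := h
  refine ⟨⟨.q (L + 2 + 2 * τ), show _ < _ by omega⟩,
    ⟨.pr (1 + τ % 2) (τ / 2) 0, show _ ∧ _ by omega⟩,
    ⟨.pr (1 + τ % 2) (τ / 2) 1, show _ ∧ _ by omega⟩, by simp, by simp, by simp, ?_, ?_, ?_⟩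
  all_goals simp [gr, gadj, ged]
  all_goals omega

theorem grIdent_not_d3_q {β : ℕ → ZMod 2} {j : ℕ} (h : (Vx.q j).ok N L)
    (hj : ∀ τ, j ≠ L + 2 + 2 * τ) : ¬ grIdentD3 ov β (⟨_, h⟩ : GV N L) := by
  rintro ⟨u₁, u₂, u₃, n₁, n₂, n₃, a₁, a₂, a₃⟩
  have key : ∀ u : Vx, gadj L ov β (.q j) u = true → ∃ i, u = .q i ∧ (i = j + 1 ∨ j = i + 1) := by
    intro u a
    rcases grIdent_adj_q a with e | ⟨i, f, e⟩ | ⟨τ, e, -⟩
    · exact ⟨_, e, Or.inl rfl⟩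
    · exact ⟨_, e, Or.inr f⟩
    · exact absurd e (hj τ)
  obtain ⟨i₁, e₁, f₁⟩ := key _ a₁
  obtain ⟨i₂, e₂, f₂⟩ := key _ a₂
  obtain ⟨i₃, e₃, f₃⟩ := key _ a₃
  have m₁ : i₁ ≠ i₂ := fun e => n₁ (by rw [e₁, e₂, e])
  have m₂ : i₁ ≠ i₃ := fun e => n₂ (by rw [e₁, e₃, e])
  have m₃ : i₂ ≠ i₃ := fun e => n₃ (by rw [e₂, e₃, e])
  omega

theorem grIdent_q0 (hN : 1 ≤ N) (β : ℕ → ZMod 2) (v : GV N L) :
    v.1 = .q 0 ↔ ¬ grIdentD2 ov β v ∧ ∃ u, ¬ grIdentD3 ov β u ∧ gr N L ov β v u = true := by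
  obtain ⟨v, hv⟩ := v
  constructor
  · rintro rfl
    refine ⟨?_, ⟨.q 1, show _ < _ by omega⟩, grIdent_not_d3_q _ (by omega), by simp [gr, gadj, ged]⟩
    rintro ⟨u₁, u₂, n, a₁, a₂⟩
    rcases grIdent_adj_q a₁ with e₁ | ⟨i₁, f₁, e₁⟩ | ⟨τ, e, -⟩ <;>
    rcases grIdent_adj_q a₂ with e₂ | ⟨i₂, f₂, e₂⟩ | ⟨τ, e, -⟩ <;>
    first
      | omega
      | exact n (e₁.trans e₂.symm)
  · rintro ⟨h2, u, h3, hu⟩
    have key : ∀ u₀ : GV N L, grIdentD3 ov β u₀ → gr N L ov β ⟨v, hv⟩ u₀ = true → False :=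
      fun u₀ a c => h2 ⟨u, u₀, fun e => h3 (Subtype.ext e ▸ a), hu, c⟩
    cases v with
    | q j =>
      have hv' : j < L + 2 + 12 * N := hv
      rcases j with _ | j
      · rfl
      exfalso
      by_cases hj : j + 2 < L + 2 + 12 * N
      · exact h2 ⟨⟨.q j, show _ < _ by omega⟩, ⟨.q (j + 2), hj⟩, by simp,
          by simp [gr, gadj, ged], by simp [gr, gadj, ged]⟩
      · refine key ⟨.q j, show _ < _ by omega⟩ ⟨⟨.q (j - 1), show _ < _ by omega⟩,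
          ⟨.q (j + 1), hv⟩, ⟨.mu (6 * N - 1), show _ < _ by omega⟩, ?_, by simp, by simp,
          ?_, ?_, ?_⟩ ?_
        all_goals simp [gr, gadj, ged]
        all_goals omega
    | mu τ =>
      obtain ⟨u₁, u₂, -, n, -, -, a₁, a₂, -⟩ := grIdent_d3_mu (ov := ov) (β := β) hv
      exact absurd ⟨u₁, u₂, n, a₁, a₂⟩ h2
    | pr κ o x =>
      have hv' : κ < 4 ∧ o < 3 * N := hv
      exfalso
      obtain ⟨hκ, ho⟩ := hv'
      have d1 : grIdentD3 ov β (⟨.pr 1 o x, show _ ∧ _ by omega⟩ : GV N L) :=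
        ⟨⟨.pr 0 o x, show _ ∧ _ by omega⟩, ⟨.pr 2 o x, show _ ∧ _ by omega⟩,
          ⟨.mu (2 * o), show _ < _ by omega⟩, by simp, by simp, by simp,
          by simp [gr, gadj, ged], by simp [gr, gadj, ged], by simp [gr, gadj, ged]⟩
      have d2 : grIdentD3 ov β (⟨.pr 2 o x, show _ ∧ _ by omega⟩ : GV N L) :=
        ⟨⟨.pr 1 o x, show _ ∧ _ by omega⟩, ⟨.pr 3 o x, show _ ∧ _ by omega⟩,
          ⟨.mu (2 * o + 1), show _ < _ by omega⟩, by simp, by simp, by simp,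
          by simp [gr, gadj, ged], by simp [gr, gadj, ged], by simp [gr, gadj, ged]⟩
      interval_cases κ
      · exact key _ d1 (by simp [gr, gadj, ged])
      · exact key _ d2 (by simp [gr, gadj, ged])
      · exact key _ d1 (by simp [gr, gadj, ged])
      · exact key _ d2 (by simp [gr, gadj, ged])
    | ck c y₁ y₂ =>
      have hv' : c < N := hv
      exfalso
      refine h2 ⟨⟨.pr 0 (3 * c) y₁, show _ ∧ _ by omega⟩,
        ⟨.pr 0 (3 * c + 1) y₂, show _ ∧ _ by omega⟩, by simp, ?_, ?_⟩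
      all_goals simp [gr, gadj, ged, ckBit]
      omega

theorem grIdent_qs (j : ℕ) (β : ℕ → ZMod 2) (v : GV N L) :
    v.1 = .q (j + 1) ↔ (∃ u : GV N L, u.1 = .q j ∧ gr N L ov β v u = true) ∧
      (¬ ∃ i, i < j ∧ v.1 = .q i) ∧ ¬ ((∃ τ, j = L + 2 + 2 * τ) ∧ grIdentD3 ov β v) := by
  obtain ⟨v, hv⟩ := v
  constructor
  · rintro rfl
    have hv' : j + 1 < L + 2 + 12 * N := hv
    refine ⟨⟨⟨.q j, show _ < _ by omega⟩, rfl, by simp [gr, gadj, ged]⟩, ?_, ?_⟩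
    · rintro ⟨i, hi, e⟩
      simp only [Vx.q.injEq] at e
      omega
    · rintro ⟨⟨τ, e⟩, h⟩
      exact grIdent_not_d3_q hv (by omega) h
  · rintro ⟨⟨⟨u, hu⟩, rfl, a⟩, h1, h2⟩
    have a' : gadj L ov β (.q j) v = true := by rw [gadj_comm]; exact a
    rcases grIdent_adj_q a' with e | ⟨i, f, e⟩ | ⟨τ, f, e⟩
    · exact e
    · exact absurd ⟨i, by omega, e⟩ h1
    · subst e
      exact absurd ⟨⟨τ, f⟩, grIdent_d3_mu hv⟩ h2

theorem grIdent_mu (τ : ℕ) (β : ℕ → ZMod 2) (v : GV N L) :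
    v.1 = .mu τ ↔ (∃ u : GV N L, u.1 = .q (L + 2 + 2 * τ) ∧ gr N L ov β v u = true) ∧
      ¬ ∃ i, v.1 = .q i := by
  obtain ⟨v, hv⟩ := v
  constructor
  · rintro rfl
    have hv' : τ < 6 * N := hv
    exact ⟨⟨⟨_, show (Vx.q (L + 2 + 2 * τ)).ok N L from show _ < _ by omega⟩, rfl,
      by simp [gr, gadj, ged]⟩, by simp⟩
  · rintro ⟨⟨⟨u, hu⟩, rfl, a⟩, h1⟩
    have a' : gadj L ov β (.q (L + 2 + 2 * τ)) v = true := by rw [gadj_comm]; exact a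
    rcases grIdent_adj_q a' with e | ⟨i, f, e⟩ | ⟨τ', f, e⟩
    · exact absurd ⟨_, e⟩ h1
    · exact absurd ⟨_, e⟩ h1
    · rw [show τ = τ' by omega]; exact e

theorem grIdent_pr12 (κ o : ℕ) (hκ : κ < 2) (β : ℕ → ZMod 2) (v : GV N L) :
    (∃ x, v.1 = .pr (κ + 1) o x) ↔
      (∃ u : GV N L, u.1 = .mu (2 * o + κ) ∧ gr N L ov β v u = true) ∧ ¬ ∃ i, v.1 = .q i := by
  obtain ⟨v, hv⟩ := v
  constructor
  · rintro ⟨x, rfl⟩
    have hv' : κ + 1 < 4 ∧ o < 3 * N := hv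
    refine ⟨⟨⟨_, show (Vx.mu (2 * o + κ)).ok N L from show _ < _ by omega⟩, rfl, ?_⟩, by simp⟩
    simp [gr, gadj, ged]
    omega
  · rintro ⟨⟨⟨u, hu⟩, rfl, a⟩, h1⟩
    have a' : gadj L ov β (.mu (2 * o + κ)) v = true := by rw [gadj_comm]; exact a
    rcases grIdent_adj_mu a' with e | ⟨o', x, f, e⟩ | ⟨o', x, f, e⟩
    · exact absurd ⟨_, e⟩ h1
    · exact ⟨x, by rw [show κ = 0 by omega, show o = o' by omega]; exact e⟩
    · exact ⟨x, by rw [show κ = 1 by omega, show o = o' by omega]; exact e⟩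

theorem grIdent_pr0 (o : ℕ) (β : ℕ → ZMod 2) (v : GV N L) :
    (∃ x, v.1 = .pr 0 o x) ↔
      (∃ u : GV N L, (∃ x, u.1 = .pr 1 o x) ∧ gr N L ov β v u = true) ∧
        (¬ ∃ x, v.1 = .pr 2 o x) ∧ ¬ ∃ τ, v.1 = .mu τ := by
  obtain ⟨v, hv⟩ := v
  constructor
  · rintro ⟨x, rfl⟩
    have hv' : 0 < 4 ∧ o < 3 * N := hv
    exact ⟨⟨⟨.pr 1 o x, show _ ∧ _ by omega⟩, ⟨x, rfl⟩, by simp [gr, gadj, ged]⟩, by simp, by simp⟩
  · rintro ⟨⟨⟨u, hu⟩, ⟨x, rfl⟩, a⟩, h1, h2⟩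
    have a' : gadj L ov β (.pr 1 o x) v = true := by rw [gadj_comm]; exact a
    rcases grIdent_adj_pr (by norm_num) a' with e | ⟨i, f, e⟩ | ⟨-, e⟩ | ⟨f, -⟩
    · exact absurd ⟨_, e⟩ h1
    · exact ⟨x, by rw [show 0 = i by omega]; exact e⟩
    · exact absurd e h2
    · omega

theorem grIdent_pr3 (o : ℕ) (β : ℕ → ZMod 2) (v : GV N L) :
    (∃ x, v.1 = .pr 3 o x) ↔
      (∃ u : GV N L, (∃ x, u.1 = .pr 2 o x) ∧ gr N L ov β v u = true) ∧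
        (¬ ∃ x, v.1 = .pr 1 o x) ∧ ¬ ∃ τ, v.1 = .mu τ := by
  obtain ⟨v, hv⟩ := v
  constructor
  · rintro ⟨x, rfl⟩
    have hv' : 3 < 4 ∧ o < 3 * N := hv
    exact ⟨⟨⟨.pr 2 o x, show _ ∧ _ by omega⟩, ⟨x, rfl⟩, by simp [gr, gadj, ged]⟩, by simp, by simp⟩
  · rintro ⟨⟨⟨u, hu⟩, ⟨x, rfl⟩, a⟩, h1, h2⟩
    have a' : gadj L ov β (.pr 2 o x) v = true := by rw [gadj_comm]; exact a
    rcases grIdent_adj_pr (by norm_num) a' with e | ⟨i, f, e⟩ | ⟨-, e⟩ | ⟨f, -⟩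
    · exact ⟨_, e⟩
    · exact absurd ⟨x, by rw [show 1 = i by omega]; exact e⟩ h1
    · exact absurd e h2
    · omega

theorem grIdent_ck (c : ℕ) (β : ℕ → ZMod 2) (v : GV N L) :
    (∃ y₁ y₂, v.1 = .ck c y₁ y₂) ↔
      (∃ u : GV N L, (∃ x, u.1 = .pr 0 (3 * c) x) ∧ gr N L ov β v u = true) ∧
        ¬ ∃ x, v.1 = .pr 1 (3 * c) x := by
  obtain ⟨v, hv⟩ := v
  constructor
  · rintro ⟨y₁, y₂, rfl⟩
    have hv' : c < N := hv
    exact ⟨⟨⟨.pr 0 (3 * c) y₁, show _ ∧ _ by omega⟩, ⟨y₁, rfl⟩, by simp [gr, gadj, ged, ckBit]⟩,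
      by simp⟩
  · rintro ⟨⟨⟨u, hu⟩, ⟨x, rfl⟩, a⟩, h1⟩
    have a' : gadj L ov β (.pr 0 (3 * c) x) v = true := by rw [gadj_comm]; exact a
    rcases grIdent_adj_pr (by norm_num) a' with e | ⟨i, f, e⟩ | ⟨f, -⟩ | ⟨-, e⟩
    · exact absurd ⟨_, e⟩ h1
    · omega
    · omega
    · rwa [show 3 * c / 3 = c by omega] at e

theorem grIdent_main {R : GV N L → GV N L → Prop} (hR : GrIdentBis N L ov b b' R) (hN : 1 ≤ N)
    {v w : GV N L} (hvw : R v w) : v.1.base = w.1.base := by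
  have hq : ∀ j, GrIdentInv b b' R (fun _ v => v.1 = .q j) := by
    intro j
    induction j using Nat.strong_induction_on with
    | _ j ih =>
      rcases j with _ | j
      · exact ((grIdent_inv_d2 hR).not.and ((grIdent_inv_d3 hR).not.nb hR)).congr
          (grIdent_q0 hN)
      · exact (((ih j (by omega)).nb hR).and ((GrIdentInv.ex fun i => GrIdentInv.cond (i < j)
          fun hi => ih i (by omega)).not.and
          (GrIdentInv.cond _ fun _ => grIdent_inv_d3 hR).not)).congr (grIdent_qs j)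
  have hmu : ∀ τ, GrIdentInv b b' R (fun _ v => v.1 = .mu τ) := fun τ =>
    (((hq _).nb hR).and (GrIdentInv.ex hq).not).congr (grIdent_mu τ)
  have h12 : ∀ κ o, κ < 2 → GrIdentInv b b' R (fun _ v => ∃ x, v.1 = .pr (κ + 1) o x) :=
    fun κ o hκ => (((hmu _).nb hR).and (GrIdentInv.ex hq).not).congr (grIdent_pr12 κ o hκ)
  have h0 : ∀ o, GrIdentInv b b' R (fun _ v => ∃ x, v.1 = .pr 0 o x) := fun o =>
    (((h12 0 o (by omega)).nb hR).and ((h12 1 o (by omega)).not.and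
      (GrIdentInv.ex hmu).not)).congr (grIdent_pr0 o)
  have h3 : ∀ o, GrIdentInv b b' R (fun _ v => ∃ x, v.1 = .pr 3 o x) := fun o =>
    (((h12 1 o (by omega)).nb hR).and ((h12 0 o (by omega)).not.and
      (GrIdentInv.ex hmu).not)).congr (grIdent_pr3 o)
  have hck : ∀ c, GrIdentInv b b' R (fun _ v => ∃ y₁ y₂, v.1 = .ck c y₁ y₂) := fun c =>
    (((h0 _).nb hR).and (h12 0 _ (by omega)).not).congr (grIdent_ck c)
  obtain ⟨v, hv⟩ := v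
  cases v with
  | q j => rw [(hq j _ _ hvw).1 rfl]
  | mu τ => rw [(hmu τ _ _ hvw).1 rfl]
  | pr κ o x =>
    have hκ : κ < 4 := hv.1
    have : ∃ x, w.1 = .pr κ o x := by
      interval_cases κ
      · exact (h0 o _ _ hvw).1 ⟨x, rfl⟩
      · exact (h12 0 o (by omega) _ _ hvw).1 ⟨x, rfl⟩
      · exact (h12 1 o (by omega) _ _ hvw).1 ⟨x, rfl⟩
      · exact (h3 o _ _ hvw).1 ⟨x, rfl⟩
    obtain ⟨x', e⟩ := this
    rw [e]
    rfl
  | ck c y₁ y₂ =>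
    obtain ⟨z₁, z₂, e⟩ := (hck c _ _ hvw).1 ⟨y₁, y₂, rfl⟩
    rw [e]
    rfl

theorem IsPeb.base_eq {F : Set (Finset (GV N L × GV N L))}
    (h : IsPeb K (gr N L ov b) (gr N L ov b') F) (hK : 2 ≤ K) (hN : 1 ≤ N) {v w : GV N L}
    (hvw : ({(v, w)} : Finset (GV N L × GV N L)) ∈ F) : v.1.base = w.1.base := by
  refine grIdent_main (ov := ov) (b := b) (b' := b')
    (R := fun v w => ({(v, w)} : Finset (GV N L × GV N L)) ∈ F) (fun v w hr => ?_) hN hvw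
  obtain ⟨π, -, h1, -, h2, -⟩ := h.ext' hr (by rw [card_singleton]; omega)
  exact ⟨π, h1, h2 (v, w) (mem_singleton_self _)⟩

end Crest.Agent.R290
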