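import Crest.Agent.R290.GrDup
import Crest.Agent.R290.GrIdent
import Crest.Agent.R290.Cons

/-!
Row 290.  Duplicator's strategy on the graphs gives local consistency.
-/

set_option autoImplicit false

namespace Crest.Agent.R290

open Finset

variable {X : Type} [DecidableEq X] {K N L : ℕ} {ov : ℕ → X} {b : ℕ → ZMod 2}

/-- Keep the pebble `a`, move the other one along an edge. -/
theorem GrSpoil_move {F : Set (Finset (GV N L × GV N L))}
    (h : IsPeb K (gr N L ov fun _ => 0) (gr N L ov b) F) (hK : 3 ≤ K) (hN : 1 ≤ N)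
    {a : GV N L × GV N L} {u w : GV N L} (hP : ({a, (u, w)} : Finset (GV N L × GV N L)) ∈ F)
    (u' : GV N L) (hu : gadj L ov (fun _ => 0) u.1 u'.1 = true) :
    ∃ w' : GV N L, ({a, (u', w')} : Finset (GV N L × GV N L)) ∈ F ∧ u'.1.base = w'.1.base ∧
      gadj L ov b w.1 w'.1 = true := by
  obtain ⟨π, h1, h2, -, h3, -⟩ := h.ext' hP (card_le_two.trans_lt (by omega))
  refine ⟨π u', h.down _ (h1 u') _ ?_, h.base_eq (by omega) hN (h2 u'), ?_⟩
  · intro x hx
    simp only [mem_insert, mem_singleton] at hx ⊢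
    tauto
  · have := h3 (u, w) (by simp) u'
    exact this.symm.trans hu

/-- The pebble `a` together with a pebble on node `pr κ o` showing the bit `β`. -/
def GrSpoil_Q (F : Set (Finset (GV N L × GV N L))) (a : GV N L × GV N L) (κ o : ℕ)
    (β : ZMod 2) : Prop :=
  ∃ u w : GV N L, u.1 = Vx.pr κ o 0 ∧ w.1 = Vx.pr κ o β ∧
    ({a, (u, w)} : Finset (GV N L × GV N L)) ∈ F

theorem GrSpoil_base_pr {v : Vx} {κ o : ℕ} (h : (Vx.pr κ o 0).base = v.base) :
    ∃ x, v = Vx.pr κ o x := by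
  cases v <;> simp [Vx.base] at h
  obtain ⟨rfl, rfl⟩ := h
  exact ⟨_, rfl⟩

theorem GrSpoil_base_ck {v : Vx} {c : ℕ} (h : (Vx.ck c 0 0).base = v.base) :
    ∃ y₁ y₂, v = Vx.ck c y₁ y₂ := by
  cases v <;> simp [Vx.base] at h
  subst h
  exact ⟨_, _, rfl⟩

theorem GrSpoil_step {F : Set (Finset (GV N L × GV N L))}
    (h : IsPeb K (gr N L ov fun _ => 0) (gr N L ov b) F) (hK : 3 ≤ K) (hN : 1 ≤ N)
    {a : GV N L × GV N L} {κ o κ' o' : ℕ} {β : ZMod 2} (hQ : GrSpoil_Q F a κ o β) (hκ : κ' < 4)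
    (ho : o' < 3 * N) (hadj : gadj L ov (fun _ => 0) (Vx.pr κ o 0) (Vx.pr κ' o' 0) = true) :
    GrSpoil_Q F a κ' o' β := by
  obtain ⟨u, w, hu, hw, hP⟩ := hQ
  obtain ⟨w', h1, h2, h3⟩ := GrSpoil_move h hK hN hP ⟨Vx.pr κ' o' 0, hκ, ho⟩ (by rw [hu]; exact hadj)
  obtain ⟨x, hx⟩ := GrSpoil_base_pr h2
  rw [hw, hx] at h3
  have hβ : β = x := by
    simp only [gadj, ged, Bool.or_eq_true, Bool.and_eq_true, decide_eq_true_eq] at h3
    rcases h3 with h3 | h3
    · exact h3.1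
    · exact h3.1.symm
  exact ⟨_, w', rfl, by rw [hx, hβ], h1⟩

theorem GrSpoil_spine {F : Set (Finset (GV N L × GV N L))}
    (h : IsPeb K (gr N L ov fun _ => 0) (gr N L ov b) F) (hK : 3 ≤ K) (hN : 1 ≤ N)
    {a : GV N L × GV N L} {o o' : ℕ} {β : ZMod 2} (ho : o < 3 * N) (ho' : o' < 3 * N)
    (he : ov o = ov o') (hQ : GrSpoil_Q F a 3 o β) : GrSpoil_Q F a 3 o' β := by
  have key : ∀ {o o' : ℕ}, o ≤ o' → o' < 3 * N → ov o = ov o' →
      (GrSpoil_Q F a 3 o β ↔ GrSpoil_Q F a 3 o' β) := by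
    intro o o' hle ho' he
    refine nxt_induction (P := fun t => GrSpoil_Q F a 3 o β ↔ GrSpoil_Q F a 3 t β) hle he Iff.rfl
      fun t t' _ h2 h3 h4 => h4.trans ⟨fun h5 => ?_, fun h5 => ?_⟩
    · exact GrSpoil_step h hK hN h5 (by omega) (by omega) (by simp [gadj, ged, h3])
    · have h6 : t < t' := by
        simp only [nxt, decide_eq_true_eq] at h3
        exact h3.1
      exact GrSpoil_step h hK hN h5 (by omega) (by omega) (by simp [gadj, ged, h3])
  rcases le_total o o' with hle | hle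
  · exact (key hle ho' he).1 hQ
  · exact (key hle ho he.symm).2 hQ

/-- Two pebbled check vertices give the same bit to a common variable. -/
theorem GrSpoil_consistent {F : Set (Finset (GV N L × GV N L))}
    (h : IsPeb K (gr N L ov fun _ => 0) (gr N L ov b) F) (hK : 3 ≤ K) (hN : 1 ≤ N)
    {a a' : GV N L × GV N L} (hP : ({a', a} : Finset (GV N L × GV N L)) ∈ F)
    {c c' j j' : ℕ} {y₁ y₂ y₁' y₂' : ZMod 2} (h1 : a.1.1 = Vx.ck c 0 0) (h2 : a.2.1 = Vx.ck c y₁ y₂)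
    (h1' : a'.1.1 = Vx.ck c' 0 0) (h2' : a'.2.1 = Vx.ck c' y₁' y₂') (hj : j < 3) (hj' : j' < 3)
    (he : ov (3 * c + j) = ov (3 * c' + j')) :
    ckBit (b c) y₁ y₂ j = ckBit (b c') y₁' y₂' j' := by
  have hc : c < N := by have := a.1.2; rw [h1] at this; exact this
  have hc' : c' < N := by have := a'.1.2; rw [h1'] at this; exact this
  have ho : 3 * c + j < 3 * N := by omega
  have ho' : 3 * c' + j' < 3 * N := by omega
  have e1 : (3 * c + j) / 3 = c := by omega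
  have e2 : (3 * c + j) % 3 = j := by omega
  have e1' : (3 * c' + j') / 3 = c' := by omega
  have e2' : (3 * c' + j') % 3 = j' := by omega
  have hz : ∀ j, ckBit 0 0 0 j = 0 := fun j => by simp [ckBit]
  have q0 : GrSpoil_Q F a' 0 (3 * c + j) (ckBit (b c) y₁ y₂ j) := by
    obtain ⟨w', h3, h4, h5⟩ := GrSpoil_move h hK hN (u := a.1) (w := a.2) hP
      ⟨Vx.pr 0 (3 * c + j) 0, by omega, ho⟩ (by rw [h1]; simp [gadj, ged, e1, hz])
    obtain ⟨x, hx⟩ := GrSpoil_base_pr h4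
    rw [h2, hx] at h5
    have hβ : x = ckBit (b c) y₁ y₂ j := by simpa [gadj, ged, e1, e2] using h5
    exact ⟨_, w', rfl, by rw [hx, hβ], h3⟩
  have q1 := GrSpoil_step h hK hN q0 (κ' := 1) (by omega) ho (by simp [gadj, ged])
  have q2 := GrSpoil_step h hK hN q1 (κ' := 2) (by omega) ho (by simp [gadj, ged])
  have q3 := GrSpoil_step h hK hN q2 (κ' := 3) (by omega) ho (by simp [gadj, ged])
  have r3 := GrSpoil_spine h hK hN ho ho' he q3
  have r2 := GrSpoil_step h hK hN r3 (κ' := 2) (by omega) ho' (by simp [gadj, ged])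
  have r1 := GrSpoil_step h hK hN r2 (κ' := 1) (by omega) ho' (by simp [gadj, ged])
  have r0 := GrSpoil_step h hK hN r1 (κ' := 0) (by omega) ho' (by simp [gadj, ged])
  obtain ⟨u, w, hu, hw, hR⟩ := r0
  have h6 := h.adj _ hR a' (by simp) (u, w) (by simp)
  simp only [gr, h1', h2', hu, hw] at h6
  simpa [gadj, ged, e1', e2', hz] using h6

/-- The check vertex, as a total function. -/
def GrSpoil_vtx (L : ℕ) (hN : 1 ≤ N) (c : ℕ) (y₁ y₂ : ZMod 2) : GV N L :=
  if h : c < N then ⟨Vx.ck c y₁ y₂, h⟩ else ⟨Vx.ck 0 0 0, hN⟩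

theorem GrSpoil_vtx_val (hN : 1 ≤ N) {c : ℕ} (hc : c < N) (y₁ y₂ : ZMod 2) :
    (GrSpoil_vtx L hN c y₁ y₂).1 = Vx.ck c y₁ y₂ := by
  simp [GrSpoil_vtx, hc]

omit [DecidableEq X] in
theorem GrSpoil_lhs_iff (σ : X → ZMod 2) (c : ℕ) (β : ZMod 2) :
    lhs σ (geqn ov c) = β ↔ σ (ov (3 * c + 2)) = σ (ov (3 * c)) + σ (ov (3 * c + 1)) + β := by
  simp only [lhs, geqn, List.map_cons, List.map_nil, List.sum_cons, List.sum_nil, add_zero]
  generalize σ (ov (3 * c)) = x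
  generalize σ (ov (3 * c + 1)) = y
  generalize σ (ov (3 * c + 2)) = z
  revert x y z β
  decide

theorem cons_of_peb_gr (hK : 3 ≤ K) (hN : 1 ≤ N)
    (h : Peb K (gr N L ov fun _ => 0) (gr N L ov b)) : Cons K (fun c => c < N) (geqn ov) b := by
  classical
  obtain ⟨F, h⟩ := h
  refine ⟨{q | (∀ c ∈ q.1, c < N) ∧ (∀ c ∈ q.1, lhs q.2 (geqn ov c) = b c) ∧
      q.1.image (fun c => (GrSpoil_vtx L hN c 0 0,
        GrSpoil_vtx L hN c (q.2 (ov (3 * c))) (q.2 (ov (3 * c + 1))))) ∈ F},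
    ⟨(∅, fun _ => 0), by simp, by simp, by simpa using h.empty⟩, fun p σ hp => hp.1,
    fun p σ hp => hp.2.1, fun p σ hp q hq => ⟨fun c hc => hp.1 c (hq hc),
      fun c hc => hp.2.1 c (hq hc), h.down _ hp.2.2 _ (image_subset_image hq)⟩, ?_⟩
  rintro p σ ⟨hp1, hp2, hp3⟩ hcard c hc
  simp only at hp1 hp2 hp3
  obtain ⟨π, h1, h2, -⟩ := h.ext' hp3 (card_image_le.trans_lt hcard)
  have hb := h.base_eq (by omega) hN (h2 (GrSpoil_vtx L hN c 0 0))
  rw [GrSpoil_vtx_val hN hc] at hb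
  obtain ⟨y₁, y₂, hy⟩ := GrSpoil_base_ck hb
  set σ' : X → ZMod 2 := fun x =>
    if hx : ∃ j, j < 3 ∧ ov (3 * c + j) = x then ckBit (b c) y₁ y₂ hx.choose else σ x with hσ'
  have hA : ∀ j < 3, σ' (ov (3 * c + j)) = ckBit (b c) y₁ y₂ j := by
    intro j hj
    have hx : ∃ j', j' < 3 ∧ ov (3 * c + j') = ov (3 * c + j) := ⟨j, hj, rfl⟩
    simp only [hσ', dif_pos hx]
    exact GrSpoil_consistent h hK hN (a := (GrSpoil_vtx L hN c 0 0, π (GrSpoil_vtx L hN c 0 0)))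
      (a' := (GrSpoil_vtx L hN c 0 0, π (GrSpoil_vtx L hN c 0 0))) (by simpa using h2 _)
      (GrSpoil_vtx_val hN hc 0 0) hy (GrSpoil_vtx_val hN hc 0 0) hy hx.choose_spec.1 hj
      hx.choose_spec.2
  have hB : ∀ c' ∈ p, ∀ j < 3, σ' (ov (3 * c' + j)) = σ (ov (3 * c' + j)) := by
    intro c' hc' j hj
    by_cases hx : ∃ j', j' < 3 ∧ ov (3 * c + j') = ov (3 * c' + j)
    · simp only [hσ', dif_pos hx]
      have h3 := GrSpoil_consistent h hK hN
        (a := (GrSpoil_vtx L hN c 0 0, π (GrSpoil_vtx L hN c 0 0)))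
        (a' := (GrSpoil_vtx L hN c' 0 0,
          GrSpoil_vtx L hN c' (σ (ov (3 * c'))) (σ (ov (3 * c' + 1)))))
        (h.down _ (h1 (GrSpoil_vtx L hN c 0 0)) _ (by
          intro x hx
          rcases mem_insert.1 hx with rfl | hx
          · exact mem_insert_of_mem (mem_image_of_mem _ hc')
          · rw [mem_singleton.1 hx]
            exact mem_insert_self _ _))
        (GrSpoil_vtx_val hN hc 0 0) hy (GrSpoil_vtx_val hN (hp1 c' hc') 0 0)
        (GrSpoil_vtx_val hN (hp1 c' hc') _ _) hx.choose_spec.1 hj hx.choose_spec.2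
      rw [h3]
      have h4 := (GrSpoil_lhs_iff σ c' _).1 (hp2 c' hc')
      interval_cases j <;> simp [ckBit, h4]
    · simp only [hσ', dif_neg hx]
  have hA0 : σ' (ov (3 * c)) = y₁ := by simpa [ckBit] using hA 0 (by omega)
  have hA1 : σ' (ov (3 * c + 1)) = y₂ := by simpa [ckBit] using hA 1 (by omega)
  have hA2 : σ' (ov (3 * c + 2)) = y₁ + y₂ + b c := by simpa [ckBit] using hA 2 (by omega)
  have hB0 : ∀ c' ∈ p, σ' (ov (3 * c')) = σ (ov (3 * c')) := fun c' hc' => hB c' hc' 0 (by omega)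
  refine ⟨σ', ⟨fun c' hc' => ?_, fun c' hc' => ?_, ?_⟩, ?_⟩
  · rcases mem_insert.1 hc' with rfl | hc'
    · exact hc
    · exact hp1 c' hc'
  · rw [GrSpoil_lhs_iff]
    rcases mem_insert.1 hc' with rfl | hc'
    · simp only [hA0, hA1, hA2]
    · simp only [hB0 c' hc', hB c' hc' 1 (by omega), hB c' hc' 2 (by omega)]
      exact (GrSpoil_lhs_iff σ c' _).1 (hp2 c' hc')
  · have e1 : GrSpoil_vtx L hN c y₁ y₂ = π (GrSpoil_vtx L hN c 0 0) :=
      Subtype.ext (by rw [GrSpoil_vtx_val hN hc, hy])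
    have e2 : p.image (fun c => (GrSpoil_vtx L hN c 0 0,
        GrSpoil_vtx L hN c (σ' (ov (3 * c))) (σ' (ov (3 * c + 1))))) =
        p.image (fun c => (GrSpoil_vtx L hN c 0 0,
          GrSpoil_vtx L hN c (σ (ov (3 * c))) (σ (ov (3 * c + 1))))) :=
      image_congr fun c' hc' => by simp only [hB0 c' hc', hB c' hc' 1 (by omega)]
    simp only [image_insert, hA0, hA1, e1, e2]
    exact h1 _
  · rintro x ⟨c', hc', hx⟩
    simp only [geqn, List.mem_cons, List.not_mem_nil, or_false] at hx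
    rcases hx with rfl | rfl | rfl
    · exact hB0 c' hc'
    · exact hB c' hc' 1 (by omega)
    · exact hB c' hc' 2 (by omega)

theorem sat_of_iso_gr (hN : 1 ≤ N) (h : Iso (gr N L ov fun _ => 0) (gr N L ov b)) :
    Sat (fun c => c < N) (geqn ov) b := by
  exact (cons_of_peb_gr (K := N + 3) (by omega) hN (h.peb _)).sat (range N)
    (fun c hc => mem_range.2 hc) (by simp)

end Crest.Agent.R290
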