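import Crest.Agent.R290.GrSpoil
import Crest.Agent.R290.GrIdent

/-!
Row 290.  Every graph equivalent to the homogeneous graph is the graph of some right-hand side.
-/

set_option autoImplicit false

namespace Crest.Agent.R290

open Finset

variable {X : Type} [DecidableEq X] {K N L : ℕ} {ov : ℕ → X}

theorem gs_base_q {z : Vx} {j : ℕ} (h : z.base = (Vx.q j).base) : z = Vx.q j := by
  cases z <;> simp_all [Vx.base]

theorem gs_base_mu {z : Vx} {j : ℕ} (h : z.base = (Vx.mu j).base) : z = Vx.mu j := by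
  cases z <;> simp_all [Vx.base]

theorem gs_base_pr {z : Vx} {κ o : ℕ} {x : ZMod 2} (h : z.base = (Vx.pr κ o x).base) :
    ∃ x', z = Vx.pr κ o x' := by
  cases z <;> simp_all [Vx.base]

theorem gs_base_ck {z : Vx} {c : ℕ} {y₁ y₂ : ZMod 2} (h : z.base = (Vx.ck c y₁ y₂).base) :
    ∃ y₁' y₂', z = Vx.ck c y₁' y₂' := by
  cases z <;> simp_all [Vx.base]

theorem gs_ok_of_base {z w : Vx} (h : z.base = w.base) (hw : w.ok N L) : z.ok N L := by
  cases w with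
  | q j => rw [gs_base_q h]; exact hw
  | mu j => rw [gs_base_mu h]; exact hw
  | pr κ o x => obtain ⟨x', rfl⟩ := gs_base_pr h; exact hw
  | ck c y₁ y₂ => obtain ⟨a, b, rfl⟩ := gs_base_ck h; exact hw

/-- a node preserving injection acts on a two-vertex node by a shift -/
theorem gs_shift {σ : Vx → Vx} (h1 : ∀ z, z.ok N L → (σ z).base = z.base)
    (h2 : ∀ z z', z.ok N L → z'.ok N L → σ z = σ z' → z = z') {κ o : ℕ} (hκ : κ < 4)
    (ho : o < 3 * N) : ∃ s : ZMod 2, ∀ x, σ (Vx.pr κ o x) = Vx.pr κ o (x + s) := by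
  have hok : ∀ x, (Vx.pr κ o x).ok N L := fun _ => ⟨hκ, ho⟩
  obtain ⟨a, ha⟩ := gs_base_pr (h1 _ (hok 0))
  obtain ⟨b, hb⟩ := gs_base_pr (h1 _ (hok 1))
  have hab : a ≠ b := by
    intro h
    have := h2 _ _ (hok 0) (hok 1) (by rw [ha, hb, h])
    simp at this
  have key : ∀ a b : ZMod 2, a ≠ b → b = 1 + a := by decide
  have hx : ∀ x : ZMod 2, x = 0 ∨ x = 1 := by decide
  refine ⟨a, fun x => ?_⟩
  rcases hx x with rfl | rfl
  · rw [ha, zero_add]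
  · rw [hb, key a b hab]

/-- directed edges between two-vertex nodes -/
def gsEd (ov : ℕ → X) (κ o κ' o' : ℕ) : Bool :=
  decide (o = o' ∧ κ' = κ + 1) || (decide (κ = 3 ∧ κ' = 3) && nxt ov o o')

theorem gs_gadj_pr (b : ℕ → ZMod 2) (κ o κ' o' : ℕ) (x x' : ZMod 2) :
    gadj L ov b (Vx.pr κ o x) (Vx.pr κ' o' x') =
      (decide (x = x') && (gsEd ov κ o κ' o' || gsEd ov κ' o' κ o)) := by
  by_cases h : x = x'
  · subst h
    simp [gadj, ged, gsEd]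
  · have h' : ¬ x' = x := fun e => h e.symm
    simp [gadj, ged, h, h']

theorem gs_gadj_ck (b : ℕ → ZMod 2) (c κ o : ℕ) (y₁ y₂ x : ZMod 2) :
    gadj L ov b (Vx.ck c y₁ y₂) (Vx.pr κ o x) =
      decide (κ = 0 ∧ o / 3 = c ∧ x = ckBit (b c) y₁ y₂ (o % 3)) := by
  simp [gadj, ged]

theorem gs_exists_t3 (w : ℕ → ℕ → ZMod 2) (n : ℕ) :
    ∃ t : ℕ → ZMod 2, ∀ o o', o' < n → nxt ov o o' = true → t o' = t o + w o o' := by
  classical
  have hlt : ∀ o o', nxt ov o o' = true → o < o' := by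
    intro o o' h
    unfold nxt at h
    exact (of_decide_eq_true h).1
  induction n with
  | zero => exact ⟨fun _ => 0, fun o o' h => absurd h (Nat.not_lt_zero _)⟩
  | succ n ih =>
    obtain ⟨t, ht⟩ := ih
    by_cases hex : ∃ o, nxt ov o n = true
    · obtain ⟨o₀, ho₀⟩ := hex
      refine ⟨Function.update t n (t o₀ + w o₀ n), fun o o' h1 h2 => ?_⟩
      have h3 := hlt _ _ h2
      rw [Function.update_of_ne (show o ≠ n by omega)]
      by_cases h4 : o' = n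
      · subst h4
        rw [Function.update_self, nxt_unique_left h2 ho₀]
      · rw [Function.update_of_ne h4]
        exact ht o o' (by omega) h2
    · refine ⟨t, fun o o' h1 h2 => ht o o' ?_ h2⟩
      have : o' ≠ n := fun h => hex ⟨o, h ▸ h2⟩
      omega

/-- The local structure of an adjacency `A` on vertex names that is equivalent to the homogeneous
graph. -/
def GsLoc (N L : ℕ) (ov : ℕ → X) (A : Vx → Vx → Bool) : Prop :=
  ∀ v v' : Vx, v.ok N L → v'.ok N L → ∃ v₂ : Vx, v₂.base = v'.base ∧ (v₂ = v ↔ v' = v) ∧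
    A v v' = gadj L ov (fun _ => 0) v v₂ ∧ A v' v = gadj L ov (fun _ => 0) v₂ v ∧
    ∃ σ : Vx → Vx, (∀ z, z.ok N L → (σ z).base = z.base) ∧
      (∀ z z', z.ok N L → z'.ok N L → σ z = σ z' → z = z') ∧
      ∀ z, z.ok N L → gadj L ov (fun _ => 0) v z = A v (σ z) ∧
        gadj L ov (fun _ => 0) v₂ z = A v' (σ z)

variable {A : Vx → Vx → Bool}

theorem GsLoc.symm (h : GsLoc N L ov A) {v v' : Vx} (hv : v.ok N L) (hv' : v'.ok N L) :
    A v v' = A v' v := by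
  obtain ⟨v₂, -, -, h1, h2, -⟩ := h v v' hv hv'
  rw [h1, h2, gadj_comm]

theorem GsLoc.q (h : GsLoc N L ov A) {v : Vx} {j : ℕ} (hv : v.ok N L) (hj : (Vx.q j).ok N L) :
    A v (Vx.q j) = gadj L ov (fun _ => 0) v (Vx.q j) := by
  obtain ⟨v₂, h0, -, h1, -⟩ := h v _ hv hj
  rw [h1, gs_base_q h0]

theorem GsLoc.mu (h : GsLoc N L ov A) {v : Vx} {j : ℕ} (hv : v.ok N L) (hj : (Vx.mu j).ok N L) :
    A v (Vx.mu j) = gadj L ov (fun _ => 0) v (Vx.mu j) := by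
  obtain ⟨v₂, h0, -, h1, -⟩ := h v _ hv hj
  rw [h1, gs_base_mu h0]

theorem GsLoc.ckck (h : GsLoc N L ov A) {c c' : ℕ} (hc : c < N) (hc' : c' < N)
    (y₁ y₂ y₁' y₂' : ZMod 2) : A (Vx.ck c y₁ y₂) (Vx.ck c' y₁' y₂') = false := by
  obtain ⟨v₂, h0, -, h1, -⟩ := h (Vx.ck c y₁ y₂) (Vx.ck c' y₁' y₂') hc hc'
  obtain ⟨a, b, rfl⟩ := gs_base_ck h0
  rw [h1]
  simp [gadj, ged]

theorem GsLoc.shift (h : GsLoc N L ov A) {v : Vx} (hv : v.ok N L) {κ o : ℕ} (hκ : κ < 4)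
    (ho : o < 3 * N) :
    ∃ s : ZMod 2, ∀ x, A v (Vx.pr κ o x) = gadj L ov (fun _ => 0) v (Vx.pr κ o (x + s)) := by
  obtain ⟨v₂, -, -, -, -, σ, h1, h2, h3⟩ := h v v hv hv
  obtain ⟨s, hs⟩ := gs_shift h1 h2 hκ ho
  refine ⟨s, fun x => ?_⟩
  rw [(h3 (Vx.pr κ o (x + s)) ⟨hκ, ho⟩).1, hs, add_assoc, CharTwo.add_self_eq_zero, add_zero]

theorem GsLoc.tw (h : GsLoc N L ov A) (κ o κ' o' : ℕ) : ∃ w : ZMod 2,
    κ < 4 → o < 3 * N → κ' < 4 → o' < 3 * N → ∀ x z, A (Vx.pr κ o x) (Vx.pr κ' o' z) =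
      (decide (x = z + w) && (gsEd ov κ o κ' o' || gsEd ov κ' o' κ o)) := by
  by_cases hh : κ < 4 ∧ o < 3 * N ∧ κ' < 4 ∧ o' < 3 * N
  swap
  · exact ⟨0, fun a b c d => absurd ⟨a, b, c, d⟩ hh⟩
  obtain ⟨hκ, ho, hκ', ho'⟩ := hh
  have h1 : ∀ x : ZMod 2, ∃ s : ZMod 2, ∀ z, A (Vx.pr κ o x) (Vx.pr κ' o' z) =
      (decide (x = z + s) && (gsEd ov κ o κ' o' || gsEd ov κ' o' κ o)) := by
    intro x
    obtain ⟨s, hs⟩ := h.shift (v := Vx.pr κ o x) ⟨hκ, ho⟩ hκ' ho'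
    exact ⟨s, fun z => by rw [hs, gs_gadj_pr]⟩
  have h2 : ∀ z : ZMod 2, ∃ s : ZMod 2, ∀ x, A (Vx.pr κ o x) (Vx.pr κ' o' z) =
      (decide (z = x + s) && (gsEd ov κ o κ' o' || gsEd ov κ' o' κ o)) := by
    intro z
    obtain ⟨s, hs⟩ := h.shift (v := Vx.pr κ' o' z) ⟨hκ', ho'⟩ hκ ho
    refine ⟨s, fun x => ?_⟩
    rw [h.symm (v := Vx.pr κ o x) (v' := Vx.pr κ' o' z) ⟨hκ, ho⟩ ⟨hκ', ho'⟩, hs, gs_gadj_pr,
      Bool.or_comm]
  obtain ⟨s₀, a₀⟩ := h1 0
  obtain ⟨s₁, a₁⟩ := h1 1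
  obtain ⟨r₀, b₀⟩ := h2 0
  have hx : ∀ x : ZMod 2, x = 0 ∨ x = 1 := by decide
  refine ⟨s₀, fun _ _ _ _ x z => ?_⟩
  rcases hx x with rfl | rfl
  · exact a₀ z
  · rw [a₁ z]
    cases hE : (gsEd ov κ o κ' o' || gsEd ov κ' o' κ o)
    · simp
    · rw [hE] at a₀ a₁ b₀
      have c₀ := (a₀ 0).symm.trans (b₀ 0)
      have c₁ := (a₁ 0).symm.trans (b₀ 1)
      have : s₁ = s₀ := by
        revert c₀ c₁
        generalize s₀ = a
        generalize s₁ = b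
        generalize r₀ = c
        revert a b c
        decide
      rw [this]

theorem GsLoc.pat (h : GsLoc N L ov A) (c : ℕ) (y : ZMod 2 × ZMod 2) (o : ℕ) : ∃ p : ZMod 2,
    c < N → o < 3 * N → ∀ κ < 4, ∀ z, A (Vx.ck c y.1 y.2) (Vx.pr κ o z) =
      decide (κ = 0 ∧ o / 3 = c ∧ z = p) := by
  by_cases hh : c < N ∧ o < 3 * N
  swap
  · exact ⟨0, fun a b => absurd ⟨a, b⟩ hh⟩
  obtain ⟨hc, ho⟩ := hh
  obtain ⟨s, hs⟩ := h.shift (v := Vx.ck c y.1 y.2) hc (κ := 0) (by omega) ho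
  refine ⟨ckBit 0 y.1 y.2 (o % 3) + s, fun _ _ κ hκ z => ?_⟩
  by_cases h0 : κ = 0
  · subst h0
    rw [hs, gs_gadj_ck]
    have : ∀ a b c : ZMod 2, (a + b = c ↔ a = c + b) := by decide
    simp only [this]
  · obtain ⟨s', hs'⟩ := h.shift (v := Vx.ck c y.1 y.2) hc hκ ho
    rw [hs', gs_gadj_ck]
    simp [h0]

theorem GsLoc.pat_diff (h : GsLoc N L ov A) {p : ℕ → ZMod 2 × ZMod 2 → ℕ → ZMod 2}
    (hp : ∀ c y o, c < N → o < 3 * N → ∀ κ < 4, ∀ z, A (Vx.ck c y.1 y.2) (Vx.pr κ o z) =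
      decide (κ = 0 ∧ o / 3 = c ∧ z = p c y o)) {c : ℕ} (hc : c < N) (y y' : ZMod 2 × ZMod 2) :
    ∃ y₂ : ZMod 2 × ZMod 2, (y₂ = y → y' = y) ∧ ∀ j < 3,
      p c y (3 * c + j) + p c y' (3 * c + j) = ckBit 0 y.1 y.2 j + ckBit 0 y₂.1 y₂.2 j := by
  obtain ⟨v₂, h0, h1, -, -, σ, h2, h3, h4⟩ := h (Vx.ck c y.1 y.2) (Vx.ck c y'.1 y'.2) hc hc
  obtain ⟨a, b, rfl⟩ := gs_base_ck h0
  refine ⟨(a, b), fun e => ?_, fun j hj => ?_⟩
  · have := h1.1 (by rw [← e])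
    simp only [Vx.ck.injEq, true_and] at this
    exact Prod.ext this.1 this.2
  · have ho : 3 * c + j < 3 * N := by omega
    have hd : (3 * c + j) / 3 = c := by omega
    have hm : (3 * c + j) % 3 = j := by omega
    obtain ⟨s, hs⟩ := gs_shift h2 h3 (κ := 0) (by omega) ho
    have a1 := (h4 (Vx.pr 0 (3 * c + j) (ckBit 0 y.1 y.2 j)) ⟨by omega, ho⟩).1
    have a2 := (h4 (Vx.pr 0 (3 * c + j) (ckBit 0 a b j)) ⟨by omega, ho⟩).2
    rw [hs, hp c _ _ hc ho 0 (by omega), gs_gadj_ck, hd, hm] at a1 a2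
    simp only [true_and, decide_true, Bool.true_eq, decide_eq_true_eq] at a1 a2
    rw [← a1, ← a2]
    have : ∀ a b c : ZMod 2, a + c + (b + c) = a + b := by decide
    exact this _ _ _

theorem GsLoc.iso (h : GsLoc N L ov A) : ∃ (b : ℕ → ZMod 2) (f : Vx → Vx),
    (∀ z, (f z).base = z.base) ∧ Function.Injective f ∧
      ∀ u v, u.ok N L → v.ok N L → A (f u) (f v) = gadj L ov b u v := by
  classical
  choose tw htw using h.tw
  choose p hp using h.pat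
  obtain ⟨t3, ht3⟩ := gs_exists_t3 (ov := ov) (fun o o' => tw 3 o 3 o') (3 * N)
  obtain ⟨t, ht⟩ : ∃ t : ℕ → ℕ → ZMod 2, ∀ κ o κ' o', κ' < 4 → o' < 3 * N →
      gsEd ov κ o κ' o' = true → t κ' o' = t κ o + tw κ o κ' o' := by
    refine ⟨fun κ o => if κ = 0 then t3 o + tw 2 o 3 o + tw 1 o 2 o + tw 0 o 1 o
      else if κ = 1 then t3 o + tw 2 o 3 o + tw 1 o 2 o
      else if κ = 2 then t3 o + tw 2 o 3 o else t3 o, fun κ o κ' o' hκ' ho' hE => ?_⟩
    have h2 : ∀ a b : ZMod 2, a = a + b + b := by decide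
    unfold gsEd at hE
    simp only [Bool.or_eq_true, decide_eq_true_eq, Bool.and_eq_true] at hE
    rcases hE with ⟨rfl, rfl⟩ | ⟨⟨rfl, rfl⟩, hE⟩
    · have : κ = 0 ∨ κ = 1 ∨ κ = 2 := by omega
      rcases this with rfl | rfl | rfl
      · simpa using h2 _ _
      · simpa using h2 _ _
      · simpa using h2 _ _
    · simpa using ht3 o o' ho' hE
  have hpar : ∀ c < N, ∀ y, p c y (3 * c) + p c y (3 * c + 1) + p c y (3 * c + 2) =
      p c 0 (3 * c) + p c 0 (3 * c + 1) + p c 0 (3 * c + 2) := by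
    intro c hc y
    obtain ⟨y₂, -, h1⟩ := h.pat_diff hp hc y 0
    have a0 := h1 0 (by omega)
    have a1 := h1 1 (by omega)
    have a2 := h1 2 (by omega)
    simp only [ckBit, add_zero, if_true, one_ne_zero, if_false, OfNat.ofNat_ne_zero,
      OfNat.ofNat_ne_one] at a0 a1 a2
    revert a0 a1 a2
    generalize p c y (3 * c) = a, p c y (3 * c + 1) = b, p c y (3 * c + 2) = d,
      p c 0 (3 * c) = a', p c 0 (3 * c + 1) = b', p c 0 (3 * c + 2) = d', y.1 = u, y.2 = v,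
      y₂.1 = u', y₂.2 = v'
    intro a0 a1 a2
    have h2 : (2 : ZMod 2) = 0 := rfl
    linear_combination a0 + a1 + a2 + (u + u' + v + v' - a' - b' - d') * h2
  have hinj : ∀ c < N, Function.Injective
      fun y : ZMod 2 × ZMod 2 => (p c y (3 * c), p c y (3 * c + 1)) := by
    intro c hc y y' e
    obtain ⟨y₂, h0, h1⟩ := h.pat_diff hp hc y y'
    have a0 := h1 0 (by omega)
    have a1 := h1 1 (by omega)
    simp only [ckBit, add_zero, if_true, one_ne_zero, if_false] at a0 a1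
    simp only [Prod.mk.injEq] at e
    rw [e.1, CharTwo.add_self_eq_zero] at a0
    rw [e.2, CharTwo.add_self_eq_zero] at a1
    have key : ∀ a b : ZMod 2, 0 = a + b → b = a := by decide
    exact (h0 (Prod.ext (key _ _ a0) (key _ _ a1))).symm
  have hψ : ∀ c, ∃ ψ : ZMod 2 × ZMod 2 → ZMod 2 × ZMod 2, Function.Injective ψ ∧
      (c < N → ∀ y, p c (ψ y) (3 * c) = y.1 ∧ p c (ψ y) (3 * c + 1) = y.2) := by
    intro c
    by_cases hc : c < N
    · have hb := Finite.injective_iff_bijective.1 (hinj c hc)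
      refine ⟨(Equiv.ofBijective _ hb).symm, (Equiv.ofBijective _ hb).symm.injective,
        fun _ y => ?_⟩
      have := (Equiv.ofBijective _ hb).apply_symm_apply y
      rw [Equiv.ofBijective_apply] at this
      exact ⟨congrArg Prod.fst this, congrArg Prod.snd this⟩
    · exact ⟨id, Function.injective_id, fun a => absurd a hc⟩
  choose ψ hψi hψ using hψ
  set b : ℕ → ZMod 2 := fun c => p c 0 (3 * c) + p c 0 (3 * c + 1) + p c 0 (3 * c + 2) +
    t 0 (3 * c) + t 0 (3 * c + 1) + t 0 (3 * c + 2) with hb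
  set f : Vx → Vx := fun z => Vx.casesOn z Vx.q Vx.mu (fun κ o x => Vx.pr κ o (x + t κ o))
    (fun c y₁ y₂ => Vx.ck c (ψ c (y₁ + t 0 (3 * c), y₂ + t 0 (3 * c + 1))).1
      (ψ c (y₁ + t 0 (3 * c), y₂ + t 0 (3 * c + 1))).2) with hf
  have fq : ∀ j, f (Vx.q j) = Vx.q j := fun _ => rfl
  have fmu : ∀ j, f (Vx.mu j) = Vx.mu j := fun _ => rfl
  have fpr : ∀ κ o x, f (Vx.pr κ o x) = Vx.pr κ o (x + t κ o) := fun _ _ _ => rfl
  have fck : ∀ c y₁ y₂, f (Vx.ck c y₁ y₂) =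
      Vx.ck c (ψ c (y₁ + t 0 (3 * c), y₂ + t 0 (3 * c + 1))).1
        (ψ c (y₁ + t 0 (3 * c), y₂ + t 0 (3 * c + 1))).2 := fun _ _ _ => rfl
  clear_value f
  have hbase : ∀ z, (f z).base = z.base := by
    intro z
    cases z <;> simp [fq, fmu, fpr, fck, Vx.base]
  have hfok : ∀ z, z.ok N L → (f z).ok N L := fun z hz => gs_ok_of_base (hbase z) hz
  have hq : ∀ u j, u.ok N L → (Vx.q j).ok N L → A (f u) (f (Vx.q j)) = gadj L ov b u (Vx.q j) := by
    intro u j hu hj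
    rw [fq, h.q (hfok u hu) hj]
    cases u <;> simp [fq, fmu, fpr, fck, gadj, ged]
  have hmu : ∀ u j, u.ok N L → (Vx.mu j).ok N L →
      A (f u) (f (Vx.mu j)) = gadj L ov b u (Vx.mu j) := by
    intro u j hu hj
    rw [fmu, h.mu (hfok u hu) hj]
    cases u <;> simp [fq, fmu, fpr, fck, gadj, ged]
  have hsw : ∀ u v, u.ok N L → v.ok N L → A (f u) (f v) = gadj L ov b u v →
      A (f v) (f u) = gadj L ov b v u := by
    intro u v hu hv e
    rw [h.symm (hfok v hv) (hfok u hu), e, gadj_comm]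
  have hckpr : ∀ c y₁ y₂ κ o x, c < N → κ < 4 → o < 3 * N →
      A (f (Vx.ck c y₁ y₂)) (f (Vx.pr κ o x)) = gadj L ov b (Vx.ck c y₁ y₂) (Vx.pr κ o x) := by
    intro c y₁ y₂ κ o x hc hκ ho
    rw [fck, fpr, hp c _ o hc ho κ hκ, gs_gadj_ck]
    refine decide_eq_decide.2 (and_congr_right fun h0 => and_congr_right fun h1 => ?_)
    subst h0
    obtain ⟨a0, a1⟩ := hψ c hc (y₁ + t 0 (3 * c), y₂ + t 0 (3 * c + 1))
    have a2 := hpar c hc (ψ c (y₁ + t 0 (3 * c), y₂ + t 0 (3 * c + 1)))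
    rw [a0, a1] at a2
    have hcases : (o = 3 * c ∧ o % 3 = 0) ∨ (o = 3 * c + 1 ∧ o % 3 = 1) ∨
        (o = 3 * c + 2 ∧ o % 3 = 2) := by omega
    rcases hcases with ⟨e1, e2⟩ | ⟨e1, e2⟩ | ⟨e1, e2⟩
    · rw [e2, e1, a0]
      simp [ckBit]
    · rw [e2, e1, a1]
      simp [ckBit]
    · rw [e2, e1]
      simp only [ckBit, hb, if_false, OfNat.ofNat_ne_zero, OfNat.ofNat_ne_one]
      have h2 : (2 : ZMod 2) = 0 := rfl
      constructor
      · intro e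
        linear_combination e + a2 - (y₁ + y₂ + t 0 (3 * c) + t 0 (3 * c + 1) +
          t 0 (3 * c + 2)) * h2
      · intro e
        linear_combination e - a2 + (y₁ + y₂ + t 0 (3 * c) + t 0 (3 * c + 1) +
          t 0 (3 * c + 2)) * h2
  have hprpr : ∀ κ o x κ' o' x', κ < 4 → o < 3 * N → κ' < 4 → o' < 3 * N →
      gsEd ov κ o κ' o' = true ∨ (gsEd ov κ o κ' o' || gsEd ov κ' o' κ o) = false →
      A (f (Vx.pr κ o x)) (f (Vx.pr κ' o' x')) = gadj L ov b (Vx.pr κ o x) (Vx.pr κ' o' x') := by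
    intro κ o x κ' o' x' hκ ho hκ' ho' hE
    rw [fpr, fpr, htw κ o κ' o' hκ ho hκ' ho', gs_gadj_pr]
    rcases hE with hE | hE
    · rw [ht κ o κ' o' hκ' ho' hE]
      have : ∀ a b c d : ZMod 2, (a + c = b + (c + d) + d ↔ a = b) := by decide
      simp only [this]
    · rw [hE]
      simp
  refine ⟨b, f, hbase, ?_, ?_⟩
  · intro u v e
    cases u <;> cases v <;> simp only [fq, fmu, fpr, fck, reduceCtorEq, Vx.pr.injEq,
      Vx.ck.injEq] at e ⊢
    · exact e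
    · exact e
    · obtain ⟨rfl, rfl, e⟩ := e
      exact ⟨rfl, rfl, add_right_cancel e⟩
    · obtain ⟨rfl, e1, e2⟩ := e
      have := hψi _ (Prod.ext e1 e2)
      simp only [Prod.mk.injEq, add_left_inj] at this
      exact ⟨rfl, this⟩
  · intro u v hu hv
    cases v with
    | q j => exact hq u j hu hv
    | mu j => exact hmu u j hu hv
    | pr κ' o' x' =>
      cases u with
      | q j => exact hsw _ _ hv hu (hq _ j hv hu)
      | mu j => exact hsw _ _ hv hu (hmu _ j hv hu)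
      | pr κ o x =>
        cases h1 : gsEd ov κ o κ' o'
        · cases h2 : gsEd ov κ' o' κ o
          · exact hprpr _ _ _ _ _ _ hu.1 hu.2 hv.1 hv.2 (Or.inr (by rw [h1, h2]; rfl))
          · exact hsw _ _ hv hu (hprpr _ _ _ _ _ _ hv.1 hv.2 hu.1 hu.2 (Or.inl h2))
        · exact hprpr _ _ _ _ _ _ hu.1 hu.2 hv.1 hv.2 (Or.inl h1)
      | ck c y₁ y₂ => exact hckpr _ _ _ _ _ _ hu hv.1 hv.2
    | ck c' y₁' y₂' =>
      cases u with
      | q j => exact hsw _ _ hv hu (hq _ j hv hu)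
      | mu j => exact hsw _ _ hv hu (hmu _ j hv hu)
      | pr κ o x => exact hsw _ _ hv hu (hckpr _ _ _ _ _ _ hv hu.1 hu.2)
      | ck c y₁ y₂ =>
        rw [fck, fck, h.ckck hu hv]
        simp [gadj, ged]

theorem exists_rhs_of_peb (hK : 3 ≤ K) (hN : 1 ≤ N) {W : Type} [DecidableEq W]
    {H : W → W → Bool} (h : Peb K (gr N L ov fun _ => 0) H) :
    ∃ b : ℕ → ZMod 2, Iso (gr N L ov b) H := by
  classical
  obtain ⟨F, hF⟩ := h
  obtain ⟨π₀, -, hπ₀, -⟩ := hF.ext' hF.empty (by rw [card_empty]; omega)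
  have hbase : ∀ (v : GV N L) (w : W), ({(v, w)} : Finset (GV N L × W)) ∈ F →
      (π₀.symm w).1.base = v.1.base := by
    intro v w hvw
    refine ((hF.trans hF.symm).base_eq (by omega) hN (v := v) (w := π₀.symm w)
      ⟨{(v, w, π₀.symm w)}, by simp, by simpa using hvw, ?_⟩).symm
    have := hπ₀ (π₀.symm w)
    rw [Equiv.apply_symm_apply] at this
    simpa using this
  set A : Vx → Vx → Bool := fun u v =>
    if h : u.ok N L ∧ v.ok N L then H (π₀ ⟨u, h.1⟩) (π₀ ⟨v, h.2⟩) else false with hA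
  have hA' : ∀ u v : GV N L, A u.1 v.1 = H (π₀ u) (π₀ v) := by
    intro u v
    simp only [hA]
    rw [dif_pos ⟨u.2, v.2⟩]
  have hloc : GsLoc N L ov A := by
    intro v v' hv hv'
    obtain ⟨ρ, h1, h2, h3, -⟩ := hF.ext' (hπ₀ ⟨v, hv⟩) (by rw [card_singleton]; omega)
    have h4 := h1 (ρ.symm (π₀ ⟨v', hv'⟩))
    have h5 := hbase _ _ (h2 (ρ.symm (π₀ ⟨v', hv'⟩)))
    rw [Equiv.apply_symm_apply] at h4 h5
    rw [Equiv.symm_apply_apply] at h5
    generalize ρ.symm (π₀ ⟨v', hv'⟩) = v₂ at h4 h5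
    have m1 : ((⟨v, hv⟩ : GV N L), π₀ ⟨v, hv⟩) ∈
        insert (v₂, π₀ ⟨v', hv'⟩) ({((⟨v, hv⟩ : GV N L), π₀ ⟨v, hv⟩)} : Finset (GV N L × W)) :=
      mem_insert_of_mem (mem_singleton_self _)
    have m2 : (v₂, π₀ ⟨v', hv'⟩) ∈
        insert (v₂, π₀ ⟨v', hv'⟩) ({((⟨v, hv⟩ : GV N L), π₀ ⟨v, hv⟩)} : Finset (GV N L × W)) :=
      mem_insert_self _ _
    obtain ⟨π, -, g2, -, g4, -⟩ := hF.ext' h4
      (lt_of_le_of_lt (card_insert_le _ _) (by rw [card_singleton]; omega))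
    refine ⟨v₂.1, h5.symm, ?_, ?_, ?_, fun z => if hz : z.ok N L then (π₀.symm (π ⟨z, hz⟩)).1 else z,
      fun z hz => ?_, fun z z' hz hz' e => ?_, fun z hz => ?_⟩
    · have := hF.eq _ h4 _ m2 _ m1
      simp only [EmbeddingLike.apply_eq_iff_eq, Subtype.mk.injEq] at this
      rw [← this, Subtype.ext_iff]
    · exact (hA' ⟨v, hv⟩ ⟨v', hv'⟩).trans (hF.adj _ h4 _ m1 _ m2).symm
    · exact (hA' ⟨v', hv'⟩ ⟨v, hv⟩).trans (hF.adj _ h4 _ m2 _ m1).symm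
    · simp only [dif_pos hz]
      exact hbase _ _ (g2 ⟨z, hz⟩)
    · simp only [dif_pos hz, dif_pos hz'] at e
      have := π.injective (π₀.symm.injective (Subtype.ext e))
      exact congrArg Subtype.val this
    · simp only [dif_pos hz]
      refine ⟨?_, ?_⟩
      · rw [hA' ⟨v, hv⟩, Equiv.apply_symm_apply]
        exact g4 _ m1 ⟨z, hz⟩
      · rw [hA' ⟨v', hv'⟩, Equiv.apply_symm_apply]
        exact g4 _ m2 ⟨z, hz⟩
  obtain ⟨b, f, f1, f2, f3⟩ := hloc.iso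
  let g : GV N L → GV N L := fun z => ⟨f z.1, gs_ok_of_base (f1 z.1) z.2⟩
  have hg : Function.Injective g := fun z z' e => Subtype.ext (f2 (congrArg Subtype.val e))
  refine ⟨b, (Equiv.ofBijective g (Finite.injective_iff_bijective.1 hg)).trans π₀, fun v w => ?_⟩
  exact (hA' (g v) (g w)).symm.trans (f3 v.1 w.1 v.2 w.2)

end Crest.Agent.R290
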