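import Crest.Agent.R290.HornDup
import Crest.Agent.R290.DefsHorn

/-!
Row 290.  Grid rules as register rules.
-/

set_option autoImplicit false

namespace Crest.Agent.R290

variable {A : Type} {m n h : ℕ} {gs : List (GRule A)} {acc : A}

/-- digit `j` of `x` in base `n` -/
def gridDig (n x j : ℕ) : ℕ := x / n ^ j % n

/-- the number with the digits `f 0, …, f (h - 1)` -/
def gridNum (n : ℕ) : ℕ → (ℕ → ℕ) → ℕ
  | 0, _ => 0
  | h + 1, f => f 0 + n * gridNum n h fun j => f (j + 1)

theorem gridDig_lt (hn : 0 < n) (x j : ℕ) : gridDig n x j < n := Nat.mod_lt _ hn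

theorem gridDig_succ (x j : ℕ) : gridDig n x (j + 1) = gridDig n (x / n) j := by
  unfold gridDig
  rw [Nat.div_div_eq_div_mul, pow_succ']

theorem gridDig_zero (x : ℕ) : gridDig n x 0 = x % n := by simp [gridDig]

theorem gridNum_congr : ∀ (h : ℕ) (f g : ℕ → ℕ), (∀ j < h, f j = g j) → gridNum n h f = gridNum n h g
  | 0, _, _, _ => rfl
  | h + 1, f, g, H => by
    simp only [gridNum]
    rw [H 0 (by omega), gridNum_congr h _ (fun j => g (j + 1)) fun j hj => H (j + 1) (by omega)]

theorem gridNum_lt : ∀ (h : ℕ) (f : ℕ → ℕ), (∀ j < h, f j < n) → gridNum n h f < n ^ h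
  | 0, _, _ => by simp [gridNum]
  | h + 1, f, H => by
    simp only [gridNum]
    have h1 := gridNum_lt h (fun j => f (j + 1)) fun j hj => H (j + 1) (by omega)
    have h2 := H 0 (by omega)
    have h3 : n * (gridNum n h (fun j => f (j + 1)) + 1) ≤ n * n ^ h := Nat.mul_le_mul_left _ h1
    rw [pow_succ']
    rw [mul_add, mul_one] at h3
    omega

theorem gridDig_num : ∀ (h : ℕ) (f : ℕ → ℕ), (∀ j < h, f j < n) → ∀ j < h,
    gridDig n (gridNum n h f) j = f j
  | 0, _, _, j, hj => absurd hj (Nat.not_lt_zero j)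
  | h + 1, f, H, 0, _ => by
    simp only [gridNum, gridDig_zero]
    rw [Nat.add_mul_mod_self_left, Nat.mod_eq_of_lt (H 0 (by omega))]
  | h + 1, f, H, j + 1, hj => by
    simp only [gridNum, gridDig_succ]
    have h2 := H 0 (by omega)
    rw [Nat.add_mul_div_left _ _ (by omega), Nat.div_eq_of_lt h2, zero_add]
    exact gridDig_num h (fun j => f (j + 1)) (fun j hj => H (j + 1) (by omega)) j (by omega)

theorem gridNum_dig : ∀ (h x : ℕ), x < n ^ h → gridNum n h (gridDig n x) = x
  | 0, x, hx => by simp only [gridNum]; simp at hx; omega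
  | h + 1, x, hx => by
    simp only [gridNum, gridDig_zero, gridDig_succ]
    rw [gridNum_dig h (x / n) (Nat.div_lt_of_lt_mul (by rwa [pow_succ'] at hx))]
    exact Nat.mod_add_div x n

theorem gridDig_inj {x y : ℕ} (hx : x < n ^ h) (hy : y < n ^ h)
    (H : ∀ j < h, gridDig n x j = gridDig n y j) : x = y := by
  rw [← gridNum_dig h x hx, ← gridNum_dig h y hy]
  exact gridNum_congr h _ _ H

theorem gridNum_up (hn : 0 < n) : ∀ (p h : ℕ) (f g : ℕ → ℕ), p < h →
    (∀ j < p, f j = n - 1 ∧ g j = 0) → g p = f p + 1 → (∀ j < h, p < j → g j = f j) →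
    gridNum n h g = gridNum n h f + 1
  | _, 0, _, _, hp, _, _, _ => absurd hp (Nat.not_lt_zero _)
  | 0, h + 1, f, g, _, _, h2, h3 => by
    simp only [gridNum]
    rw [h2, gridNum_congr h (fun j => g (j + 1)) (fun j => f (j + 1))
      fun j hj => h3 (j + 1) (by omega) (by omega)]
    omega
  | p + 1, h + 1, f, g, hp, h1, h2, h3 => by
    simp only [gridNum]
    rw [gridNum_up hn p h (fun j => f (j + 1)) (fun j => g (j + 1)) (by omega)
      (fun j hj => h1 (j + 1) (by omega)) h2 (fun j hj hj' => h3 (j + 1) (by omega) (by omega)),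
      (h1 0 (by omega)).1, (h1 0 (by omega)).2, mul_add, mul_one]
    omega

theorem gridNum_top (hn : 0 < n) : ∀ h : ℕ, gridNum n h (fun _ => n - 1) + 1 = n ^ h
  | 0 => rfl
  | h + 1 => by
    simp only [gridNum]
    rw [pow_succ', ← gridNum_top hn h, mul_add, mul_one]
    omega

theorem grid_succ_digits (hn : 0 < n) {x : ℕ} (hx : x + 1 < n ^ h) :
    ∃ p < h, gridDig n x p < n - 1 ∧ (∀ j < p, gridDig n x j = n - 1 ∧ gridDig n (x + 1) j = 0) ∧
      gridDig n (x + 1) p = gridDig n x p + 1 ∧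
      ∀ j < h, p < j → gridDig n (x + 1) j = gridDig n x j := by
  have hex : ∃ p, p < h ∧ gridDig n x p < n - 1 := by
    by_contra hc
    push Not at hc
    have h1 : gridNum n h (gridDig n x) = gridNum n h (fun _ => n - 1) :=
      gridNum_congr h _ _ fun j hj => by
        have := hc j hj
        have := gridDig_lt hn x j
        omega
    rw [gridNum_dig h x (by omega)] at h1
    have := gridNum_top hn h
    omega
  classical
  obtain ⟨hp1, hp2⟩ := Nat.find_spec hex
  have hmin : ∀ j < Nat.find hex, gridDig n x j = n - 1 := by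
    intro j hj
    have h1 := Nat.find_min hex hj
    have := gridDig_lt hn x j
    push Not at h1
    have := h1 (by omega)
    omega
  generalize Nat.find hex = p at hp1 hp2 hmin
  let g : ℕ → ℕ := fun j => if j < p then 0 else if j = p then gridDig n x p + 1 else gridDig n x j
  have hg : ∀ j < h, g j < n := by
    intro j _
    have := gridDig_lt hn x j
    simp only [g]
    split_ifs <;> omega
  have h1 : gridNum n h g = x + 1 := by
    rw [gridNum_up hn p h (gridDig n x) g hp1 (fun j hj => ⟨hmin j hj, by simp [g, hj]⟩)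
      (by simp [g]) (fun j _ hj => by simp [g, hj.ne', not_lt.2 hj.le]),
      gridNum_dig h x (by omega)]
  have h2 : ∀ j < h, gridDig n (x + 1) j = g j := by
    rw [← h1]; exact gridDig_num h g hg
  refine ⟨p, hp1, hp2, fun j hj => ⟨hmin j hj, ?_⟩, ?_, fun j hj hj' => ?_⟩
  · rw [h2 j (by omega)]; simp [g, hj]
  · rw [h2 p hp1]; simp [g]
  · rw [h2 j hj]; simp [g, hj'.ne', not_lt.2 hj'.le]

theorem grid_patAt_map (F : ℕ → Option (ℕ × ℕ)) {j : ℕ} (hj : j < h) :
    patAt ((List.range h).map F) j = F j := by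
  simp [patAt, List.getD_eq_getElem?_getD, hj]

theorem grid_patInst_map (F : ℕ → Option (ℕ × ℕ)) {j : ℕ} (hj : j < h) (b : Bool) (d : ℕ → ℕ) :
    patInst ((List.range h).map F) b d j
      = (F j).elim (d j) fun v => if b then v.2 else v.1 := by
  simp only [patInst, patFix, grid_patAt_map F hj]
  cases F j <;> simp

/-- the entries of the patterns of `up` and `down` -/
def gridStep (n : ℕ) (u : Bool) (p v j : ℕ) : Option (ℕ × ℕ) :=
  if j < p then some (if u then (n - 1, 0) else (0, n - 1))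
  else if j = p then some (if u then (v, v + 1) else (v + 1, v)) else none

theorem grid_mem_same {π : Pat} :
    π ∈ Mode.pats n h (Sum.inl none) ↔ π = (List.range h).map fun _ => none := by
  simp [Mode.pats]

theorem grid_mem_step {π : Pat} {u : Bool} :
    π ∈ Mode.pats n h (Sum.inl (some u)) ↔
      ∃ p < h, ∃ v < n - 1, π = (List.range h).map (gridStep n u p v) := by
  simp only [Mode.pats, Sum.elim_inl, Option.elim_some, List.mem_flatMap, List.mem_map,
    List.mem_range]
  constructor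
  · rintro ⟨p, hp, v, hv, rfl⟩
    exact ⟨p, hp, v, hv, rfl⟩
  · rintro ⟨p, hp, v, hv, rfl⟩
    exact ⟨p, hp, v, hv, rfl⟩

theorem grid_mem_const {π : Pat} {c : ℕ × ℕ} :
    π ∈ Mode.pats n h (Sum.inr c) ↔ c.1 < n ^ h ∧ c.2 < n ^ h ∧
      π = (List.range h).map fun j => some (gridDig n c.1 j, gridDig n c.2 j) := by
  simp only [Mode.pats, Sum.elim_inr]
  split_ifs with hc
  · simp only [List.mem_singleton, hc.1, hc.2, true_and]
    rfl
  · simp only [List.not_mem_nil, false_iff]
    exact fun hh => hc ⟨hh.1, hh.2.1⟩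

theorem grid_pats_map {μ : Mode} {π : Pat} (hn : 0 < n) (hπ : π ∈ μ.pats n h) :
    ∃ F : ℕ → Option (ℕ × ℕ), π = (List.range h).map F ∧
      ∀ j v, F j = some v → v.1 < n ∧ v.2 < n := by
  rcases μ with (_ | u) | c
  · exact ⟨_, grid_mem_same.1 hπ, fun j v hv => by simp at hv⟩
  · obtain ⟨p, -, v, hv, rfl⟩ := grid_mem_step.1 hπ
    refine ⟨_, rfl, fun j w hw => ?_⟩
    unfold gridStep at hw
    cases u <;> split_ifs at hw <;> simp only [Option.some.injEq, reduceCtorEq] at hw <;>
      subst hw <;> simp_all <;> omega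
  · obtain ⟨-, -, rfl⟩ := grid_mem_const.1 hπ
    refine ⟨_, rfl, fun j w hw => ?_⟩
    simp only [Option.some.injEq] at hw
    subst hw
    exact ⟨gridDig_lt hn _ _, gridDig_lt hn _ _⟩

theorem grid_pats_length {μ : Mode} {π : Pat} (hn : 0 < n) (hπ : π ∈ μ.pats n h) :
    π.length = h := by
  obtain ⟨F, rfl, -⟩ := grid_pats_map hn hπ
  simp

theorem grid_pats_lt {μ : Mode} {π : Pat} (hn : 0 < n) (hπ : π ∈ μ.pats n h) {v : ℕ × ℕ}
    (hv : some v ∈ π) : v.1 < n ∧ v.2 < n := by
  obtain ⟨F, rfl, hF⟩ := grid_pats_map hn hπ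
  obtain ⟨j, -, hj⟩ := List.mem_map.1 hv
  exact hF j v hj

theorem grid_inst_lt {μ : Mode} {π : Pat} (hn : 0 < n) (hπ : π ∈ μ.pats n h) (b : Bool)
    {d : ℕ → ℕ} (hd : ∀ j, d j < n) : ∀ j < h, patInst π b d j < n := by
  intro j hj
  obtain ⟨F, rfl, hF⟩ := grid_pats_map hn hπ
  rw [grid_patInst_map F hj]
  cases hFj : F j with
  | none => exact hd j
  | some v =>
    have := hF j v hFj
    cases b
    · exact this.1
    · exact this.2

theorem grid_sound {μ : Mode} {π : Pat} (hn : 0 < n) (hπ : π ∈ μ.pats n h) (d : ℕ → ℕ) :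
    μ.rel (gridNum n h (patInst π false d)) (gridNum n h (patInst π true d)) := by
  rcases μ with (_ | u) | c
  · rw [grid_mem_same.1 hπ]
    exact gridNum_congr h _ _ fun j hj => by simp only [grid_patInst_map _ hj, Option.elim_none]
  · obtain ⟨p, hp, v, hv, rfl⟩ := grid_mem_step.1 hπ
    cases u
    · refine gridNum_up hn p h _ _ hp (fun j hj => ?_) ?_ fun j hj hj' => ?_
      · simp [grid_patInst_map _ (hj.trans hp), gridStep, hj]
      · simp [grid_patInst_map _ hp, gridStep]
      · simp [grid_patInst_map _ hj, gridStep, hj'.ne', not_lt.2 hj'.le]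
    · refine gridNum_up hn p h _ _ hp (fun j hj => ?_) ?_ fun j hj hj' => ?_
      · simp [grid_patInst_map _ (hj.trans hp), gridStep, hj]
      · simp [grid_patInst_map _ hp, gridStep]
      · simp [grid_patInst_map _ hj, gridStep, hj'.ne', not_lt.2 hj'.le]
  · obtain ⟨h1, h2, rfl⟩ := grid_mem_const.1 hπ
    constructor
    · rw [← gridNum_dig h c.1 h1]
      exact gridNum_congr h _ _ fun j hj => by
        simp [grid_patInst_map _ hj, gridNum_dig h c.1 h1]
    · rw [← gridNum_dig h c.2 h2]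
      exact gridNum_congr h _ _ fun j hj => by
        simp [grid_patInst_map _ hj, gridNum_dig h c.2 h2]

theorem grid_complete {μ : Mode} (hn : 0 < n) {x y : ℕ} (hx : x < n ^ h) (hy : y < n ^ h)
    (hr : μ.rel x y) : ∃ π ∈ μ.pats n h, ∀ j < h,
      patInst π false (gridDig n x) j = gridDig n x j ∧
      patInst π true (gridDig n x) j = gridDig n y j := by
  rcases μ with (_ | u) | c
  · have : y = x := hr
    subst this
    exact ⟨_, grid_mem_same.2 rfl, fun j hj => by
      simp only [grid_patInst_map _ hj, Option.elim_none, and_self]⟩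
  · cases u
    · have : x = y + 1 := hr
      subst this
      obtain ⟨p, hp, h1, h2, h3, h4⟩ := grid_succ_digits hn hx
      refine ⟨_, grid_mem_step.2 ⟨p, hp, _, h1, rfl⟩, fun j hj => ?_⟩
      rcases lt_trichotomy j p with hjp | rfl | hjp
      · simp [grid_patInst_map _ hj, gridStep, hjp, h2 j hjp]
      · simp [grid_patInst_map _ hj, gridStep, h3]
      · simp [grid_patInst_map _ hj, gridStep, hjp.ne', not_lt.2 hjp.le, h4 j hj hjp]
    · have : y = x + 1 := hr
      subst this
      obtain ⟨p, hp, h1, h2, h3, h4⟩ := grid_succ_digits hn hy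
      refine ⟨_, grid_mem_step.2 ⟨p, hp, _, h1, rfl⟩, fun j hj => ?_⟩
      rcases lt_trichotomy j p with hjp | rfl | hjp
      · simp [grid_patInst_map _ hj, gridStep, hjp, h2 j hjp]
      · simp [grid_patInst_map _ hj, gridStep, h3]
      · simp [grid_patInst_map _ hj, gridStep, hjp.ne', not_lt.2 hjp.le, h4 j hj hjp]
  · obtain ⟨h1, h2⟩ : x = c.1 ∧ y = c.2 := hr
    subst h1 h2
    exact ⟨_, grid_mem_const.2 ⟨hx, hy, rfl⟩, fun j hj => by simp [grid_patInst_map _ hj]⟩

theorem grid_patAt_append {π₁ π₂ : Pat} (h1 : π₁.length = h) (ρ : ℕ) :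
    patAt (π₁ ++ π₂) ρ = if ρ < h then patAt π₁ ρ else patAt π₂ (ρ - h) := by
  subst h1
  unfold patAt
  split_ifs with hρ
  · exact List.getD_append _ _ _ _ hρ
  · exact List.getD_append_right _ _ _ _ (not_lt.1 hρ)

theorem grid_patInst_append {π₁ π₂ : Pat} (h1 : π₁.length = h) (h2 : π₂.length = h) (b : Bool)
    (d : ℕ → ℕ) (ρ : ℕ) :
    patInst (π₁ ++ π₂) b d ρ = if ρ < h then patInst π₁ b d ρ
      else if ρ < 2 * h then patInst π₂ b (fun j => d (j + h)) (ρ - h) else 0 := by
  unfold patInst patFix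
  rw [grid_patAt_append h1]
  by_cases hρ : ρ < h
  · simp only [if_pos hρ]
  · simp only [if_neg hρ]
    by_cases hρ' : ρ < 2 * h
    · simp only [if_pos hρ']
      rw [Nat.sub_add_cancel (not_lt.1 hρ)]
    · have : patAt π₂ (ρ - h) = some (0, 0) := List.getD_eq_default _ _ (by omega)
      simp [this, hρ']

theorem grid_patInst_congr (π : Pat) (b : Bool) {d d' : ℕ → ℕ} {j : ℕ} (hd : d j = d' j) :
    patInst π b d j = patInst π b d' j := by
  unfold patInst; rw [hd]

/-- the world of a grid point -/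
def gridWorld (n h t p : ℕ) : ℕ → ℕ := fun ρ =>
  if ρ < h then gridDig n t ρ else if ρ < 2 * h then gridDig n p (ρ - h) else 0

theorem gridWorld_lt (hn : 0 < n) (t p ρ : ℕ) : gridWorld n h t p ρ < n := by
  unfold gridWorld
  split_ifs
  · exact gridDig_lt hn _ _
  · exact gridDig_lt hn _ _
  · exact hn

theorem gridWorld_zero : gridWorld n h 0 0 = fun _ => 0 := by
  funext ρ
  simp [gridWorld, gridDig]

theorem gridWorld_inj {t p t' p' : ℕ} (ht : t < n ^ h) (hp : p < n ^ h) (ht' : t' < n ^ h)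
    (hp' : p' < n ^ h) (H : gridWorld n h t p = gridWorld n h t' p') : t = t' ∧ p = p' := by
  refine ⟨gridDig_inj ht ht' fun j hj => ?_, gridDig_inj hp hp' fun j hj => ?_⟩
  · simpa [gridWorld, hj] using congrFun H j
  · have h1 : ¬ (j + h < h) := by omega
    have h2 : j + h < 2 * h := by omega
    simpa [gridWorld, h1, h2] using congrFun H (j + h)

theorem grid_mem_rules {r : Rule A} : r ∈ gridRules n h gs ↔
    ∃ g ∈ gs, ∃ π₁ ∈ g.1.pats n h, ∃ π₂ ∈ g.2.1.pats n h, r = (π₁ ++ π₂, g.2.2.1, g.2.2.2) := by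
  simp only [gridRules, List.mem_flatMap, List.mem_map]
  constructor
  · rintro ⟨g, hg, π₁, h1, π₂, h2, rfl⟩
    exact ⟨g, hg, π₁, h1, π₂, h2, rfl⟩
  · rintro ⟨g, hg, π₁, h1, π₂, h2, rfl⟩
    exact ⟨g, hg, π₁, h1, π₂, h2, rfl⟩

theorem grid_inst_world {μ₁ μ₂ : Mode} {π₁ π₂ : Pat} (hn : 0 < n) (h1 : π₁ ∈ μ₁.pats n h)
    (h2 : π₂ ∈ μ₂.pats n h) (b : Bool) {d : ℕ → ℕ} (hd : ∀ j, d j < n) :
    patInst (π₁ ++ π₂) b d = gridWorld n h (gridNum n h (patInst π₁ b d))
      (gridNum n h (patInst π₂ b fun j => d (j + h))) := by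
  funext ρ
  rw [grid_patInst_append (grid_pats_length hn h1) (grid_pats_length hn h2)]
  unfold gridWorld
  split_ifs with hρ hρ'
  · rw [gridDig_num h _ (grid_inst_lt hn h1 b hd) ρ hρ]
  · rw [gridDig_num h _ (grid_inst_lt hn h2 b fun j => hd _) _ (by omega)]
  · rfl

theorem grid_gder_of_der (hn : 0 < n) {τ : A} {a : ℕ → ℕ} (H : Der n (gridRules n h gs) τ a) :
    ∀ t p, t < n ^ h → p < n ^ h → a = gridWorld n h t p → GDer (n ^ h) gs τ t p := by
  induction H with
  | rule r hr d hd _ ih =>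
    intro t p ht hp he
    obtain ⟨g, hg, π₁, h1, π₂, h2, rfl⟩ := grid_mem_rules.1 hr
    have l1 := fun b => gridNum_lt h _ (grid_inst_lt hn h1 b hd)
    have l2 := fun b => gridNum_lt h _ (grid_inst_lt hn h2 b (d := fun j => d (j + h)) fun j => hd _)
    rw [grid_inst_world hn h1 h2 true hd] at he
    obtain ⟨rfl, rfl⟩ := gridWorld_inj (l1 true) (l2 true) ht hp he
    exact GDer.rule g hg _ _ _ _ (l1 false) (l2 false) ht hp (grid_sound hn h1 d)
      (grid_sound hn h2 _) fun τ hτ =>
        ih τ hτ _ _ (l1 false) (l2 false) (grid_inst_world hn h1 h2 false hd)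

theorem grid_der_of_gder (hn : 0 < n) {τ : A} {t p : ℕ} (H : GDer (n ^ h) gs τ t p) :
    Der n (gridRules n h gs) τ (gridWorld n h t p) := by
  induction H with
  | rule g hg t p t' p' ht hp ht' hp' r1 r2 _ ih =>
    obtain ⟨π₁, h1, e1⟩ := grid_complete hn ht ht' r1
    obtain ⟨π₂, h2, e2⟩ := grid_complete hn hp hp' r2
    have key : ∀ (b : Bool) (s q : ℕ), (∀ j < h, patInst π₁ b (gridDig n t) j = gridDig n s j) →
        (∀ j < h, patInst π₂ b (gridDig n p) j = gridDig n q j) →
        patInst (π₁ ++ π₂) b (gridWorld n h t p) = gridWorld n h s q := by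
      intro b s q k1 k2
      funext ρ
      rw [grid_patInst_append (grid_pats_length hn h1) (grid_pats_length hn h2)]
      conv_rhs => unfold gridWorld
      split_ifs with hρ hρ'
      · rw [← k1 ρ hρ]
        exact grid_patInst_congr _ _ (by simp [gridWorld, hρ])
      · rw [← k2 _ (by omega)]
        refine grid_patInst_congr _ _ ?_
        have : ρ - h + h = ρ := by omega
        simp [gridWorld, this, hρ, hρ']
      · rfl
    have := Der.rule (n := n) (rs := gridRules n h gs) (π₁ ++ π₂, g.2.2.1, g.2.2.2)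
      (grid_mem_rules.2 ⟨g, hg, π₁, h1, π₂, h2, rfl⟩) (gridWorld n h t p) (gridWorld_lt hn t p)
      (fun τ hτ => by
        rw [key false t p (fun j hj => (e1 j hj).1) (fun j hj => (e2 j hj).1)]
        exact ih τ hτ)
    rwa [key true t' p' (fun j hj => (e1 j hj).2) (fun j hj => (e2 j hj).2)] at this

theorem grid_none_not_mem {μ : Mode} {π : Pat} (hμ : μ.isRight) (hπ : π ∈ μ.pats n h) :
    none ∉ π := by
  rcases μ with o | c
  · simp at hμ
  · obtain ⟨-, -, rfl⟩ := grid_mem_const.1 hπ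
    simp

theorem grid_patFix_const {c : ℕ} {π : Pat} (hπ : π ∈ (Mode.const c 0).pats n h) (ρ : ℕ) :
    ((patAt π ρ).elim 0 fun v => v.2) = 0 := by
  obtain ⟨-, -, rfl⟩ := grid_mem_const.1 hπ
  by_cases hρ : ρ < h
  · rw [grid_patAt_map _ hρ]
    simp [gridDig]
  · have : patAt ((List.range h).map fun j => some (gridDig n c j, gridDig n 0 j)) ρ = some (0, 0) :=
      List.getD_eq_default _ _ (by simpa using hρ)
    simp [this]

theorem hornWF_gridRules (hm : 4 ≤ m) (hn : 0 < n) (hh : 2 * h ≤ m / 2)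
    (hg : GridWF (n ^ h) gs acc) : HornWF m n (gridRules n h gs) acc := by
  refine ⟨hm, hn, fun r hr => ?_, fun r hr => ?_, fun r hr => ?_, fun r hr => ?_,
    fun r hr => ?_, ?_⟩
  · obtain ⟨g, -, π₁, h1, π₂, h2, rfl⟩ := grid_mem_rules.1 hr
    simp only [List.length_append, grid_pats_length hn h1, grid_pats_length hn h2]
    omega
  · obtain ⟨g, -, π₁, h1, π₂, h2, rfl⟩ := grid_mem_rules.1 hr
    intro v hv
    rcases List.mem_append.1 hv with hv | hv
    · exact grid_pats_lt hn h1 hv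
    · exact grid_pats_lt hn h2 hv
  · obtain ⟨g, hg', π₁, h1, π₂, h2, rfl⟩ := grid_mem_rules.1 hr
    intro he hv
    obtain ⟨k1, k2⟩ := hg.fact g hg' he
    rcases List.mem_append.1 hv with hv | hv
    · exact grid_none_not_mem k1 h1 hv
    · exact grid_none_not_mem k2 h2 hv
  · obtain ⟨g, hg', π₁, h1, π₂, h2, rfl⟩ := grid_mem_rules.1 hr
    exact hg.prem g hg'
  · obtain ⟨g, hg', π₁, h1, π₂, h2, rfl⟩ := grid_mem_rules.1 hr
    intro he
    obtain ⟨c, c', k1, k2⟩ := hg.concl g hg' he
    rw [k1] at h1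
    rw [k2] at h2
    refine ⟨fun hv => ?_, fun ρ => ?_⟩
    · rcases List.mem_append.1 hv with hv | hv
      · exact grid_none_not_mem rfl h1 hv
      · exact grid_none_not_mem rfl h2 hv
    · simp only [patFix, if_true]
      rw [grid_patAt_append (grid_pats_length hn h1)]
      split_ifs
      · exact grid_patFix_const h1 _
      · exact grid_patFix_const h2 _
  · obtain ⟨g, hg', he, c, hc, c', hc', k1, k2⟩ := hg.ex
    have h0 : 0 < n ^ h := pow_pos hn h
    obtain ⟨π₁, h1⟩ : ∃ π, π ∈ g.1.pats n h := by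
      rw [k1]; exact ⟨_, grid_mem_const.2 ⟨hc, h0, rfl⟩⟩
    obtain ⟨π₂, h2⟩ : ∃ π, π ∈ g.2.1.pats n h := by
      rw [k2]; exact ⟨_, grid_mem_const.2 ⟨hc', h0, rfl⟩⟩
    exact ⟨_, grid_mem_rules.2 ⟨g, hg', π₁, h1, π₂, h2, rfl⟩, he⟩

theorem der_gridRules_iff (hn : 0 < n) (τ : A) :
    Der n (gridRules n h gs) τ (fun _ => 0) ↔ GDer (n ^ h) gs τ 0 0 := by
  have h0 : 0 < n ^ h := pow_pos hn h
  refine ⟨fun H => grid_gder_of_der hn H 0 0 h0 h0 gridWorld_zero.symm, fun H => ?_⟩
  have := grid_der_of_gder hn H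
  rwa [gridWorld_zero] at this

end Crest.Agent.R290
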