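import Crest.Agent.R290.GadDupB
import Crest.Agent.R290.DefsGad

/-!
Row 290.  What Spoiler forces in a gadget system.
-/

set_option autoImplicit false

namespace Crest.Agent.R290

open Finset

namespace GSys

variable {R T : Type} [DecidableEq R] [DecidableEq T] (G : GSys R T) {β : GB R → ZMod 2}
  {BF : Finset (GX R T) → ZMod 2 → Prop}

omit [DecidableEq R] [DecidableEq T] in
theorem cols_ne_nil (B : GB R) : G.sys.cols B ≠ [] := by
  simp [sys, cols]

lemma gf_add_self (x : ZMod 2) : x + x = 0 := by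
  rw [← two_mul, show (2 : ZMod 2) = 0 from rfl, zero_mul]

lemma gf_lhs_filterMap {C X : Type} (σ : X → ZMod 2) (f : C → Option X) (l : List C) :
    lhs σ (l.filterMap f) = (l.map fun κ => (f κ).elim 0 σ).sum := by
  unfold lhs
  induction l with
  | nil => rfl
  | cons a l ih =>
    rw [List.filterMap_cons]
    cases h : f a <;> simp [h, ih]

lemma gf_lhs_add {X : Type} (σ τ : X → ZMod 2) (l : List X) :
    lhs (fun x => σ x + τ x) l = lhs σ l + lhs τ l := by
  unfold lhs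
  rw [List.sum_map_add]

lemma gf_sum_comm {C : Type} (J : Finset ℕ) (l : List C) (f : ℕ → C → ZMod 2) :
    ∑ i ∈ J, (l.map (f i)).sum = (l.map fun κ => ∑ i ∈ J, f i κ).sum := by
  induction l with
  | nil => simp
  | cons a l ih => simp [Finset.sum_add_distrib, ih]

lemma gf_sum_half (g : ℕ → ZMod 2) (m : ℕ) (h : g (m / 2) = 0) : ∑ i ∈ range m, g (i / 2) = 0 := by
  have h1 : ∀ k, ∑ i ∈ range (2 * k), g (i / 2) = 0 := by
    intro k
    induction k with
    | zero => simp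
    | succ k ih =>
      rw [show 2 * (k + 1) = 2 * k + 1 + 1 by ring, sum_range_succ, sum_range_succ, ih, zero_add,
        show (2 * k + 1) / 2 = 2 * k / 2 by omega, gf_add_self]
  rcases Nat.even_or_odd' m with ⟨k, rfl | rfl⟩
  · exact h1 k
  · rw [sum_range_succ, h1, zero_add, show 2 * k / 2 = (2 * k + 1) / 2 by omega, h]

lemma gf_mem_rowPairs {m : ℕ} {q : ℕ × ℕ} : q ∈ rowPairs m ↔ q.1 < q.2 ∧ q.2 < m := by
  obtain ⟨j, l⟩ := q
  simp only [rowPairs, List.mem_flatMap, List.mem_range, List.mem_map, Prod.mk.injEq]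
  constructor
  · rintro ⟨a, ha, b, hb, rfl, rfl⟩
    exact ⟨hb, ha⟩
  · rintro ⟨h1, h2⟩
    exact ⟨l, h2, j, h1, rfl, rfl⟩

lemma gf_rowPairs_succ (m : ℕ) :
    rowPairs (m + 1) = rowPairs m ++ (List.range m).map fun j => (j, m) := by
  simp [rowPairs, List.range_succ]

lemma gf_nodup_rowPairs (m : ℕ) : (rowPairs m).Nodup := by
  induction m with
  | zero => simp [rowPairs]
  | succ m ih =>
    rw [gf_rowPairs_succ]
    refine List.Nodup.append ih (List.nodup_range.map fun a b h => (Prod.mk.inj h).1) ?_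
    intro q hq hq'
    obtain ⟨j, -, rfl⟩ := List.mem_map.mp hq'
    exact lt_irrefl _ (gf_mem_rowPairs.mp hq).2

lemma gf_sum_rowPairs (m : ℕ) (g : ℕ × ℕ → ZMod 2) :
    ((rowPairs m).map g).sum = ∑ l ∈ range m, ∑ j ∈ range l, g (j, l) := by
  induction m with
  | zero => simp [rowPairs]
  | succ m ih =>
    rw [gf_rowPairs_succ, List.map_append, List.sum_append, ih, sum_range_succ, List.map_map]
    rfl

omit [DecidableEq R] [DecidableEq T] in
lemma gf_cols_nodup (hW : G.WF) {B : GB R} (hr : G.okR B.1) : (G.cols B).Nodup := by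
  unfold cols
  refine List.Nodup.append (List.Nodup.append ((hW.nodup _ hr).map Sum.inl_injective)
    (by simp) ?_) ((gf_nodup_rowPairs _).map fun a b h => by simpa using h) ?_
  · intro q hq hq'
    obtain ⟨f, -, rfl⟩ := List.mem_map.mp hq
    simp at hq'
  · intro q hq hq'
    obtain ⟨f, -, rfl⟩ := List.mem_map.mp hq'
    simp at hq

omit [DecidableEq R] [DecidableEq T] in
lemma gf_sum_cols (B : GB R) (g : GC T → ZMod 2) :
    ((G.cols B).map g).sum = ((G.F B.1).map fun f => g (Sum.inl f)).sum +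
      g (Sum.inr (Sum.inl false)) + g (Sum.inr (Sum.inl true)) +
      ((rowPairs G.m).map fun q => g (Sum.inr (Sum.inr q))).sum := by
  simp [cols, Function.comp_def, add_assoc]

omit [DecidableEq R] [DecidableEq T] in
lemma gf_mem_cols {B : GB R} {κ : GC T} (h : κ ∈ G.cols B) :
    (∃ f ∈ G.F B.1, κ = Sum.inl f) ∨ κ = Sum.inr (Sum.inl false) ∨ κ = Sum.inr (Sum.inl true) ∨
      ∃ j l, j < l ∧ l < G.m ∧ κ = Sum.inr (Sum.inr (j, l)) := by
  simp only [cols, List.mem_append, List.mem_map, List.mem_cons, List.not_mem_nil,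
    or_false] at h
  rcases h with (⟨f, hf, rfl⟩ | h | h) | ⟨q, hq, rfl⟩
  · exact Or.inl ⟨f, hf, rfl⟩
  · exact Or.inr (Or.inl h)
  · exact Or.inr (Or.inr (Or.inl h))
  · exact Or.inr (Or.inr (Or.inr ⟨q.1, q.2, (gf_mem_rowPairs.mp hq).1,
      (gf_mem_rowPairs.mp hq).2, rfl⟩))

/-- The blocks of the world `d`. -/
def gf_wB (r : R) (d : ℕ → ℕ) (i : ℕ) : GB R :=
  (r, i, if G.wild r (i / 2) then d (i / 2) else 0)

/-- The variables of the columns in the world `d`. -/
def gf_A (r : R) (d : ℕ → ℕ) (κ : GC T) : Finset (GX R T) :=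
  κ.elim (fun f => G.ports f (G.wv r f d)) fun κ' =>
    κ'.elim (fun e => if e then ∅ else (G.fgn r).elim ∅ fun y => {Sum.inl y}) fun _ => ∅

omit [DecidableEq R] [DecidableEq T] in
lemma gf_wB_ok {r : R} (hr : G.okR r) {d : ℕ → ℕ} (hd : ∀ ρ, d ρ < G.n) :
    ∀ i ∈ range G.m, G.sys.ok (G.gf_wB r d i) ∧
      G.sys.cols (G.gf_wB r d i) = G.cols (r, 0, 0) := by
  intro i hi
  refine ⟨⟨hr, mem_range.mp hi, ?_⟩, rfl⟩
  simp only [gf_wB]
  split_ifs with h
  · exact hd _
  · rfl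

omit [DecidableEq R] [DecidableEq T] in
lemma gf_val_wB (r : R) (d : ℕ → ℕ) (f : T) (ρ : ℕ) :
    G.val r f ρ (if G.wild r ρ then d ρ else 0) = G.wv r f d ρ := by
  simp only [wv, val]
  split_ifs <;> rfl

lemma gf_sum_ports (f : T) (a : ℕ → ℕ) (σ : GX R T → ZMod 2) :
    ∑ x ∈ G.ports f a, σ x = ∑ i ∈ range G.m, σ (Sum.inl (f, i, a (i / 2))) := by
  unfold ports
  rw [sum_image]
  intro i _ j _ h
  simpa using (by simpa using h : i = j ∧ _).1

lemma gf_col (hW : G.WF) {r : R} (hr : G.okR r) (d : ℕ → ℕ) :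
    ∀ κ ∈ G.cols (r, 0, 0), G.sys.Col (range G.m) (G.gf_wB r d) κ (G.gf_A r d κ) := by
  intro κ hκ
  rcases G.gf_mem_cols hκ with ⟨f, -, rfl⟩ | rfl | rfl | ⟨j, l, hjl, hl, rfl⟩
  · refine ⟨fun x hx => ?_, fun σ => ?_⟩
    · obtain ⟨i, hi, rfl⟩ := mem_image.mp hx
      exact ⟨i, hi, by simp [sys, cv, gf_wB, gf_val_wB]⟩
    · simp [gf_A, gf_sum_ports, sys, cv, gf_wB, gf_val_wB]
  · cases hy : G.fgn r with
    | none => exact ⟨by simp [gf_A, hy], fun σ => by simp [gf_A, hy, sys, cv, gf_wB]⟩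
    | some y =>
      have h1 := (hW.fgn r hr y hy).1
      refine ⟨fun x hx => ⟨y.2.1, mem_range.mpr h1, ?_⟩, fun σ => ?_⟩
      · simp only [gf_A, hy, Sum.elim_inr, Sum.elim_inl, Bool.false_eq_true, if_false,
          Option.elim_some, mem_singleton] at hx
        simp [sys, cv, gf_wB, hy, hx]
      · rw [sum_eq_single y.2.1]
        · simp [gf_A, hy, sys, cv, gf_wB]
        · intro i _ hi
          simp [hy, sys, cv, gf_wB, hi]
        · intro h
          exact absurd (mem_range.mpr h1) h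
  · refine ⟨by simp [gf_A], fun σ => ?_⟩
    have := gf_sum_half (fun ρ => if G.wild r ρ then σ (Sum.inr (Sum.inl (r, ρ, d ρ))) else 0)
      G.m (by simp [(hW.out r hr _ le_rfl).1])
    simp only [gf_A, Sum.elim_inr, Sum.elim_inl, if_true, sum_empty]
    refine Eq.trans (sum_congr rfl fun i _ => ?_) this
    simp only [sys, cv, gf_wB, Sum.elim_inr, Sum.elim_inl, if_true]
    split_ifs <;> rfl
  · refine ⟨by simp [gf_A], fun σ => ?_⟩
    simp only [gf_A, Sum.elim_inr, sum_empty]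
    rw [sum_eq_add_of_mem j l (mem_range.mpr (hjl.trans hl)) (mem_range.mpr hl) hjl.ne]
    · simp [sys, cv, gf_wB, gf_add_self]
    · intro i _ hi
      simp [sys, cv, gf_wB, hi.1, hi.2]

lemma gf_bf_image (hF : G.sys.Forcing (G.m + 1) β BF) (σ : GX R T → ZMod 2) (p : ℕ → GX R T)
    (J : Finset ℕ) (hp : Set.InjOn p J) (h : ∀ i ∈ J, BF {p i} (σ (p i))) :
    BF (J.image p) (∑ x ∈ J.image p, σ x) := by
  rw [sum_image hp]
  induction J using Finset.induction_on with
  | empty => simpa using hF.empty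
  | insert a J ha ih =>
    rw [image_insert, sum_insert ha, insert_eq]
    refine hF.union _ _ _ _ (h a (mem_insert_self _ _))
      (ih (hp.mono (by simp)) fun i hi => h i (mem_insert_of_mem hi)) ?_
    rw [disjoint_singleton_left]
    intro hm
    obtain ⟨i, hi, hia⟩ := mem_image.mp hm
    have := hp (by simp [hi]) (by simp) hia
    exact ha (this ▸ hi)

lemma gf_check (hF : G.sys.Forcing (G.m + 1) β BF) (σ : GX R T → ZMod 2) (J : Finset ℕ)
    (B : ℕ → GB R) (cl : List (GC T)) (A : GC T → Finset (GX R T)) (hJ : J.card < G.m + 1)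
    (hB : ∀ i ∈ J, G.sys.ok (B i) ∧ G.sys.cols (B i) = cl)
    (h : ∀ κ ∈ cl, G.sys.Col J B κ (A κ) ∧ BF (A κ) (∑ x ∈ A κ, σ x)) :
    ∑ i ∈ J, (β (B i) + lhs σ (G.sys.eqn (B i))) = 0 := by
  have h1 := hF.check J B cl A (fun κ => ∑ x ∈ A κ, σ x) hJ hB h
  have h2 : ∑ i ∈ J, lhs σ (G.sys.eqn (B i)) = (cl.map fun κ => ∑ x ∈ A κ, σ x).sum := by
    rw [sum_congr rfl fun i hi => by rw [BSys.eqn, gf_lhs_filterMap, (hB i hi).2], gf_sum_comm]
    congr 1
    exact List.map_congr_left fun κ hκ => (h κ hκ).1.2 σ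
  rw [sum_add_distrib, h1, h2, gf_add_self]

/-- In a gadget without foreign port, all types but one forced force the last one. -/
theorem force_type (hW : G.WF) (hF : G.sys.Forcing (G.m + 1) β BF) {r : R} (hr : G.okR r)
    (hfg : G.fgn r = none) {d : ℕ → ℕ} (hd : ∀ ρ, d ρ < G.n) {f₀ : T} (h₀ : f₀ ∈ G.F r)
    (h : ∀ f ∈ G.F r, f ≠ f₀ → ∃ ζ, BF (G.ports f (G.wv r f d)) ζ) :
    ∃ ζ, BF (G.ports f₀ (G.wv r f₀ d)) ζ := by
  refine hF.solve (range G.m) (G.gf_wB r d) (G.cols (r, 0, 0)) (G.gf_A r d) (Sum.inl f₀)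
    (by simp) (G.gf_wB_ok hr hd) (G.gf_cols_nodup hW hr) (by simp [cols, h₀])
    (G.gf_col hW hr d) fun κ hκ hne => ?_
  rcases G.gf_mem_cols hκ with ⟨f, hf, rfl⟩ | rfl | rfl | ⟨j, l, -, -, rfl⟩
  · exact h f hf fun e => hne (by rw [e])
  · exact ⟨0, by simpa [gf_A, hfg] using hF.empty⟩
  · exact ⟨0, by simpa [gf_A] using hF.empty⟩
  · exact ⟨0, by simpa [gf_A] using hF.empty⟩

/-- All types forced force the foreign port. -/
theorem force_fgn (hW : G.WF) (hF : G.sys.Forcing (G.m + 1) β BF) {r : R} (hr : G.okR r)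
    {y : T × ℕ × ℕ} (hy : G.fgn r = some y)
    (h : ∀ f ∈ G.F r, ∃ ζ, BF (G.ports f (G.fix r f)) ζ) : ∃ ζ, BF {Sum.inl y} ζ := by
  have hw := (hW.fgn r hr y hy).2.2.2
  have := hF.solve (range G.m) (G.gf_wB r fun _ => 0) (G.cols (r, 0, 0)) (G.gf_A r fun _ => 0)
    (Sum.inr (Sum.inl false)) (by simp) (G.gf_wB_ok hr fun _ => hW.npos)
    (G.gf_cols_nodup hW hr) (by simp [cols]) (G.gf_col hW hr _) fun κ hκ hne => ?_
  · simpa [gf_A, hy] using this
  rcases G.gf_mem_cols hκ with ⟨f, hf, rfl⟩ | rfl | rfl | ⟨j, l, -, -, rfl⟩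
  · have h1 : G.wv r f (fun _ => 0) = G.fix r f := by
      funext ρ
      simp [wv, val, hw]
    simpa [gf_A, h1] using h f hf
  · exact absurd rfl hne
  · exact ⟨0, by simpa [gf_A] using hF.empty⟩
  · exact ⟨0, by simpa [gf_A] using hF.empty⟩

/-- Forced port values extend to a global solution. -/
theorem sat_of_forced (hW : G.WF) (hF : G.sys.Forcing (G.m + 1) β BF) (ζ : T × ℕ × ℕ → ZMod 2)
    (h₁ : ∀ r, G.okR r → ∀ f ∈ G.F r,
      (∀ i < G.m, ∀ s < G.n, (G.dummy i → s = 0) → BF {Sum.inl (f, i, s)} (ζ (f, i, s))) ∨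
      ((∀ ρ, G.wild r ρ = false) ∧
        BF (G.ports f (G.fix r f)) (∑ i ∈ range G.m, ζ (f, i, G.fix r f (i / 2)))))
    (h₂ : ∀ r, G.okR r → ∀ y, G.fgn r = some y → BF {Sum.inl y} (ζ y)) :
    Sat G.sys.ok G.sys.eqn β := by
  let σ₀ : GX R T → ZMod 2 := Sum.elim ζ fun _ => 0
  let γ : R → ℕ → ℕ → ZMod 2 := fun r i d => β (r, i, d) + lhs σ₀ (G.sys.eqn (r, i, d))
  have hb : ∀ r, G.okR r → ∑ i ∈ range G.m, γ r i 0 = 0 := by
    intro r hr
    have := G.gf_check hF σ₀ (range G.m) (G.gf_wB r fun _ => 0) (G.cols (r, 0, 0))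
      (G.gf_A r fun _ => 0) (by simp) (G.gf_wB_ok hr fun _ => hW.npos)
      fun κ hκ => ⟨G.gf_col hW hr _ κ hκ, ?_⟩
    · simpa [gf_wB] using this
    rcases G.gf_mem_cols hκ with ⟨f, hf, rfl⟩ | rfl | rfl | ⟨j, l, -, -, rfl⟩
    · rcases h₁ r hr f hf with h | ⟨hw, h⟩
      · refine G.gf_bf_image hF σ₀ (fun i => Sum.inl (f, i, G.wv r f (fun _ => 0) (i / 2))) _
          (fun i _ j _ h => by simpa using (by simpa using h : i = j ∧ _).1) fun i hi => ?_
        refine h i (mem_range.mp hi) _ ?_ fun hd => ?_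
        · simp only [wv, val]
          split_ifs
          · exact hW.npos
          · exact hW.fix_lt r hr f hf _
        · simp [wv, val, (hW.out r hr _ hd).2]
      · have h1 : G.wv r f (fun _ => 0) = G.fix r f := by
          funext ρ
          simp [wv, val, hw]
        simpa [gf_A, h1, gf_sum_ports, σ₀] using h
    · cases hy : G.fgn r with
      | none => simpa [gf_A, hy] using hF.empty
      | some y => simpa [gf_A, hy, σ₀] using h₂ r hr y hy
    · simpa [gf_A] using hF.empty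
    · simpa [gf_A] using hF.empty
  have ha : ∀ r, G.okR r → ∀ ρ, G.wild r ρ = true → ∀ d < G.n, d ≠ 0 →
      γ r (2 * ρ) d + γ r (2 * ρ + 1) d + γ r (2 * ρ) 0 + γ r (2 * ρ + 1) 0 = 0 := by
    intro r hr ρ hρ d hd hd0
    have hρm : ρ < G.m / 2 := by
      by_contra hh
      simp [(hW.out r hr ρ (not_lt.mp hh)).1] at hρ
    have hfg : G.fgn r = none := by
      cases hy : G.fgn r with
      | none => rfl
      | some y => simp [(hW.fgn r hr y hy).2.2.2 ρ] at hρ
    have hdiv : ∀ k, (2 * ρ + k % 2) / 2 = ρ := fun k => by omega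
    have hdiv0 : 2 * ρ / 2 = ρ := by omega
    have hdiv1 : (2 * ρ + 1) / 2 = ρ := by omega
    have hinj : ∀ f : T, Set.InjOn (fun k => (Sum.inl (f, 2 * ρ + k % 2, if k < 2 then d else 0) :
        GX R T)) (range 4 : Finset ℕ) := by
      intro f k hk k' hk' h
      simp only [coe_range, Set.mem_Iio] at hk hk'
      simp only [Sum.inl.injEq, Prod.mk.injEq, true_and] at h
      obtain ⟨h1, h2⟩ := h
      split_ifs at h2 <;> omega
    have := G.gf_check hF σ₀ (range 4) (fun k => (r, 2 * ρ + k % 2, if k < 2 then d else 0))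
      (G.cols (r, 0, 0))
      (fun κ => κ.elim (fun f => (range 4).image fun k =>
        Sum.inl (f, 2 * ρ + k % 2, if k < 2 then d else 0)) fun _ => ∅)
      (by have := hW.m4; simp; omega) (fun k _ => ⟨⟨hr, by simp only; omega, ?_⟩, rfl⟩)
      fun κ hκ => ?_
    · simpa [sum_range_succ] using this
    · simp only [hdiv, hρ, if_true]
      split_ifs
      · exact hd
      · exact hW.npos
    rcases G.gf_mem_cols hκ with ⟨f, hf, rfl⟩ | rfl | rfl | ⟨j, l, -, -, rfl⟩
    · refine ⟨⟨fun x hx => ?_, fun σ => ?_⟩, ?_⟩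
      · obtain ⟨k, hk, rfl⟩ := mem_image.mp hx
        exact ⟨k, hk, by simp [sys, cv, val, hdiv, hρ]⟩
      · simp only [Sum.elim_inl]
        rw [sum_image (hinj f)]
        simp [sys, cv, val, hdiv, hρ]
      · rcases h₁ r hr f hf with h | ⟨hw, -⟩
        · refine G.gf_bf_image hF σ₀ _ _ (hinj f) fun k _ => h _ (by omega) _ ?_ fun hd => ?_
          · split_ifs
            · exact hd
            · exact hW.npos
          · simp only [dummy, hdiv] at hd
            omega
        · simp [hw ρ] at hρ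
    · exact ⟨⟨by simp, fun σ => by simp [sys, cv, hfg]⟩, by simpa using hF.empty⟩
    · refine ⟨⟨by simp, fun σ => ?_⟩, by simpa using hF.empty⟩
      simp [sys, cv, hρ, sum_range_succ, hdiv0, hdiv1, gf_add_self]
    · refine ⟨⟨by simp, fun σ => ?_⟩, by simpa using hF.empty⟩
      simp only [sys, cv, sum_range_succ, sum_range_zero, Sum.elim_inr, sum_empty]
      exact (add_assoc _ _ _).trans (by rw [zero_add]; exact gf_add_self _)
  let σ₁ : GX R T → ZMod 2 := Sum.elim (fun _ => 0) (Sum.elim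
    (fun e => γ e.1 (2 * e.2.1) e.2.2 + γ e.1 (2 * e.2.1) 0)
    fun c => if c.2.1 = 0 then γ c.1 c.2.2 0 else 0)
  refine ⟨fun x => σ₀ x + σ₁ x, ?_⟩
  rintro ⟨r, i, d⟩ ⟨hr, hi, hd⟩
  simp only at hr hi hd
  have hp : ∑ l ∈ range G.m, ∑ j ∈ range l,
      (if i = j ∨ i = l then (if j = 0 then γ r l 0 else 0) else 0) = γ r i 0 := by
    have h1 : ∀ l, ∑ j ∈ range l, (if i = j ∨ i = l then (if j = 0 then γ r l 0 else 0) else 0)
        = if l ≠ 0 ∧ (i = 0 ∨ i = l) then γ r l 0 else 0 := by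
      intro l
      rcases Nat.eq_zero_or_pos l with rfl | hl
      · simp
      · rw [sum_eq_single 0]
        · simp [hl.ne']
        · intro j _ hj
          simp [hj]
        · intro h
          exact absurd (mem_range.mpr hl) h
    simp only [h1]
    rcases Nat.eq_zero_or_pos i with rfl | hi0
    · have h2 := hb r hr
      obtain ⟨m', hm'⟩ : ∃ m', G.m = m' + 1 := ⟨G.m - 1, by omega⟩
      rw [hm', sum_range_succ'] at h2 ⊢
      simp only [ne_eq, Nat.add_eq_zero_iff, one_ne_zero, and_false, not_false_eq_true, true_or,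
        and_self, if_true, not_true_eq_false, false_and, if_false, add_zero]
      rw [eq_neg_of_add_eq_zero_left h2]
      exact neg_eq_of_add_eq_zero_left (gf_add_self _)
    · rw [sum_eq_single i]
      · simp [hi0.ne']
      · intro l _ hl
        simp [hi0.ne', Ne.symm hl]
      · intro h
        exact absurd (mem_range.mpr hi) h
  have h1 : lhs σ₁ (G.sys.eqn (r, i, d)) = (if G.wild r (i / 2) then
      γ r (2 * (i / 2)) d + γ r (2 * (i / 2)) 0 else 0) + γ r i 0 := by
    rw [BSys.eqn, gf_lhs_filterMap]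
    change ((G.cols (r, i, d)).map fun κ => (G.cv (r, i, d) κ).elim 0 σ₁).sum = _
    rw [gf_sum_cols, gf_sum_rowPairs, ← hp]
    congr 1
    · have h2 : (G.cv (r, i, d) (Sum.inr (Sum.inl false))).elim 0 σ₁ = 0 := by
        cases hy : G.fgn r with
        | none => simp [cv, hy]
        | some y => by_cases h : i = y.2.1 <;> simp [cv, hy, h, σ₁]
      rw [h2]
      by_cases h : G.wild r (i / 2) <;> simp [cv, h, σ₁]
    · refine sum_congr rfl fun l _ => sum_congr rfl fun j _ => ?_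
      by_cases h : i = j ∨ i = l <;> simp [cv, h, σ₁]
  have h2 : γ r i d + lhs σ₁ (G.sys.eqn (r, i, d)) = 0 := by
    rw [h1]
    split_ifs at hd ⊢ with hw
    · rcases Nat.even_or_odd' i with ⟨ρ, rfl | rfl⟩
      · rw [show 2 * ρ / 2 = ρ by omega, add_assoc (γ r (2 * ρ) d) (γ r (2 * ρ) 0), gf_add_self,
          add_zero, gf_add_self]
      · rw [show (2 * ρ + 1) / 2 = ρ by omega] at hw ⊢
        by_cases hd0 : d = 0
        · rw [hd0, gf_add_self, zero_add, gf_add_self]
        · rw [← ha r hr ρ hw d hd hd0]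
          ring
    · rw [hd, zero_add, gf_add_self]
  rw [gf_lhs_add]
  have h3 : β (r, i, d) + (lhs σ₀ (G.sys.eqn (r, i, d)) + lhs σ₁ (G.sys.eqn (r, i, d))) = 0 := by
    rw [← add_assoc]
    exact h2
  rw [eq_neg_of_add_eq_zero_right h3]
  exact neg_eq_of_add_eq_zero_left (gf_add_self _)

omit [DecidableEq R] [DecidableEq T] in
/-- The sum of the equations of all rows in one world. -/
theorem sum_of_sat (hW : G.WF) {σ : GX R T → ZMod 2}
    (hσ : ∀ B, G.sys.ok B → lhs σ (G.sys.eqn B) = G.rhs B) {r : R} (hr : G.okR r) {d : ℕ → ℕ}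
    (hd : ∀ ρ, d ρ < G.n) :
    ((G.F r).map fun f => ∑ i ∈ range G.m, σ (Sum.inl (f, i, G.wv r f d (i / 2)))).sum +
      (G.fgn r).elim 0 (fun y => σ (Sum.inl y)) = G.b r := by
  classical
  have hB := G.gf_wB_ok hr hd
  have h1 : ∑ i ∈ range G.m, lhs σ (G.sys.eqn (G.gf_wB r d i)) = G.b r := by
    rw [sum_congr rfl fun i hi => hσ _ (hB i hi).1, sum_eq_single 0]
    · simp [rhs, gf_wB]
    · intro i _ hi
      simp [rhs, gf_wB, hi]
    · intro h
      exact absurd (mem_range.mpr (by have := hW.m4; omega)) h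
  have h2 : ∑ i ∈ range G.m, lhs σ (G.sys.eqn (G.gf_wB r d i))
      = ((G.cols (r, 0, 0)).map fun κ => ∑ x ∈ G.gf_A r d κ, σ x).sum := by
    rw [sum_congr rfl fun i hi => by rw [BSys.eqn, gf_lhs_filterMap, (hB i hi).2], gf_sum_comm]
    congr 1
    exact List.map_congr_left fun κ hκ => (G.gf_col hW hr d κ hκ).2 σ
  rw [← h1, h2, gf_sum_cols]
  cases hy : G.fgn r <;> simp [gf_A, gf_sum_ports, hy]

end GSys

end Crest.Agent.R290
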