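import Crest.Agent.R290.HornDup
import Crest.Agent.R290.GadForce

/-!
Row 290.  The standard right-hand side is never satisfiable; when the goal is derivable every
right-hand side with a forcing relation is satisfiable.
-/

set_option autoImplicit false

namespace Crest.Agent.R290

open Finset

variable {A : Type} [DecidableEq A] {m n : ℕ} {rs : List (Rule A)} {acc : A}

omit [DecidableEq A] in
theorem hs_mem_slots {k j : ℕ} {γ : Bool} :
    (some (j, γ) : Slot) ∈ slots rs acc k ↔ j < (ruleAt rs acc k).2.2.length := by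
  cases γ <;> simp [slots]

omit [DecidableEq A] in
theorem hs_none_mem_slots {k : ℕ} : (none : Slot) ∈ slots rs acc k := by simp [slots]

omit [DecidableEq A] in
theorem hs_mem_privs {p : Priv} :
    p ∈ privs rs acc ↔ p.1 < rs.length ∧ p.2.2 ∈ slots rs acc p.1 := by
  obtain ⟨k, β, s⟩ := p
  simp only [privs, List.mem_flatMap, List.mem_range, List.mem_map, Prod.mk.injEq]
  constructor
  · rintro ⟨k', hk, β', -, s', hs, rfl, rfl, rfl⟩
    exact ⟨hk, hs⟩
  · rintro ⟨hk, hs⟩
    exact ⟨k, hk, β, by cases β <;> simp, s, hs, rfl, rfl, rfl⟩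

theorem hs_ok_rule {q : ℕ × Bool} : (hornG m n rs acc).okR (Sum.inl q) ↔ q.1 < rs.length := by
  obtain ⟨k, β⟩ := q
  cases β <;> simp [hornG, gads]

theorem hs_ok_copy {p : Priv} :
    (hornG m n rs acc).okR (Sum.inr (Sum.inl p)) ↔ p ∈ privs rs acc := by
  obtain ⟨k, β, s⟩ := p
  cases β <;> simp [hornG, gads]

theorem hs_ok_test {o : Test A} :
    (hornG m n rs acc).okR (Sum.inr (Sum.inr (Sum.inl o))) ↔ o ∈ tests m n rs acc := by
  simp [hornG, gads]

theorem hs_ok_point {q : Test A × Bool} :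
    (hornG m n rs acc).okR (Sum.inr (Sum.inr (Sum.inr q))) ↔ q.1 ∈ tests m n rs acc := by
  obtain ⟨o, β⟩ := q
  cases β <;> simp [hornG, gads]

theorem hs_none_mem_tests : (none : Test A) ∈ tests m n rs acc := by simp [tests]

theorem hs_mem_tests {f : T0 A} {i s : ℕ} : (some (f, i, s) : Test A) ∈ tests m n rs acc ↔
    f ∈ tested rs acc ∧ i < m ∧ s < (if m / 2 ≤ i / 2 then 1 else n) := by
  simp only [tests, List.mem_cons, reduceCtorEq, List.mem_flatMap, List.mem_range, List.mem_map,
    Option.some.injEq, Prod.mk.injEq, false_or]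
  constructor
  · rintro ⟨f', hf, i', hi, s', hs, rfl, rfl, rfl⟩
    exact ⟨hf, hi, hs⟩
  · rintro ⟨hf, hi, hs⟩
    exact ⟨f, hf, i, hi, s, hs, rfl, rfl, rfl⟩

theorem hs_inr_mem_tested {p : Priv} : (Sum.inr p : T0 A) ∈ tested rs acc ↔ p ∈ privs rs acc := by
  simp [tested]

theorem hs_inl_mem_tested {q : A × Bool} : (Sum.inl q : T0 A) ∈ tested rs acc ↔
    (∃ p ∈ privs rs acc, master rs acc p = q) ∧ q.1 ≠ acc := by
  simp only [tested, List.mem_append, List.mem_map, reduceCtorEq, and_false, exists_false,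
    List.mem_filter, decide_eq_true_eq, Sum.inl.injEq, exists_eq_right, false_or]

theorem hs_wv (r : HR A) (f : HT A) (d : ℕ → ℕ) :
    (hornG m n rs acc).wv r f d = patInst (hPat rs acc r) (hSide r f) d := rfl

theorem hs_patFix_nil (b : Bool) : patFix [] b = fun _ => 0 := by
  funext ρ
  cases b <;> simp [patFix, patAt]

theorem hs_patInst_nil (b : Bool) (d : ℕ → ℕ) : patInst [] b d = fun _ => 0 := by
  funext ρ
  simp [patInst, patAt, hs_patFix_nil]

omit [DecidableEq A] in
theorem hs_exists_ruleAt {r : Rule A} (hr : r ∈ rs) : ∃ k < rs.length, ruleAt rs acc k = r := by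
  obtain ⟨k, hk, rfl⟩ := List.getElem_of_mem hr
  exact ⟨k, hk, by simp [ruleAt, hk]⟩

omit [DecidableEq A] in
theorem hs_ruleAt_mem {k : ℕ} (hk : k < rs.length) : ruleAt rs acc k ∈ rs := by
  simp [ruleAt, hk]

omit [DecidableEq A] in
theorem hs_getD_mem {l : List A} {j : ℕ} (hj : j < l.length) : l.getD j acc ∈ l := by
  simp [hj]

theorem hs_patAt_isNone {π : Pat} (h : none ∉ π) (ρ : ℕ) : (patAt π ρ).isNone = false := by
  unfold patAt
  by_cases hρ : ρ < π.length
  · have h1 : π.getD ρ (some (0, 0)) ∈ π := hs_getD_mem hρ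
    cases h2 : π.getD ρ (some (0, 0)) with
    | none => exact absurd (h2 ▸ h1) h
    | some v => rfl
  · rw [List.getD_eq_default _ _ (not_lt.mp hρ)]
    rfl

theorem hs_zmod {a b : ZMod 2} (h : a + b = 0) : a = b := by
  revert a b
  decide

theorem hornG_not_sat (h : HornWF m n rs acc) :
    ¬ Sat (hornG m n rs acc).sys.ok (hornG m n rs acc).sys.eqn (hornG m n rs acc).rhs := by
  rintro ⟨σ, hσ⟩
  have hW := hornG_wf h
  obtain ⟨r, hr, hacc⟩ := h.ex
  obtain ⟨k, hk, rfl⟩ := hs_exists_ruleAt (acc := acc) hr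
  let P : HT A → (ℕ → ℕ) → ZMod 2 := fun f a => ∑ i ∈ range m, σ (Sum.inl (f, i, a (i / 2)))
  have hsum : ∀ r, (hornG m n rs acc).okR r →
      ((hF rs acc r).map fun f => P f (patInst (hPat rs acc r) (hSide r f) fun _ => 0)).sum +
        (hFgn r).elim 0 (fun y => σ (Sum.inl y)) = hB r :=
    fun r hr => GSys.sum_of_sat _ hW hσ hr (d := fun _ => 0) fun _ => h.npos
  have hcopy : ∀ p ∈ privs rs acc,
      P (Sum.inl (Sum.inr p)) (patInst (ruleAt rs acc p.1).1 p.2.2.isNone fun _ => 0) =
      P (Sum.inl (Sum.inl (master rs acc p)))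
        (patInst (ruleAt rs acc p.1).1 p.2.2.isNone fun _ => 0) := by
    intro p hp
    have := hsum _ (hs_ok_copy.mpr hp)
    simp only [hF, hPat, hSide, hFgn, hB, Sum.elim_inr, Sum.elim_inl, List.map_cons, List.map_nil,
      List.sum_cons, List.sum_nil, add_zero, Option.elim_none] at this
    exact hs_zmod this
  have hrule : ∀ β : Bool, ((slots rs acc k).map fun s =>
      P (Sum.inl (Sum.inl (master rs acc (k, β, s))))
        (patInst (ruleAt rs acc k).1 s.isNone fun _ => 0)).sum = 0 := by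
    intro β
    have := hsum _ (hs_ok_rule (q := (k, β)).mpr hk)
    simp only [hF, hPat, hSide, hFgn, hB, Sum.elim_inr, Sum.elim_inl, List.map_map,
      add_zero, Option.elim_none, Function.comp_def] at this
    rw [← this]
    congr 1
    exact List.map_congr_left fun s hs => (hcopy (k, β, s) (hs_mem_privs.mpr ⟨hk, hs⟩)).symm
  have hw : patInst (ruleAt rs acc k).1 true (fun _ => 0) = fun _ => 0 := by
    funext ρ
    simp [patInst, (h.concl _ hr hacc).2 ρ]
  have h1 : P (Sum.inl (Sum.inl (acc, false))) (fun _ => 0)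
      = P (Sum.inl (Sum.inl (acc, true))) (fun _ => 0) := by
    have h2 := hrule false
    have h3 := hrule true
    simp only [slots, List.map_cons, List.sum_cons, List.map_flatMap, List.map_nil, master,
      Option.elim_none, Option.elim_some, Option.isNone_none, Option.isNone_some, hw, hacc]
      at h2 h3
    exact add_right_cancel (h2.trans h3.symm)
  have hpt : ∀ γ : Bool, P (Sum.inr (none, γ)) (fun _ => 0)
      = P (Sum.inl (Sum.inl (acc, γ))) (fun _ => 0) := by
    intro γ
    have := hsum _ (hs_ok_point (q := (none, γ)).mpr hs_none_mem_tests)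
    simp only [hF, hPat, hFgn, hB, Sum.elim_inr, List.map_cons, List.map_nil,
      List.sum_cons, List.sum_nil, add_zero, Option.elim_none, hs_patInst_nil] at this
    exact hs_zmod this
  have h2 := hsum _ (hs_ok_test.mpr hs_none_mem_tests)
  simp only [hF, hPat, hFgn, hB, Sum.elim_inr, Sum.elim_inl, List.map_cons, List.map_nil,
    List.sum_cons, List.sum_nil, add_zero, Option.elim_none, hs_patInst_nil, Option.map_none,
    Option.isNone_none, if_true, hpt, h1] at h2
  rw [CharTwo.add_self_eq_zero] at h2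
  exact zero_ne_one h2

theorem hs_force_master (h : HornWF m n rs acc) {β : GB (HR A) → ZMod 2}
    {BF : Finset (GX (HR A) (HT A)) → ZMod 2 → Prop}
    (hF : (hornG m n rs acc).sys.Forcing (m + 1) β BF) {τ : A} {a : ℕ → ℕ}
    (hd : Der n rs τ a) (γ : Bool) :
    ∃ ζ, BF ((hornG m n rs acc).ports (Sum.inl (Sum.inl (τ, γ))) a) ζ := by
  have hW := hornG_wf h
  induction hd generalizing γ with
  | rule r hr d hd _ ih =>
    obtain ⟨k, hk, rfl⟩ := hs_exists_ruleAt (acc := acc) hr
    have h1 : ∀ j γ', j < (ruleAt rs acc k).2.2.length →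
        ∃ ζ, BF ((hornG m n rs acc).ports (Sum.inl (Sum.inr (k, γ, some (j, γ'))))
          (patInst (ruleAt rs acc k).1 false d)) ζ := by
      intro j γ' hj
      refine GSys.force_type _ hW hF (r := Sum.inr (Sum.inl (k, γ, some (j, γ'))))
        (hs_ok_copy.mpr (hs_mem_privs.mpr ⟨hk, hs_mem_slots.mpr hj⟩)) rfl hd
        List.mem_cons_self fun f hf hne => ?_
      rcases List.mem_pair.mp hf with rfl | rfl
      · exact absurd rfl hne
      · exact ih _ (hs_getD_mem hj) γ'
    have h2 : ∃ ζ, BF ((hornG m n rs acc).ports (Sum.inl (Sum.inr (k, γ, none)))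
        (patInst (ruleAt rs acc k).1 true d)) ζ := by
      refine GSys.force_type _ hW hF (r := Sum.inl (k, γ)) (hs_ok_rule.mpr hk) rfl hd
        (List.mem_map.mpr ⟨none, hs_none_mem_slots, rfl⟩) fun f hf hne => ?_
      obtain ⟨s, hs, rfl⟩ := List.mem_map.mp hf
      rcases s with _ | ⟨j, γ'⟩
      · exact absurd rfl hne
      · exact h1 j γ' (hs_mem_slots.mp hs)
    refine GSys.force_type _ hW hF (r := Sum.inr (Sum.inl (k, γ, none)))
      (hs_ok_copy.mpr (hs_mem_privs.mpr ⟨hk, hs_none_mem_slots⟩)) rfl hd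
      (List.mem_pair.mpr (Or.inr rfl)) fun f hf hne => ?_
    rcases List.mem_pair.mp hf with rfl | rfl
    · exact h2
    · exact absurd rfl hne

theorem hornG_sat_of_der (h : HornWF m n rs acc) (hd : Der n rs acc fun _ => 0)
    {β : GB (HR A) → ZMod 2} {BF : Finset (GX (HR A) (HT A)) → ZMod 2 → Prop}
    (hF : (hornG m n rs acc).sys.Forcing (m + 1) β BF) :
    Sat (hornG m n rs acc).sys.ok (hornG m n rs acc).sys.eqn β := by
  classical
  have hW := hornG_wf h
  have hacc := hs_force_master h hF hd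
  have hpt : ∀ q : Test A × Bool, q.1 ∈ tests m n rs acc →
      ∃ ζ, BF ((hornG m n rs acc).ports (Sum.inr q) fun _ => 0) ζ := by
    intro q hq
    have := GSys.force_type _ hW hF (r := Sum.inr (Sum.inr (Sum.inr q))) (hs_ok_point.mpr hq) rfl
      (d := fun _ => 0) (fun _ => h.npos) (f₀ := Sum.inr q) List.mem_cons_self fun f hf hne => by
        rcases List.mem_pair.mp hf with rfl | rfl
        · exact absurd rfl hne
        · rw [hs_wv]
          simp only [hPat, Sum.elim_inr, hs_patInst_nil]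
          exact hacc _
    rw [hs_wv] at this
    simpa only [hPat, Sum.elim_inr, hs_patInst_nil] using this
  have hport : ∀ y : T0 A × ℕ × ℕ, some y ∈ tests m n rs acc →
      ∃ ζ, BF {Sum.inl (Sum.inl y.1, y.2)} ζ := by
    intro y hy
    refine GSys.force_fgn _ hW hF (r := Sum.inr (Sum.inr (Sum.inl (some y))))
      (hs_ok_test.mpr hy) rfl fun f hf => ?_
    have h1 : (hornG m n rs acc).fix (Sum.inr (Sum.inr (Sum.inl (some y)))) f = fun _ => 0 :=
      hs_patFix_nil true
    rw [h1]
    rcases List.mem_pair.mp hf with rfl | rfl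
    · exact hpt _ hy
    · exact hpt _ hy
  let pt : HT A → Prop := fun f => (∃ q, f = Sum.inr q) ∨ ∃ γ, f = Sum.inl (Sum.inl (acc, γ))
  let ch : Finset (GX (HR A) (HT A)) → ZMod 2 := fun X =>
    if hX : ∃ ζ, BF X ζ then hX.choose else 0
  have hch : ∀ X, (∃ ζ, BF X ζ) → BF X (ch X) := by
    intro X hX
    simp only [ch, dif_pos hX]
    exact hX.choose_spec
  let ζ : HT A × ℕ × ℕ → ZMod 2 := fun y =>
    if pt y.1 then (if y.2.1 = 0 then ch ((hornG m n rs acc).ports y.1 fun _ => 0) else 0)
    else ch {Sum.inl y}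
  have hnpt : ∀ g ∈ tested rs acc, ¬ pt (Sum.inl g) := by
    rintro g hg (⟨q, hq⟩ | ⟨γ, hγ⟩)
    · cases hq
    · cases hγ
      exact (hs_inl_mem_tested.mp hg).2 rfl
  have hleft : ∀ g ∈ tested rs acc, ∀ i < (hornG m n rs acc).m, ∀ s < (hornG m n rs acc).n,
      ((hornG m n rs acc).dummy i → s = 0) →
      BF {Sum.inl (Sum.inl g, i, s)} (ζ (Sum.inl g, i, s)) := by
    intro g hg i hi s hs hdum
    simp only [ζ, if_neg (hnpt g hg)]
    refine hch _ (hport (g, i, s) (hs_mem_tests.mpr ⟨hg, hi, ?_⟩))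
    split_ifs with h1
    · rw [hdum h1]; exact one_pos
    · exact hs
  have hright : ∀ (r : HR A) (f : HT A), pt f → (hornG m n rs acc).fix r f = (fun _ => 0) →
      (∃ ζ, BF ((hornG m n rs acc).ports f fun _ => 0) ζ) →
      BF ((hornG m n rs acc).ports f ((hornG m n rs acc).fix r f))
        (∑ i ∈ range (hornG m n rs acc).m, ζ (f, i, (hornG m n rs acc).fix r f (i / 2))) := by
    intro r f hf hfix hex
    simp only [ζ, if_pos hf, hfix]
    have hm : 0 ∈ range (hornG m n rs acc).m := mem_range.mpr (by have := hW.m4; omega)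
    rw [Finset.sum_ite_eq' (range (hornG m n rs acc).m) 0, if_pos hm]
    exact hch _ hex
  refine GSys.sat_of_forced _ hW hF ζ (fun r hr f hf => ?_) fun r hr y hy => ?_
  · rcases r with q | p | o | q
    · obtain ⟨s, hs, rfl⟩ := List.mem_map.mp hf
      exact Or.inl (hleft _ (hs_inr_mem_tested.mpr (hs_mem_privs.mpr ⟨hs_ok_rule.mp hr, hs⟩)))
    · have hp := hs_ok_copy.mp hr
      rcases List.mem_pair.mp hf with rfl | rfl
      · exact Or.inl (hleft _ (hs_inr_mem_tested.mpr hp))
      · by_cases hm : (master rs acc p).1 = acc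
        · right
          obtain ⟨k, γ, s⟩ := p
          obtain ⟨hk, hs⟩ := hs_mem_privs.mp hp
          have hr' := hs_ruleAt_mem (acc := acc) hk
          rcases s with _ | ⟨j, γ'⟩
          · have hc := h.concl _ hr' hm
            have hmq : master rs acc (k, γ, none) = (acc, γ) := Prod.ext hm rfl
            refine ⟨fun ρ => hs_patAt_isNone hc.1 ρ, hright _ _ ?_ (funext hc.2) ?_⟩
            · exact Or.inr ⟨γ, by rw [hmq]⟩
            · rw [hmq]; exact hacc γ
          · refine absurd ?_ (h.prem _ hr')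
            have h1 := hs_getD_mem (acc := acc) (hs_mem_slots.mp hs)
            have h2 : (ruleAt rs acc k).2.2.getD j acc = acc := hm
            rwa [h2] at h1
        · exact Or.inl (hleft _ (hs_inl_mem_tested.mpr ⟨⟨p, hp, rfl⟩, hm⟩))
    · have ho := hs_ok_test.mp hr
      refine Or.inr ⟨fun ρ => hs_patAt_isNone List.not_mem_nil ρ, ?_⟩
      rcases List.mem_pair.mp hf with rfl | rfl
      · exact hright _ _ (Or.inl ⟨_, rfl⟩) (hs_patFix_nil true) (hpt _ ho)
      · exact hright _ _ (Or.inl ⟨_, rfl⟩) (hs_patFix_nil true) (hpt _ ho)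
    · have ho := hs_ok_point.mp hr
      refine Or.inr ⟨fun ρ => hs_patAt_isNone List.not_mem_nil ρ, ?_⟩
      rcases List.mem_pair.mp hf with rfl | rfl
      · exact hright _ _ (Or.inl ⟨_, rfl⟩) (hs_patFix_nil true) (hpt _ ho)
      · exact hright _ _ (Or.inr ⟨_, rfl⟩) (hs_patFix_nil true) (hacc _)
  · rcases r with q | p | o | q
    · cases hy
    · cases hy
    · rcases o with _ | ⟨g, i, s⟩
      · cases hy
      · cases hy
        have ho := hs_ok_test.mp hr
        simp only [ζ, if_neg (hnpt g (hs_mem_tests.mp ho).1)]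
        exact hch _ (hport _ ho)
    · cases hy

end Crest.Agent.R290
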