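import Crest.Agent.R290.Chain
import Crest.Agent.R290.Cons

/-!
Row 290.  Sweeping synchronously along chains.
-/

set_option autoImplicit false

namespace Crest.Agent.R290

open Finset

namespace BSys

variable {Blk CN X : Type} [DecidableEq Blk] [DecidableEq X] (S : BSys Blk CN X) {K : ℕ}
  {β : Blk → ZMod 2}

/-- the sum of the variables `x i`, `i ∈ J`, is `ζ` in every position touching them -/
def sweepG (F : Set (Finset (CC Blk) × (CX Blk X → ZMod 2))) {ι : Type} (J : Finset ι)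
    (x : ι → CX Blk X) (ζ : ZMod 2) : Prop :=
  ∀ p σ, (p, σ) ∈ F → (∀ i ∈ J, Touch S.ceqn p (x i)) → ∑ i ∈ J, σ (x i) = ζ

/-- the links number `t` of the blocks -/
def sweepQ (J : Finset ℕ) (B : ℕ → Blk) (t : ℕ) : Finset (CC Blk) :=
  J.image fun i => some (B i, t)

omit [DecidableEq X] in
theorem sweep_zero {F : Set (Finset (CC Blk) × (CX Blk X → ZMod 2))}
    (hF : IsCons K S.cok S.ceqn (crhs β) F) (hK : 1 < K) {p : Finset (CC Blk)}
    {σ : CX Blk X → ZMod 2} (hp : (p, σ) ∈ F) (ht : Touch S.ceqn p none) : σ none = 0 := by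
  have := hF.migrate ({()} : Finset Unit) (fun _ => none) {none} 0 (by simpa using hK)
    (fun c hc => by rw [mem_singleton.1 hc]; trivial) (by simp; omega)
    (fun _ _ => ⟨none, by simp, by simp [ceqn, var3]⟩)
    (fun p σ hp hQ => by
      have h := hF.sat p σ hp none (hQ (by simp))
      simp only [lhs, ceqn, var3, crhs, Option.elim, List.map_cons, List.map_nil, List.sum_cons,
        List.sum_nil] at h
      rw [sum_singleton]
      generalize σ none = a at h ⊢
      revert a; decide) hp (fun _ _ => ht)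
  simpa using this

section link

variable {F : Set (Finset (CC Blk) × (CX Blk X → ZMod 2))}
  {J : Finset ℕ} {B : ℕ → Blk} {cl : List CN} {t : ℕ} {κ : CN} {A : Finset X}

omit [DecidableEq X] in
theorem sweep_touch0 {i : ℕ} (hi : i ∈ J) : Touch S.ceqn (sweepQ J B t) (S.usum (B i) t) :=
  ⟨some (B i, t), mem_image_of_mem _ hi, by simp [ceqn, var3]⟩

omit [DecidableEq X] in
theorem sweep_touch1 {i : ℕ} (hi : i ∈ J) : Touch S.ceqn (sweepQ J B t) (S.usum (B i) (t + 1)) :=
  ⟨some (B i, t), mem_image_of_mem _ hi, by simp [ceqn, var3]⟩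

omit [DecidableEq X] in
theorem sweep_touch2 {i : ℕ} (hi : i ∈ J) : Touch S.ceqn (sweepQ J B t) (S.colv (B i) t) :=
  ⟨some (B i, t), mem_image_of_mem _ hi, by simp [ceqn, var3]⟩

omit [DecidableEq X] [DecidableEq Blk] in
theorem sweep_touch_mono {p q : Finset (CC Blk)} (h : p ⊆ q) {y : CX Blk X}
    (ht : Touch S.ceqn p y) : Touch S.ceqn q y := by
  obtain ⟨c, hc, hy⟩ := ht
  exact ⟨c, h hc, hy⟩

omit [DecidableEq X] [DecidableEq Blk] in
theorem sweep_colv (hB : ∀ i ∈ J, S.ok (B i) ∧ S.cols (B i) = cl) (ht : cl[t]? = some κ) {i : ℕ}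
    (hi : i ∈ J) : S.colv (B i) t = (S.cv (B i) κ).map Sum.inl := by
  rw [colv, (hB i hi).2, ht]; rfl

omit [DecidableEq X] in
theorem sweep_touchA (hB : ∀ i ∈ J, S.ok (B i) ∧ S.cols (B i) = cl) (ht : cl[t]? = some κ)
    (hA : S.Col J B κ A) {x : X} (hx : x ∈ A) :
    Touch S.ceqn (sweepQ J B t) (some (Sum.inl x)) := by
  obtain ⟨i, hi, hc⟩ := hA.1 x hx
  have := S.sweep_touch2 (B := B) (t := t) hi
  rwa [S.sweep_colv hB ht hi, hc] at this

omit [DecidableEq X] in
theorem sweep_Qok (hB : ∀ i ∈ J, S.ok (B i) ∧ S.cols (B i) = cl) (ht : cl[t]? = some κ) :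
    ∀ c ∈ sweepQ J B t, S.cok c := by
  intro c hc
  obtain ⟨i, hi, rfl⟩ := mem_image.1 hc
  refine ⟨(hB i hi).1, ?_⟩
  rw [(hB i hi).2]
  exact (List.getElem?_eq_some_iff.1 ht).1

omit [DecidableEq X] in
theorem sweep_link (hF : IsCons K S.cok S.ceqn (crhs β) F) (hK : 1 < K)
    (hB : ∀ i ∈ J, S.ok (B i) ∧ S.cols (B i) = cl) (ht : cl[t]? = some κ) (hA : S.Col J B κ A)
    {p : Finset (CC Blk)} {σ : CX Blk X → ZMod 2} (hp : (p, σ) ∈ F) (hQ : sweepQ J B t ⊆ p) :
    ∑ i ∈ J, σ (S.usum (B i) t) + ∑ i ∈ J, σ (S.usum (B i) (t + 1))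
      + ∑ x ∈ A, σ (some (Sum.inl x)) = if t = 0 then ∑ i ∈ J, β (B i) else 0 := by
  rw [← hA.2 (fun x => σ (some (Sum.inl x))), ← sum_add_distrib, ← sum_add_distrib]
  have : (if t = 0 then ∑ i ∈ J, β (B i) else 0) = ∑ i ∈ J, if t = 0 then β (B i) else 0 := by
    split_ifs <;> simp
  rw [this]
  refine sum_congr rfl fun i hi => ?_
  have h := hF.sat p σ hp (some (B i, t)) (hQ (mem_image_of_mem _ hi))
  have e : σ (S.colv (B i) t) = (S.cv (B i) κ).elim 0 fun x => σ (some (Sum.inl x)) := by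
    have h1 := S.sweep_touch_mono hQ (S.sweep_touch2 (B := B) (t := t) hi)
    rw [S.sweep_colv hB ht hi] at h1 ⊢
    cases hc : S.cv (B i) κ with
    | none => rw [hc] at h1; exact S.sweep_zero hF hK hp h1
    | some x => rfl
  rw [← e]
  simpa [lhs, ceqn, var3, crhs, add_assoc] using h

theorem sweep_zmod {a b c d : ZMod 2} (h : a + b + c = d) :
    b = a + c + d ∧ a = b + c + d ∧ c = a + b + d := by
  revert a b c d; decide

omit [DecidableEq X] in
theorem sweep_right (hF : IsCons K S.cok S.ceqn (crhs β) F) (hK : 1 < K) (hJ : J.card < K)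
    (hB : ∀ i ∈ J, S.ok (B i) ∧ S.cols (B i) = cl) (ht : cl[t]? = some κ) (hA : S.Col J B κ A)
    {ζ a : ZMod 2} (hζ : S.sweepG F A (fun x => some (Sum.inl x)) ζ)
    (ha : S.sweepG F J (fun i => S.usum (B i) t) a) :
    S.sweepG F J (fun i => S.usum (B i) (t + 1))
      (a + ζ + if t = 0 then ∑ i ∈ J, β (B i) else 0) := by
  intro p σ hp htp
  refine hF.migrate J (fun i => S.usum (B i) (t + 1)) (sweepQ J B t) _ hJ (S.sweep_Qok hB ht)
    (card_image_le.trans hJ.le) (fun i hi => S.sweep_touch1 hi) (fun p σ hp hQ => ?_) hp htp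
  rw [← ha p σ hp fun i hi => S.sweep_touch_mono hQ (S.sweep_touch0 hi),
    ← hζ p σ hp fun x hx => S.sweep_touch_mono hQ (S.sweep_touchA hB ht hA hx)]
  exact (sweep_zmod (S.sweep_link hF hK hB ht hA hp hQ)).1

omit [DecidableEq X] in
theorem sweep_left (hF : IsCons K S.cok S.ceqn (crhs β) F) (hK : 1 < K) (hJ : J.card < K)
    (hB : ∀ i ∈ J, S.ok (B i) ∧ S.cols (B i) = cl) (ht : cl[t]? = some κ) (hA : S.Col J B κ A)
    {ζ a : ZMod 2} (hζ : S.sweepG F A (fun x => some (Sum.inl x)) ζ)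
    (ha : S.sweepG F J (fun i => S.usum (B i) (t + 1)) a) :
    S.sweepG F J (fun i => S.usum (B i) t)
      (a + ζ + if t = 0 then ∑ i ∈ J, β (B i) else 0) := by
  intro p σ hp htp
  refine hF.migrate J (fun i => S.usum (B i) t) (sweepQ J B t) _ hJ (S.sweep_Qok hB ht)
    (card_image_le.trans hJ.le) (fun i hi => S.sweep_touch0 hi) (fun p σ hp hQ => ?_) hp htp
  rw [← ha p σ hp fun i hi => S.sweep_touch_mono hQ (S.sweep_touch1 hi),
    ← hζ p σ hp fun x hx => S.sweep_touch_mono hQ (S.sweep_touchA hB ht hA hx)]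
  exact (sweep_zmod (S.sweep_link hF hK hB ht hA hp hQ)).2.1

omit [DecidableEq Blk] in
theorem sweep_cardA (hA : S.Col J B κ A) : A.card ≤ J.card := by
  rw [← card_image_of_injective A (Option.some_injective X)]
  refine le_trans (card_le_card ?_) (card_image_le (f := fun i => S.cv (B i) κ))
  intro y hy
  obtain ⟨x, hx, rfl⟩ := mem_image.1 hy
  obtain ⟨i, hi, hc⟩ := hA.1 x hx
  exact mem_image.2 ⟨i, hi, hc⟩

theorem sweep_mid (hF : IsCons K S.cok S.ceqn (crhs β) F) (hK : 1 < K) (hJ : J.card < K)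
    (hB : ∀ i ∈ J, S.ok (B i) ∧ S.cols (B i) = cl) (ht : cl[t]? = some κ) (hA : S.Col J B κ A)
    {a a' : ZMod 2} (ha : S.sweepG F J (fun i => S.usum (B i) t) a)
    (ha' : S.sweepG F J (fun i => S.usum (B i) (t + 1)) a') :
    S.sweepG F A (fun x => some (Sum.inl x))
      (a + a' + if t = 0 then ∑ i ∈ J, β (B i) else 0) := by
  intro p σ hp htp
  refine hF.migrate A (fun x => some (Sum.inl x)) (sweepQ J B t) _
    ((S.sweep_cardA hA).trans_lt hJ) (S.sweep_Qok hB ht)
    (card_image_le.trans hJ.le) (fun x hx => S.sweep_touchA hB ht hA hx) (fun p σ hp hQ => ?_) hp htp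
  rw [← ha p σ hp fun i hi => S.sweep_touch_mono hQ (S.sweep_touch0 hi),
    ← ha' p σ hp fun i hi => S.sweep_touch_mono hQ (S.sweep_touch1 hi)]
  exact (sweep_zmod (S.sweep_link hF hK hB ht hA hp hQ)).2.2

omit [DecidableEq X] in
theorem sweep_end (hF : IsCons K S.cok S.ceqn (crhs β) F) (hK : 1 < K)
    (hB : ∀ i ∈ J, S.ok (B i) ∧ S.cols (B i) = cl) (ht : t = 0 ∨ t = cl.length) :
    S.sweepG F J (fun i => S.usum (B i) t) 0 := by
  intro p σ hp htp
  refine sum_eq_zero fun i hi => ?_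
  have h := htp i hi
  have e : S.usum (B i) t = none := by rw [usum, (hB i hi).2, if_pos ht]
  simp only [e] at h ⊢
  exact S.sweep_zero hF hK hp h

end link

theorem exists_forcing (hne : ∀ B, S.ok B → S.cols B ≠ [])
    (h : Cons K S.cok S.ceqn (crhs β)) : ∃ BF, S.Forcing K β BF := by
  obtain ⟨F, hF⟩ := h
  refine ⟨fun A ζ => S.sweepG F A (fun x => some (Sum.inl x)) ζ, fun p σ _ _ => sum_empty,
    ?_, ?_, ?_⟩
  · intro A A' ζ ζ' h1 h2 hd p σ hp ht
    rw [sum_union hd, h1 p σ hp fun x hx => ht x (mem_union_left _ hx),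
      h2 p σ hp fun x hx => ht x (mem_union_right _ hx)]
  · intro J B cl A ζ hJ hB hA
    rcases J.eq_empty_or_nonempty with rfl | ⟨i₀, hi₀⟩
    · rw [sum_empty]
      symm
      refine List.sum_eq_zero fun z hz => ?_
      obtain ⟨κ, hκ, rfl⟩ := List.mem_map.1 hz
      obtain ⟨⟨p, σ⟩, hp⟩ := hF.ne
      have he : A κ = ∅ := eq_empty_of_forall_notMem fun x hx => by
        obtain ⟨i, hi, _⟩ := (hA κ hκ).1.1 x hx
        simp at hi
      have := (hA κ hκ).2 p σ hp (by simp [he])
      rw [← this, he, sum_empty]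
    · have hK : 1 < K := lt_of_le_of_lt (card_pos.2 ⟨i₀, hi₀⟩) hJ
      have hcl : cl ≠ [] := (hB i₀ hi₀).2 ▸ hne _ (hB i₀ hi₀).1
      have key : ∀ t ≤ cl.length, S.sweepG F J (fun i => S.usum (B i) t)
          (((cl.take t).map ζ).sum + if t = 0 then 0 else ∑ i ∈ J, β (B i)) := by
        intro t
        induction t with
        | zero => intro _; simpa using S.sweep_end hF hK hB (Or.inl rfl)
        | succ t ih =>
          intro ht
          have ht' : t < cl.length := ht
          have h1 : cl[t]? = some cl[t] := List.getElem?_eq_getElem ht'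
          have hm : cl[t] ∈ cl := List.getElem_mem ht'
          have := S.sweep_right hF hK hJ hB h1 (hA _ hm).1 (hA _ hm).2 (ih ht'.le)
          convert this using 1
          rw [List.take_add_one, h1, List.map_append, List.sum_append]
          by_cases h0 : t = 0
          · simp [h0]
          · simp [h0]; ring
      have h1 := key cl.length le_rfl
      rw [List.take_length, if_neg (by simpa using hcl)] at h1
      have h2 := S.sweep_end hF hK hB (Or.inr rfl)
      obtain ⟨⟨p, σ⟩, hp⟩ := hF.ne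
      obtain ⟨σ', hp', -⟩ := hF.extend (hF.down p σ hp ∅ (empty_subset _)) {none}
        (fun c hc => by rw [mem_singleton.1 hc]; trivial) (by simp; omega)
      have ht : ∀ i ∈ J, Touch S.ceqn (∅ ∪ {none}) (S.usum (B i) cl.length) := fun i hi =>
        ⟨none, by simp, by simp [ceqn, var3, usum, (hB i hi).2]⟩
      have h3 := (h1 _ _ hp' ht).symm.trans (h2 _ _ hp' ht)
      generalize (cl.map ζ).sum = a at h3 ⊢
      generalize ∑ i ∈ J, β (B i) = b at h3 ⊢
      revert a b; decide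
  · intro J B cl A κ₀ hJ hB hnd hκ₀ hA hBF
    rcases J.eq_empty_or_nonempty with rfl | ⟨i₀, hi₀⟩
    · have he : A κ₀ = ∅ := eq_empty_of_forall_notMem fun x hx => by
        obtain ⟨i, hi, _⟩ := (hA κ₀ hκ₀).1 x hx
        simp at hi
      exact ⟨0, fun p σ _ _ => by rw [he, sum_empty]⟩
    · have hK : 1 < K := lt_of_le_of_lt (card_pos.2 ⟨i₀, hi₀⟩) hJ
      obtain ⟨t₀, ht₀, rfl⟩ := List.getElem_of_mem hκ₀
      have hcol : ∀ t (ht : t < cl.length), t ≠ t₀ →
          ∃ ζ, S.sweepG F (A cl[t]) (fun x => some (Sum.inl x)) ζ := fun t ht hne' =>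
        hBF _ (List.getElem_mem ht) fun e => hne' ((hnd.getElem_inj_iff).1 e)
      have hl : ∀ t ≤ t₀, ∃ a, S.sweepG F J (fun i => S.usum (B i) t) a := by
        intro t
        induction t with
        | zero => exact fun _ => ⟨0, S.sweep_end hF hK hB (Or.inl rfl)⟩
        | succ t ih =>
          intro ht
          have ht' : t < cl.length := by omega
          obtain ⟨a, ha⟩ := ih (by omega)
          obtain ⟨ζ, hζ⟩ := hcol t ht' (by omega)
          exact ⟨_, S.sweep_right hF hK hJ hB (List.getElem?_eq_getElem ht')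
            (hA _ (List.getElem_mem ht')) hζ ha⟩
      have hr : ∀ k t, t + k = cl.length → t₀ < t → ∃ a, S.sweepG F J (fun i => S.usum (B i) t) a := by
        intro k
        induction k with
        | zero => exact fun t ht _ => ⟨0, S.sweep_end hF hK hB (Or.inr ht)⟩
        | succ k ih =>
          intro t ht h0
          have ht' : t < cl.length := by omega
          obtain ⟨a, ha⟩ := ih (t + 1) (by omega) (by omega)
          obtain ⟨ζ, hζ⟩ := hcol t ht' (by omega)
          exact ⟨_, S.sweep_left hF hK hJ hB (List.getElem?_eq_getElem ht')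
            (hA _ (List.getElem_mem ht')) hζ ha⟩
      obtain ⟨a, ha⟩ := hl t₀ le_rfl
      obtain ⟨a', ha'⟩ := hr (cl.length - (t₀ + 1)) (t₀ + 1) (by omega) (by omega)
      exact ⟨_, S.sweep_mid hF hK hJ hB (List.getElem?_eq_getElem ht₀) (hA _ hκ₀) ha ha'⟩

end BSys

end Crest.Agent.R290
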