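import Crest.Agent.R290.DefsTab

/-!
Row 290.  The grid rules of a tableau derive the goal exactly when the answer is the flag.
-/

set_option autoImplicit false

namespace Crest.Agent.R290

open Crest.Agent.Lib.PT

open Mode in
/-- The rules about one bit, as an inductive predicate. -/
inductive THBit (τ : TabD) (W b : ℕ) (β : Bool) : GRule Atom → Prop
  | top0 (j : ℕ) (hj : j < τ.d) : THBit τ W b β (same, const j 0, Atom.top j b β, [Atom.val b β])
  | topS (j : ℕ) (hj : j < τ.d) : THBit τ W b β (same, up, Atom.top j b β, [Atom.top j b β])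
  | lftS (j : ℕ) (hj : j < τ.d) : THBit τ W b β (same, up, Atom.lft (j + 1) b β, [Atom.lft j b β])
  | lftC (j : ℕ) (hj : j < τ.d) :
      THBit τ W b β (same, const 0 0, Atom.lft (j + 1) b β, [Atom.lft j b β])
  | rgtS (j : ℕ) (hj : j < τ.d) :
      THBit τ W b β (same, down, Atom.rgt (j + 1) b β, [Atom.rgt j b β])
  | rgtC (j : ℕ) (hj : j < τ.d) :
      THBit τ W b β (same, const (W - 1) (W - 1), Atom.rgt (j + 1) b β, [Atom.rgt j b β])
  | lft0 : THBit τ W b β (same, same, Atom.lft 0 b β, [Atom.val b β])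
  | rgt0 : THBit τ W b β (same, same, Atom.rgt 0 b β, [Atom.val b β])
  | valG : THBit τ W b β
      (up, same, Atom.val b β, [Atom.wire (τ.outs.getD (2 * τ.d * τ.a + b) 0) β, Atom.ge])
  | inp (j : ℕ) (hj : j < 3 * τ.d + 1) : THBit τ W b β
      (same, same, Atom.wire (j * τ.a + b) β,
        [if j < τ.d then Atom.top j b β
          else if j < 2 * τ.d then Atom.lft (2 * τ.d - j) b β else Atom.rgt (j - 2 * τ.d) b β])
  | valC (p : ℕ) (hp : p < 2 * τ.d) : THBit τ W b β
      (up, const p p, Atom.val b β, [Atom.wire (τ.outs.getD (p * τ.a + b) 0) β])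

theorem thBit_iff {τ : TabD} {W b : ℕ} {β : Bool} {g : GRule Atom} :
    g ∈ bitRules τ W b β ↔ THBit τ W b β g := by
  simp only [bitRules, List.mem_append, List.mem_cons, List.mem_flatMap, List.mem_map,
    List.mem_range, List.not_mem_nil, or_false]
  constructor
  · rintro (((⟨j, hj, rfl | rfl | rfl | rfl | rfl | rfl⟩ | rfl | rfl | rfl) | ⟨j, hj, rfl⟩) |
      ⟨j, hj, rfl⟩)
    · exact .top0 j hj
    · exact .topS j hj
    · exact .lftS j hj
    · exact .lftC j hj
    · exact .rgtS j hj
    · exact .rgtC j hj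
    · exact .lft0
    · exact .rgt0
    · exact .valG
    · exact .inp j hj
    · exact .valC j hj
  · intro h
    cases h with
    | top0 j hj => exact .inl (.inl (.inl ⟨j, hj, .inl rfl⟩))
    | topS j hj => exact .inl (.inl (.inl ⟨j, hj, .inr (.inl rfl)⟩))
    | lftS j hj => exact .inl (.inl (.inl ⟨j, hj, .inr (.inr (.inl rfl))⟩))
    | lftC j hj => exact .inl (.inl (.inl ⟨j, hj, .inr (.inr (.inr (.inl rfl)))⟩))
    | rgtS j hj => exact .inl (.inl (.inl ⟨j, hj, .inr (.inr (.inr (.inr (.inl rfl))))⟩))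
    | rgtC j hj => exact .inl (.inl (.inl ⟨j, hj, .inr (.inr (.inr (.inr (.inr rfl))))⟩))
    | lft0 => exact .inl (.inl (.inr (.inl rfl)))
    | rgt0 => exact .inl (.inl (.inr (.inr (.inl rfl))))
    | valG => exact .inl (.inl (.inr (.inr (.inr rfl))))
    | inp j hj => exact .inl (.inr ⟨j, hj, rfl⟩)
    | valC j hj => exact .inr ⟨j, hj, rfl⟩

open Mode in
/-- All rules, as an inductive predicate. -/
inductive THRule (τ : TabD) (x : List Bool) (W : ℕ) (flag : Bool) : GRule Atom → Prop
  | blank0 : THRule τ x W flag (const 0 0, const x.length x.length, Atom.blank, [])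
  | blankS : THRule τ x W flag (const 0 0, up, Atom.blank, [Atom.blank])
  | ge0 : THRule τ x W flag (const 0 0, const (2 * τ.d) (2 * τ.d), Atom.ge, [])
  | geT : THRule τ x W flag (up, same, Atom.ge, [Atom.ge])
  | geP : THRule τ x W flag (same, up, Atom.ge, [Atom.ge])
  | acc : THRule τ x W flag (const (W - 1) 0, const 0 0, Atom.acc, [Atom.wire τ.ow flag])
  | valB (b : ℕ) (hb : b < τ.a) :
      THRule τ x W flag (const 0 0, same, Atom.val b (τ.ib.getD b false), [Atom.blank])
  | valX (b : ℕ) (hb : b < τ.a) (i : ℕ) (hi : i < x.length) : THRule τ x W flag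
      (const 0 0, const i i,
        Atom.val b ((if x.getD i false then τ.i1 else τ.i0).getD b false), [])
  | bit (b : ℕ) (hb : b < τ.a) (β : Bool) (g : GRule Atom) (h : THBit τ W b β g) :
      THRule τ x W flag g
  | g1 (k : ℕ) (hk : k < τ.gates.length) : THRule τ x W flag
      (same, same, Atom.wire (τ.nin + k) true, [Atom.wire (τ.gates.getD k (0, 0)).1 false])
  | g2 (k : ℕ) (hk : k < τ.gates.length) : THRule τ x W flag
      (same, same, Atom.wire (τ.nin + k) true, [Atom.wire (τ.gates.getD k (0, 0)).2 false])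
  | g3 (k : ℕ) (hk : k < τ.gates.length) : THRule τ x W flag
      (same, same, Atom.wire (τ.nin + k) false,
        [Atom.wire (τ.gates.getD k (0, 0)).1 true, Atom.wire (τ.gates.getD k (0, 0)).2 true])

variable {τ : TabD} {x : List Bool} {W : ℕ} {flag : Bool}

theorem thRule_iff {g : GRule Atom} : g ∈ tabRules τ x W flag ↔ THRule τ x W flag g := by
  simp only [tabRules, List.mem_append, List.mem_cons, List.mem_flatMap, List.mem_map,
    List.mem_range, List.not_mem_nil, or_false, thBit_iff]
  constructor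
  · rintro (((rfl | rfl | rfl | rfl | rfl | rfl) |
      ⟨b, hb, ((rfl | ⟨i, hi, rfl⟩) | h) | h⟩) | ⟨k, hk, rfl | rfl | rfl⟩)
    · exact .blank0
    · exact .blankS
    · exact .ge0
    · exact .geT
    · exact .geP
    · exact .acc
    · exact .valB b hb
    · exact .valX b hb i hi
    · exact .bit b hb _ _ h
    · exact .bit b hb _ _ h
    · exact .g1 k hk
    · exact .g2 k hk
    · exact .g3 k hk
  · intro h
    cases h with
    | blank0 => exact .inl (.inl (.inl rfl))
    | blankS => exact .inl (.inl (.inr (.inl rfl)))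
    | ge0 => exact .inl (.inl (.inr (.inr (.inl rfl))))
    | geT => exact .inl (.inl (.inr (.inr (.inr (.inl rfl)))))
    | geP => exact .inl (.inl (.inr (.inr (.inr (.inr (.inl rfl))))))
    | acc => exact .inl (.inl (.inr (.inr (.inr (.inr (.inr rfl))))))
    | valB b hb => exact .inl (.inr ⟨b, hb, .inl (.inl (.inl rfl))⟩)
    | valX b hb i hi => exact .inl (.inr ⟨b, hb, .inl (.inl (.inr ⟨i, hi, rfl⟩))⟩)
    | bit b hb β g h =>
      cases β
      · exact .inl (.inr ⟨b, hb, .inl (.inr h)⟩)
      · exact .inl (.inr ⟨b, hb, .inr h⟩)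
    | g1 k hk => exact .inr ⟨k, hk, .inl rfl⟩
    | g2 k hk => exact .inr ⟨k, hk, .inr (.inl rfl)⟩
    | g3 k hk => exact .inr ⟨k, hk, .inr (.inr rfl)⟩

theorem gridWF_tabRules (hW : 0 < W) : GridWF W (tabRules τ x W flag) Atom.acc := by
  refine ⟨fun g hg h => ?_, fun g hg h => ?_, fun g hg h => ?_,
    ⟨_, thRule_iff.2 .acc, rfl, W - 1, by omega, 0, hW, rfl, rfl⟩⟩
  · rw [thRule_iff] at hg
    cases hg with
    | bit b hb β g hb' => cases hb' <;> simp at h
    | blank0 => exact ⟨rfl, rfl⟩
    | ge0 => exact ⟨rfl, rfl⟩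
    | valX => exact ⟨rfl, rfl⟩
    | _ => simp at h
  · rw [thRule_iff] at hg
    cases hg with
    | bit b hb β g hb' =>
      cases hb' with
      | inp j hj =>
        simp only [List.mem_singleton] at h
        split_ifs at h <;> simp [Atom.acc, Atom.top, Atom.lft, Atom.rgt] at h
      | _ => simp [Atom.acc, Atom.val, Atom.top, Atom.lft, Atom.rgt, Atom.wire, Atom.ge] at h
    | _ => simp [Atom.acc, Atom.blank, Atom.wire, Atom.ge] at h
  · rw [thRule_iff] at hg
    cases hg with
    | bit b hb β g hb' =>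
      cases hb' <;> simp [Atom.acc, Atom.val, Atom.top, Atom.lft, Atom.rgt, Atom.wire] at h
    | acc => exact ⟨_, _, rfl, rfl⟩
    | _ => simp [Atom.acc, Atom.blank, Atom.wire, Atom.ge, Atom.val] at h

/-- The meaning of an atom at time `t` and position `p`. -/
def thMean (τ : TabD) (x : List Bool) (W : ℕ) (flag : Bool) : Atom → ℕ → ℕ → Prop
  | (0, _, b, β), t, p => τ.cell x W t p b = β
  | (1, j, b, β), t, _ => τ.cell x W t j b = β
  | (2, s, b, β), t, p => τ.cell x W t (p - s) b = β
  | (3, s, b, β), t, p => τ.cell x W t (min (p + s) (W - 1)) b = β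
  | (4, _, w, β), t, p => (τ.wires W (τ.cell x W t) p).getD w false = β
  | (5, _, _, _), _, p => 2 * τ.d ≤ p
  | (6, _, _, _), t, p => t = 0 ∧ x.length ≤ p
  | _, _, _ => τ.out x W = flag

theorem th_wire_in (c : ℕ → ℕ → Bool) (p : ℕ) {j b : ℕ} (hj : j < 3 * τ.d + 1) (hb : b < τ.a) :
    (τ.wires W c p).getD (j * τ.a + b) false = c (τ.nb W p j) b := by
  have hlt : j * τ.a + b < τ.nin := by
    unfold TabD.nin
    nlinarith
  unfold TabD.wires
  rw [Slp.getD_run_of_lt _ _ (by simpa using hlt)]
  have h1 : (j * τ.a + b) / τ.a = j := by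
    rw [add_comm, Nat.add_mul_div_right _ _ (by omega), Nat.div_eq_of_lt hb, zero_add]
  have h2 : (j * τ.a + b) % τ.a = b := by
    rw [add_comm, Nat.add_mul_mod_self_right, Nat.mod_eq_of_lt hb]
  simp [List.getD_eq_getElem?_getD, hlt, h1, h2]

theorem th_wire_gate (hτ : τ.WF) (c : ℕ → ℕ → Bool) (p : ℕ) {k : ℕ} (hk : k < τ.gates.length) :
    (τ.wires W c p).getD (τ.nin + k) false =
      !((τ.wires W c p).getD (τ.gates.getD k (0, 0)).1 false &&
        (τ.wires W c p).getD (τ.gates.getD k (0, 0)).2 false) := by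
  have h := Slp.getD_run_gate (gs := τ.gates)
    (ws := (List.range τ.nin).map fun v => c (τ.nb W p (v / τ.a)) (v % τ.a))
    (by simpa using hτ.gates) k hk
  rw [List.length_map, List.length_range] at h
  rw [List.getD_eq_getElem _ _ hk]
  exact h

theorem th_nb_lft {p j : ℕ} (hp : p < W) (h1 : ¬ j < τ.d) (h2 : j < 2 * τ.d) :
    τ.nb W p j = p - (2 * τ.d - j) := by
  unfold TabD.nb
  rw [if_neg h1]
  omega

theorem th_nb_rgt {p j : ℕ} (h1 : ¬ j < τ.d) (h2 : ¬ j < 2 * τ.d) :
    τ.nb W p j = min (p + (j - 2 * τ.d)) (W - 1) := by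
  unfold TabD.nb
  rw [if_neg h1]
  omega

theorem th_sound (hτ : τ.WF) {A : Atom} {t p : ℕ} (h : GDer W (tabRules τ x W flag) A t p) :
    thMean τ x W flag A t p := by
  induction h with
  | rule g hg t p t' p' ht hp ht' hp' h₁ h₂ _ ih =>
    rw [thRule_iff] at hg
    cases hg with
    | blank0 =>
      obtain ⟨_, rfl⟩ := h₁
      obtain ⟨_, rfl⟩ := h₂
      exact ⟨rfl, le_rfl⟩
    | blankS =>
      obtain ⟨_, rfl⟩ := h₁
      obtain rfl : p' = p + 1 := h₂
      exact ⟨rfl, (ih _ (List.mem_singleton_self _)).2.trans (Nat.le_succ _)⟩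
    | ge0 =>
      obtain ⟨_, rfl⟩ := h₂
      exact le_refl (2 * τ.d)
    | geT =>
      obtain rfl : p' = p := h₂
      exact ih _ (List.mem_singleton_self _)
    | geP =>
      obtain rfl : p' = p + 1 := h₂
      exact Nat.le_succ_of_le (ih _ (List.mem_singleton_self _))
    | acc =>
      obtain ⟨rfl, _⟩ := h₁
      obtain ⟨rfl, _⟩ := h₂
      exact ih _ (List.mem_singleton_self _)
    | valB b hb =>
      obtain ⟨_, rfl⟩ := h₁
      obtain rfl : p' = p := h₂
      have := (ih _ (List.mem_singleton_self _)).2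
      show τ.cell x W 0 p' b = _
      simp only [TabD.cell]
      rw [if_neg (by omega)]
    | valX b hb i hi =>
      obtain ⟨_, rfl⟩ := h₁
      obtain ⟨_, rfl⟩ := h₂
      show τ.cell x W 0 p' b = _
      simp only [TabD.cell]
      rw [if_pos hi]
    | g1 k hk =>
      obtain rfl : t' = t := h₁
      obtain rfl : p' = p := h₂
      have h1 : (τ.wires W (τ.cell x W t') p').getD (τ.gates.getD k (0, 0)).1 false = false :=
        ih _ (List.mem_singleton_self _)
      show (τ.wires W (τ.cell x W t') p').getD (τ.nin + k) false = true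
      rw [th_wire_gate hτ _ _ hk, h1]
      rfl
    | g2 k hk =>
      obtain rfl : t' = t := h₁
      obtain rfl : p' = p := h₂
      have h1 : (τ.wires W (τ.cell x W t') p').getD (τ.gates.getD k (0, 0)).2 false = false :=
        ih _ (List.mem_singleton_self _)
      show (τ.wires W (τ.cell x W t') p').getD (τ.nin + k) false = true
      rw [th_wire_gate hτ _ _ hk, h1, Bool.and_false]
      rfl
    | g3 k hk =>
      obtain rfl : t' = t := h₁
      obtain rfl : p' = p := h₂
      have h1 : (τ.wires W (τ.cell x W t') p').getD (τ.gates.getD k (0, 0)).1 false = true :=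
        ih _ List.mem_cons_self
      have h2 : (τ.wires W (τ.cell x W t') p').getD (τ.gates.getD k (0, 0)).2 false = true :=
        ih _ (List.mem_cons_of_mem _ List.mem_cons_self)
      show (τ.wires W (τ.cell x W t') p').getD (τ.nin + k) false = false
      rw [th_wire_gate hτ _ _ hk, h1, h2]
      rfl
    | bit b hb β g hb' =>
      cases hb' with
      | top0 j hj =>
        obtain rfl : t' = t := h₁
        obtain ⟨rfl, _⟩ := h₂
        exact ih _ (List.mem_singleton_self _)
      | topS j hj =>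
        obtain rfl : t' = t := h₁
        exact ih _ (List.mem_singleton_self _)
      | lftS j hj =>
        obtain rfl : t' = t := h₁
        obtain rfl : p' = p + 1 := h₂
        have h1 : τ.cell x W t' (p - j) b = β := ih _ (List.mem_singleton_self _)
        show τ.cell x W t' (p + 1 - (j + 1)) b = β
        rwa [Nat.add_sub_add_right]
      | lftC j hj =>
        obtain rfl : t' = t := h₁
        obtain ⟨rfl, rfl⟩ := h₂
        have h1 : τ.cell x W t' (0 - j) b = β := ih _ (List.mem_singleton_self _)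
        show τ.cell x W t' (0 - (j + 1)) b = β
        rw [Nat.zero_sub] at h1 ⊢
        exact h1
      | rgtS j hj =>
        obtain rfl : t' = t := h₁
        obtain rfl : p = p' + 1 := h₂
        have h1 : τ.cell x W t' (min (p' + 1 + j) (W - 1)) b = β :=
          ih _ (List.mem_singleton_self _)
        show τ.cell x W t' (min (p' + (j + 1)) (W - 1)) b = β
        rwa [show p' + (j + 1) = p' + 1 + j by omega]
      | rgtC j hj =>
        obtain rfl : t' = t := h₁
        obtain ⟨rfl, rfl⟩ := h₂
        have h1 : τ.cell x W t' (min (W - 1 + j) (W - 1)) b = β :=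
          ih _ (List.mem_singleton_self _)
        show τ.cell x W t' (min (W - 1 + (j + 1)) (W - 1)) b = β
        rw [min_eq_right (Nat.le_add_right _ _)] at h1 ⊢
        exact h1
      | lft0 =>
        obtain rfl : t' = t := h₁
        obtain rfl : p' = p := h₂
        have h1 : τ.cell x W t' p' b = β := ih _ (List.mem_singleton_self _)
        exact h1
      | rgt0 =>
        obtain rfl : t' = t := h₁
        obtain rfl : p' = p := h₂
        have h1 : τ.cell x W t' p' b = β := ih _ (List.mem_singleton_self _)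
        show τ.cell x W t' (min (p' + 0) (W - 1)) b = β
        rwa [min_eq_left (by omega)]
      | valG =>
        obtain rfl : t' = t + 1 := h₁
        obtain rfl : p' = p := h₂
        have h1 : (τ.wires W (τ.cell x W t) p').getD (τ.outs.getD (2 * τ.d * τ.a + b) 0) false =
          β := ih _ List.mem_cons_self
        have h2 : 2 * τ.d ≤ p' := ih _ (List.mem_cons_of_mem _ List.mem_cons_self)
        show τ.cell x W (t + 1) p' b = β
        simp only [TabD.cell]
        rwa [min_eq_right h2]
      | valC q hq =>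
        obtain rfl : t' = t + 1 := h₁
        obtain ⟨rfl, rfl⟩ := h₂
        have h1 : (τ.wires W (τ.cell x W t) p').getD (τ.outs.getD (p' * τ.a + b) 0) false = β :=
          ih _ (List.mem_singleton_self _)
        show τ.cell x W (t + 1) p' b = β
        simp only [TabD.cell]
        rwa [min_eq_left hq.le]
      | inp j hj =>
        obtain rfl : t' = t := h₁
        obtain rfl : p' = p := h₂
        have h1 := ih _ (List.mem_singleton_self _)
        show (τ.wires W (τ.cell x W t') p').getD (j * τ.a + b) false = β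
        rw [th_wire_in _ _ hj hb]
        split_ifs at h1 with c1 c2
        · unfold TabD.nb
          rw [if_pos c1]
          exact h1
        · rw [th_nb_lft hp c1 c2]
          exact h1
        · rw [th_nb_rgt c1 c2]
          exact h1

theorem th_der0 {μ ν : Mode} {A : Atom} (hg : THRule τ x W flag (μ, ν, A, [])) {t p t' p' : ℕ}
    (ht : t < W) (hp : p < W) (ht' : t' < W) (hp' : p' < W) (h₁ : μ.rel t t') (h₂ : ν.rel p p') :
    GDer W (tabRules τ x W flag) A t' p' :=
  GDer.rule (μ, ν, A, []) (thRule_iff.2 hg) t p t' p' ht hp ht' hp' h₁ h₂ fun _ h => by simp at h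

theorem th_der1 {μ ν : Mode} {A B : Atom} (hg : THRule τ x W flag (μ, ν, A, [B]))
    {t p t' p' : ℕ} (ht : t < W) (hp : p < W) (ht' : t' < W) (hp' : p' < W) (h₁ : μ.rel t t')
    (h₂ : ν.rel p p') (hB : GDer W (tabRules τ x W flag) B t p) :
    GDer W (tabRules τ x W flag) A t' p' :=
  GDer.rule (μ, ν, A, [B]) (thRule_iff.2 hg) t p t' p' ht hp ht' hp' h₁ h₂ fun _ h => by
    rw [List.mem_singleton.1 h]
    exact hB

theorem th_der2 {μ ν : Mode} {A B C : Atom} (hg : THRule τ x W flag (μ, ν, A, [B, C]))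
    {t p t' p' : ℕ} (ht : t < W) (hp : p < W) (ht' : t' < W) (hp' : p' < W) (h₁ : μ.rel t t')
    (h₂ : ν.rel p p') (hB : GDer W (tabRules τ x W flag) B t p)
    (hC : GDer W (tabRules τ x W flag) C t p) : GDer W (tabRules τ x W flag) A t' p' :=
  GDer.rule (μ, ν, A, [B, C]) (thRule_iff.2 hg) t p t' p' ht hp ht' hp' h₁ h₂ fun _ h => by
    rcases List.mem_cons.1 h with h | h
    · rw [h]
      exact hB
    · rw [List.mem_singleton.1 h]
      exact hC

theorem th_ge {t p : ℕ} (ht : t < W) (hp : p < W) (h : 2 * τ.d ≤ p) :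
    GDer W (tabRules τ x W flag) Atom.ge t p := by
  induction t with
  | zero =>
    induction p, h using Nat.le_induction with
    | base => exact th_der0 .ge0 ht hp ht hp ⟨rfl, rfl⟩ ⟨rfl, rfl⟩
    | succ p _ ih => exact th_der1 .geP ht (by omega) ht hp rfl rfl (ih (by omega))
  | succ t ih => exact th_der1 .geT (by omega) hp ht hp rfl rfl (ih (by omega))

theorem th_blank {p : ℕ} (hp : p < W) (h : x.length ≤ p) :
    GDer W (tabRules τ x W flag) Atom.blank 0 p := by
  induction p, h using Nat.le_induction with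
  | base => exact th_der0 .blank0 (by omega) hp (by omega) hp ⟨rfl, rfl⟩ ⟨rfl, rfl⟩
  | succ p _ ih =>
    exact th_der1 .blankS (by omega) (by omega) (by omega) hp ⟨rfl, rfl⟩ rfl (ih (by omega))

section Row

variable {t : ℕ} (ht : t < W)
  (hv : ∀ p < W, ∀ b < τ.a, GDer W (tabRules τ x W flag) (Atom.val b (τ.cell x W t p b)) t p)

include ht hv

theorem th_top (hd : 2 * τ.d < W) {j b : ℕ} (hj : j < τ.d) (hb : b < τ.a) {p : ℕ} (hp : p < W) :
    GDer W (tabRules τ x W flag) (Atom.top j b (τ.cell x W t j b)) t p := by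
  induction p with
  | zero =>
    exact th_der1 (.bit b hb _ _ (.top0 j hj)) ht (by omega : j < W) ht hp rfl ⟨rfl, rfl⟩
      (hv j (by omega) b hb)
  | succ p ih =>
    exact th_der1 (.bit b hb _ _ (.topS j hj)) ht (by omega : p < W) ht hp rfl rfl (ih (by omega))

theorem th_lft {b : ℕ} (hb : b < τ.a) {s : ℕ} (hs : s ≤ τ.d) :
    ∀ p < W, GDer W (tabRules τ x W flag) (Atom.lft s b (τ.cell x W t (p - s) b)) t p := by
  induction s with
  | zero => exact fun p hp => th_der1 (.bit b hb _ _ .lft0) ht hp ht hp rfl rfl (hv p hp b hb)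
  | succ s ih =>
    intro p hp
    cases p with
    | zero =>
      have h := ih (by omega) 0 hp
      rw [Nat.zero_sub] at h ⊢
      exact th_der1 (.bit b hb _ _ (.lftC s hs)) ht hp ht hp rfl ⟨rfl, rfl⟩ h
    | succ p =>
      rw [Nat.add_sub_add_right]
      exact th_der1 (.bit b hb _ _ (.lftS s hs)) ht (by omega : p < W) ht hp rfl rfl
        (ih (by omega) p (by omega))

theorem th_rgt {b : ℕ} (hb : b < τ.a) {s : ℕ} (hs : s ≤ τ.d) :
    ∀ p < W, GDer W (tabRules τ x W flag)
      (Atom.rgt s b (τ.cell x W t (min (p + s) (W - 1)) b)) t p := by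
  induction s with
  | zero =>
    intro p hp
    rw [min_eq_left (by omega)]
    exact th_der1 (.bit b hb _ _ .rgt0) ht hp ht hp rfl rfl (hv p hp b hb)
  | succ s ih =>
    intro p hp
    by_cases h : p + 1 < W
    · rw [show p + (s + 1) = p + 1 + s by omega]
      exact th_der1 (.bit b hb _ _ (.rgtS s hs)) ht h ht hp rfl rfl (ih (by omega) _ h)
    · obtain rfl : p = W - 1 := by omega
      have h1 := ih (by omega) _ hp
      rw [min_eq_right (Nat.le_add_right _ _)] at h1 ⊢
      exact th_der1 (.bit b hb _ _ (.rgtC s hs)) ht hp ht hp rfl ⟨rfl, rfl⟩ h1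

theorem th_wire (hτ : τ.WF) (hd : 2 * τ.d < W) {p : ℕ} (hp : p < W) (w : ℕ)
    (hw : w < τ.nin + τ.gates.length) : GDer W (tabRules τ x W flag)
      (Atom.wire w ((τ.wires W (τ.cell x W t) p).getD w false)) t p := by
  induction w using Nat.strong_induction_on with
  | _ w ih =>
    by_cases h : w < τ.nin
    · have ha : 0 < τ.a := by
        rcases Nat.eq_zero_or_pos τ.a with h0 | h0
        · simp [TabD.nin, h0] at h
        · exact h0
      obtain ⟨j, b, hb, rfl⟩ : ∃ j b, b < τ.a ∧ w = j * τ.a + b :=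
        ⟨w / τ.a, w % τ.a, Nat.mod_lt _ ha, (Nat.div_add_mod' w τ.a).symm⟩
      have hj : j < 3 * τ.d + 1 := by
        unfold TabD.nin at h
        by_contra hc
        have := Nat.mul_le_mul_right τ.a (not_lt.1 hc)
        omega
      rw [th_wire_in _ _ hj hb]
      refine th_der1 (.bit b hb _ _ (.inp j hj)) ht hp ht hp rfl rfl ?_
      split_ifs with c1 c2
      · unfold TabD.nb
        rw [if_pos c1]
        exact th_top ht hv hd c1 hb hp
      · rw [th_nb_lft hp c1 c2]
        exact th_lft ht hv hb (by omega) p hp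
      · rw [th_nb_rgt c1 c2]
        exact th_rgt ht hv hb (by omega) p hp
    · obtain ⟨k, rfl⟩ : ∃ k, w = τ.nin + k := ⟨w - τ.nin, by omega⟩
      have hk : k < τ.gates.length := by omega
      obtain ⟨w1, w2⟩ := hτ.gates k hk
      rw [← List.getD_eq_getElem _ (0, 0) hk] at w1 w2
      have i1 := ih _ w1 (by omega)
      have i2 := ih _ w2 (by omega)
      rw [th_wire_gate hτ _ _ hk]
      cases e1 : (τ.wires W (τ.cell x W t) p).getD (τ.gates.getD k (0, 0)).1 false
      · rw [e1] at i1
        exact th_der1 (.g1 k hk) ht hp ht hp rfl rfl i1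
      · cases e2 : (τ.wires W (τ.cell x W t) p).getD (τ.gates.getD k (0, 0)).2 false
        · rw [e2] at i2
          exact th_der1 (.g2 k hk) ht hp ht hp rfl rfl i2
        · rw [e1] at i1
          rw [e2] at i2
          exact th_der2 (.g3 k hk) ht hp ht hp rfl rfl i1 i2

end Row

theorem th_val (hτ : τ.WF) (hd : 2 * τ.d < W) {t : ℕ} (ht : t < W) :
    ∀ p < W, ∀ b < τ.a, GDer W (tabRules τ x W flag) (Atom.val b (τ.cell x W t p b)) t p := by
  induction t with
  | zero =>
    intro p hp b hb
    simp only [TabD.cell]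
    by_cases h : p < x.length
    · rw [if_pos h]
      exact th_der0 (.valX b hb p h) ht hp ht hp ⟨rfl, rfl⟩ ⟨rfl, rfl⟩
    · rw [if_neg h]
      exact th_der1 (.valB b hb) ht hp ht hp ⟨rfl, rfl⟩ rfl (th_blank hp (by omega))
  | succ t ih =>
    intro p hp b hb
    have ht0 : t < W := by omega
    simp only [TabD.cell]
    by_cases h : p < 2 * τ.d
    · rw [min_eq_left h.le]
      exact th_der1 (.bit b hb _ _ (.valC p h)) ht0 hp ht hp rfl ⟨rfl, rfl⟩
        (th_wire ht0 (ih ht0) hτ hd hp _ (hτ.outs p h.le b hb))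
    · rw [min_eq_right (not_lt.1 h)]
      exact th_der2 (.bit b hb _ _ .valG) ht0 hp ht hp rfl rfl
        (th_wire ht0 (ih ht0) hτ hd hp _ (hτ.outs _ le_rfl b hb)) (th_ge ht0 hp (not_lt.1 h))

theorem gder_acc_iff (hτ : τ.WF) (hd : 2 * τ.d < W) (hx : x.length < W) :
    GDer W (tabRules τ x W flag) Atom.acc 0 0 ↔ τ.out x W = flag := by
  refine ⟨fun h => th_sound hτ h, fun h => ?_⟩
  have hW : 0 < W := by omega
  have hW' : W - 1 < W := by omega
  have h1 := th_wire (x := x) (flag := flag) hW' (th_val hτ hd hW') hτ hd hW _ hτ.ow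
  have h2 : (τ.wires W (τ.cell x W (W - 1)) 0).getD τ.ow false = flag := h
  rw [h2] at h1
  exact th_der1 .acc hW' hW hW hW ⟨rfl, rfl⟩ ⟨rfl, rfl⟩ h1

end Crest.Agent.R290
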