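import Crest.Agent.R290.DefsTab
import Crest.Agent.R290.TabHorn
import Crest.Agent.R290.Grid
import Crest.Agent.R290.HornSpoil
import Crest.Agent.R290.Chain
import Crest.Agent.R290.Sweep
import Crest.Agent.R290.GrDup
import Crest.Agent.R290.GrSpoil
import Crest.Agent.R290.GrStruct

/-!
Row 290.  Correctness of the reduction.
-/

set_option autoImplicit false

namespace Crest.Agent.R290

open Crest.WLRefine

section Horn

variable {A : Type} [DecidableEq A] {m n : ℕ} {rs : List (Rule A)} {acc : A}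

theorem hChecks_nodup : (hChecks m n rs acc).Nodup := List.nodup_dedup _

theorem hChecks_pos : 1 ≤ (hChecks m n rs acc).length :=
  List.length_pos_of_mem ((mem_hChecks none).2 trivial)

theorem geqn_hOv : geqn (hOv m n rs acc) =
    fun c => (hornG m n rs acc).sys.ceqn ((hChecks m n rs acc).getD c none) := by
  funext c
  have e0 : 3 * c / 3 = c := by omega
  have e1 : (3 * c + 1) / 3 = c := by omega
  have e2 : (3 * c + 2) / 3 = c := by omega
  have f0 : 3 * c % 3 = 0 := by omega
  have f1 : (3 * c + 1) % 3 = 1 := by omega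
  have f2 : (3 * c + 2) % 3 = 2 := by omega
  simp only [geqn, hOv, BSys.ceqn, e0, e1, e2, f0, f1, f2]

theorem horn_cons (h : HornWF m n rs acc) (hd : ¬ Der n rs acc fun _ => 0) :
    Cons (m + 1) (fun c => c < (hChecks m n rs acc).length) (geqn (hOv m n rs acc))
      (hRhs m n rs acc) := by
  rw [geqn_hOv]
  exact (cons_list_iff _ hChecks_nodup mem_hChecks none).2
    (BSys.chain_cons _ (fun B _ => GSys.cols_ne_nil _ B) (hornG_cons h hd))

theorem horn_not_sat (h : HornWF m n rs acc) :
    ¬ Sat (fun c => c < (hChecks m n rs acc).length) (geqn (hOv m n rs acc)) (hRhs m n rs acc) := by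
  rw [geqn_hOv]
  intro hs
  exact hornG_not_sat h ((BSys.chain_sat_iff _ (fun B _ => GSys.cols_ne_nil _ B)).1
    ((sat_list_iff _ mem_hChecks none).1 hs))

theorem horn_sat (h : HornWF m n rs acc) (hd : Der n rs acc fun _ => 0) (b : ℕ → ZMod 2)
    (hb : Cons (m + 1) (fun c => c < (hChecks m n rs acc).length) (geqn (hOv m n rs acc)) b) :
    Sat (fun c => c < (hChecks m n rs acc).length) (geqn (hOv m n rs acc)) b := by
  rw [geqn_hOv] at hb ⊢
  obtain ⟨b', hb'⟩ := exists_rhs_of_list (hChecks m n rs acc) hChecks_nodup none b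
  have h1 := (cons_list_iff _ hChecks_nodup mem_hChecks none).1 (hb.congr hb')
  obtain ⟨β, h2, h3⟩ := (hornG m n rs acc).sys.chain_normalise (K := m + 1) b'
  obtain ⟨BF, hF⟩ := BSys.exists_forcing _ (fun B _ => GSys.cols_ne_nil _ B) (h2 h1)
  have h4 := (BSys.chain_sat_iff _ (fun B _ => GSys.cols_ne_nil _ B)).2 (hornG_sat_of_der h hd hF)
  exact ((sat_list_iff _ mem_hChecks none).2 (h3 h4)).congr fun c hc => (hb' c hc).symm

end Horn

namespace Inp

variable {I : Inp} (L : ℕ)

theorem hornWF (h : I.OK) : HornWF I.m I.n I.rules Atom.acc :=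
  hornWF_gridRules h.m4 h.npos (by omega) (gridWF_tabRules (lt_of_le_of_lt (Nat.zero_le _) h.x_lt))

theorem der_iff (h : I.OK) :
    (Der I.n I.rules Atom.acc fun _ => 0) ↔ I.tab.out I.x I.W = I.flag :=
  (der_gridRules_iff h.npos _).trans (gder_acc_iff h.wf h.d_lt h.x_lt)

theorem subcubic (I : Inp) (e : Bool) : SimpleConnSubcubic (toMat (I.nv L) (I.adj L e)) :=
  simpleConnSubcubic_gr

theorem five_le_nv (I : Inp) : 5 ≤ I.nv L := by
  have : 1 ≤ I.N := hChecks_pos
  unfold nv R290.nv
  omega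

theorem iso_false (I : Inp) : Iso (toMat (I.nv L) (I.adj L false))
    (gr I.N L (hOv I.m I.n I.rules Atom.acc) fun _ => 0) := iso_toMat_gr

theorem iso_true (I : Inp) : Iso (toMat (I.nv L) (I.adj L true))
    (gr I.N L (hOv I.m I.n I.rules Atom.acc) (hRhs I.m I.n I.rules Atom.acc)) := iso_toMat_gr

theorem not_iso (h : I.OK) :
    ¬ Iso (toMat (I.nv L) (I.adj L false)) (toMat (I.nv L) (I.adj L true)) := fun hi =>
  horn_not_sat (hornWF h) (sat_of_iso_gr hChecks_pos
    (((iso_false L I).symm.trans hi).trans (iso_true L I)))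

theorem iso_of_peb (h : I.OK) (ho : I.tab.out I.x I.W = I.flag) {V : Type} [DecidableEq V]
    {H : V → V → Bool} (hp : Peb (I.m + 1) (toMat (I.nv L) (I.adj L false)) H) :
    Iso (toMat (I.nv L) (I.adj L false)) H := by
  have hK : 3 ≤ I.m + 1 := by have := h.m4; omega
  have h1 := (peb_congr (iso_false L I) (Iso.refl H)).1 hp
  obtain ⟨b, hb⟩ := exists_rhs_of_peb hK hChecks_pos h1
  have h2 := (peb_congr (Iso.refl _) hb.symm).1 h1
  have h3 := horn_sat (hornWF h) ((der_iff h).2 ho) b (cons_of_peb_gr hK hChecks_pos h2)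
  exact ((iso_false L I).trans (iso_gr_of_sat h3)).trans hb

theorem peb_iff (h : I.OK) :
    Peb (I.m + 1) (toMat (I.nv L) (I.adj L false)) (toMat (I.nv L) (I.adj L true)) ↔
      I.tab.out I.x I.W ≠ I.flag := by
  refine ⟨fun hp ho => not_iso L h (iso_of_peb L h ho hp), fun ho => ?_⟩
  exact (peb_congr (iso_false L I) (iso_true L I)).2
    (peb_gr_of_cons (horn_cons (hornWF h) fun hd => ho ((der_iff h).1 hd)))

end Inp

end Crest.Agent.R290
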