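import Crest.Agent.R290.GrBasic
import Crest.Agent.R290.DefsRed

/-!
Row 290.  The code of the graph of a system is produced in polynomial time.
-/

set_option autoImplicit false

namespace Crest.Agent.R290

open Crest.Agent.Lib.PT

variable {α X : Type} [Enc α] [Enc X] [DecidableEq X] {N L : α → ℕ} {ov : α → ℕ → X}
  {b : α → ℕ → ZMod 2}

theorem pt_rawCode {n : α → ℕ} {A : α → ℕ → ℕ → Bool} (hn : PT n) (hn' : PB n)
    (hA : PT (fun p : α × ℕ × ℕ => A p.1 p.2.1 p.2.2)) : PT (fun a => rawCode (n a) (A a)) := by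
  unfold rawCode
  refine hn.natCode.append ((hn.range hn').flatMap ?_)
  refine PT.map (l := fun p : α × ℕ => List.range (n p.1))
    (g := fun (p : α × ℕ) w => A p.1 p.2 w)
    ((hn.comp PT.id.fst).range (hn'.comp PT.id.fst)) ?_
  exact hA.comp (f := fun q : (α × ℕ) × ℕ => (q.1.1, q.1.2, q.2)) (by fun_prop)

theorem pt_apexN {n : α → ℕ} {A : α → ℕ → ℕ → Bool} (hn : PT n)
    (hA : PT (fun p : α × ℕ × ℕ => A p.1 p.2.1 p.2.2)) :
    PT (fun p : α × ℕ × ℕ => apexN (n p.1) (A p.1) p.2.1 p.2.2) := by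
  unfold apexN
  have h1 : PT (fun p : α × ℕ × ℕ => n p.1) := hn.comp PT.id.fst
  exact PT.ite (PT.id.snd.fst.decide_eq h1) (PT.id.snd.snd.decide_ne h1)
    (PT.ite (PT.id.snd.snd.decide_eq h1) (PT.const true) hA)

/-- vertex names as tuples -/
abbrev PgT : Type := ℕ × ℕ × ℕ × ZMod 2 × ZMod 2

/-- the tuple of a vertex number -/
def pgVx (N L a : ℕ) : PgT :=
  if a < L + 2 + 12 * N then (0, a, 0, 0, 0)
  else if a < L + 2 + 18 * N then (1, a - (L + 2 + 12 * N), 0, 0, 0)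
  else if a < L + 2 + 42 * N then
    (2, (a - (L + 2 + 18 * N)) % 8 / 2, (a - (L + 2 + 18 * N)) / 8,
      (((a - (L + 2 + 18 * N)) % 2 : ℕ) : ZMod 2), 0)
  else (3, (a - (L + 2 + 42 * N)) / 4, 0, (((a - (L + 2 + 42 * N)) % 4 / 2 : ℕ) : ZMod 2),
    (((a - (L + 2 + 42 * N)) % 2 : ℕ) : ZMod 2))

/-- `nxt` with a bounded search -/
def pgNxt (M : ℕ) (ov : ℕ → X) (o o' : ℕ) : Bool :=
  decide (o < o') && (decide (ov o = ov o') &&
    decide (∀ o'' < min o' M, o < o'' → ov o'' ≠ ov o))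

/-- edges between tuples -/
def pgEd (M L : ℕ) (ov : ℕ → X) (b : ℕ → ZMod 2) (u v : PgT) : Bool :=
  if u.1 = 0 ∧ v.1 = 0 then decide (v.2.1 = u.2.1 + 1)
  else if u.1 = 0 ∧ v.1 = 1 then decide (u.2.1 = L + 2 + 2 * v.2.1)
  else if u.1 = 1 ∧ v.1 = 2 then
    decide ((v.2.1 = 1 ∧ u.2.1 = 2 * v.2.2.1) ∨ (v.2.1 = 2 ∧ u.2.1 = 2 * v.2.2.1 + 1))
  else if u.1 = 2 ∧ v.1 = 2 then
    decide (u.2.2.2.1 = v.2.2.2.1) && (decide (u.2.2.1 = v.2.2.1 ∧ v.2.1 = u.2.1 + 1) ||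
      (decide (u.2.1 = 3 ∧ v.2.1 = 3) && pgNxt M ov u.2.2.1 v.2.2.1))
  else if u.1 = 3 ∧ v.1 = 2 then
    decide (v.2.1 = 0 ∧ v.2.2.1 / 3 = u.2.1 ∧
      v.2.2.2.1 = ckBit (b u.2.1) u.2.2.2.1 u.2.2.2.2 (v.2.2.1 % 3))
  else false

omit [Enc X] in
lemma pgNxt_eq {M : ℕ} (ov : ℕ → X) (o : ℕ) {o' : ℕ} (h : o' ≤ M) :
    pgNxt M ov o o' = nxt ov o o' := by
  unfold pgNxt nxt
  rw [min_eq_left h, Bool.decide_and, Bool.decide_and]

omit [Enc X] in
lemma pgEd_eq (N L : ℕ) (ov : ℕ → X) (b : ℕ → ZMod 2) (a a' : ℕ) :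
    ged L ov b (vx N L a) (vx N L a') = pgEd (3 * N) L ov b (pgVx N L a) (pgVx N L a') := by
  unfold vx pgVx
  split_ifs <;> simp only [ged, pgEd] <;>
    first
    | rfl
    | (rw [pgNxt_eq ov _ (by omega)]; rfl)

lemma pg_cast {k : α → ℕ} (hk : PT k) : PT (fun a => ((k a : ℕ) : ZMod 2)) :=
  (PT.zmod_of_val (p := fun _ => 2) (PT.zmod_natCast (p := fun _ => 2) (PT.const 2) hk)).of_dep

lemma pg_vx {a : α → ℕ} (hN : PT N) (hL : PT L) (ha : PT a) :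
    PT (fun x => pgVx (N x) (L x) (a x)) := by
  unfold pgVx
  refine PT.ite (by fun_prop) (by fun_prop) (PT.ite (by fun_prop) (by fun_prop)
    (PT.ite (by fun_prop) ?_ ?_))
  · exact (PT.const 2).pair (PT.pair (by fun_prop) (PT.pair (by fun_prop)
      ((pg_cast (by fun_prop)).pair (PT.const 0))))
  · exact (PT.const 3).pair (PT.pair (by fun_prop) ((PT.const 0).pair
      ((pg_cast (by fun_prop)).pair (pg_cast (by fun_prop)))))

lemma pg_nxt {M o o' : α → ℕ} (hM : PT M) (hM' : PB M)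
    (hov : PT (fun p : α × ℕ => ov p.1 p.2)) (ho : PT o) (ho' : PT o') :
    PT (fun x => pgNxt (M x) (ov x) (o x) (o' x)) := by
  unfold pgNxt
  have h1 : PT (fun x => ov x (o x)) := hov.comp (PT.id.pair ho)
  have h2 : PT (fun x => ov x (o' x)) := hov.comp (PT.id.pair ho')
  refine (ho.decide_lt ho').and ((h1.decide_eq h2).and ?_)
  refine PT.decide_forall_lt (P := fun x o'' => o x < o'' → ov x o'' ≠ ov x (o x))
    (ho'.min hM) (PB.min_right _ hM') ?_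
  exact PT.decide_imp ((ho.comp PT.id.fst).decide_lt PT.id.snd) (hov.decide_ne (h1.comp PT.id.fst))

lemma pg_ckBit {β y₁ y₂ : α → ZMod 2} {j : α → ℕ} (hβ : PT β) (h1 : PT y₁) (h2 : PT y₂)
    (hj : PT j) : PT (fun x => ckBit (β x) (y₁ x) (y₂ x) (j x)) := by
  unfold ckBit
  refine PT.ite (by fun_prop) h1 (PT.ite (by fun_prop) h2 ?_)
  have h := PT.finite_comp (fun t : ZMod 2 × ZMod 2 × ZMod 2 => t.1 + t.2.1 + t.2.2)
    (h1.pair (h2.pair hβ))
  dsimp only at h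
  exact h

lemma pg_ed {M : α → ℕ} {u v : α → PgT} (hM : PT M) (hM' : PB M) (hL : PT L)
    (hov : PT (fun p : α × ℕ => ov p.1 p.2)) (hb : PT (fun p : α × ℕ => b p.1 p.2))
    (hu : PT u) (hv : PT v) : PT (fun x => pgEd (M x) (L x) (ov x) (b x) (u x) (v x)) := by
  unfold pgEd
  refine PT.ite (by fun_prop) (by fun_prop) (PT.ite (by fun_prop) (by fun_prop)
    (PT.ite (by fun_prop) (by fun_prop) (PT.ite (by fun_prop) ?_
    (PT.ite (by fun_prop) ?_ (PT.const false)))))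
  · refine PT.and (by fun_prop) (PT.or (by fun_prop) (PT.and (by fun_prop) ?_))
    exact pg_nxt hM hM' hov hu.snd.snd.fst hv.snd.snd.fst
  · refine PT.decide_and (by fun_prop) (PT.decide_and (by fun_prop) ?_)
    exact hv.snd.snd.snd.fst.decide_eq (pg_ckBit (hb.comp (PT.id.pair hu.snd.fst))
      hu.snd.snd.snd.fst hu.snd.snd.snd.snd (by fun_prop))

theorem pt_adjN (hN : PT N) (hN' : PB N) (hL : PT L)
    (hov : PT (fun p : α × ℕ => ov p.1 p.2)) (hb : PT (fun p : α × ℕ => b p.1 p.2)) :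
    PT (fun p : α × ℕ × ℕ => adjN (N p.1) (L p.1) (ov p.1) (b p.1) p.2.1 p.2.2) := by
  have hN1 : PT (fun p : α × ℕ × ℕ => N p.1) := hN.comp PT.id.fst
  have hL1 : PT (fun p : α × ℕ × ℕ => L p.1) := hL.comp PT.id.fst
  have hM : PT (fun p : α × ℕ × ℕ => 3 * N p.1) := (PT.const 3).mul hN1
  have hM' : PB (fun p : α × ℕ × ℕ => 3 * N p.1) := (PB.const 3).mul (hN'.comp PT.id.fst)
  have hov1 : PT (fun q : (α × ℕ × ℕ) × ℕ => ov q.1.1 q.2) :=
    hov.comp (PT.id.fst.fst.pair PT.id.snd)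
  have hb1 : PT (fun q : (α × ℕ × ℕ) × ℕ => b q.1.1 q.2) :=
    hb.comp (PT.id.fst.fst.pair PT.id.snd)
  have hu := pg_vx hN1 hL1 PT.id.snd.fst
  have hv := pg_vx hN1 hL1 PT.id.snd.snd
  refine ((pg_ed (ov := fun p : α × ℕ × ℕ => ov p.1) (b := fun p : α × ℕ × ℕ => b p.1)
    hM hM' hL1 hov1 hb1 hu hv).or (pg_ed (ov := fun p : α × ℕ × ℕ => ov p.1)
    (b := fun p : α × ℕ × ℕ => b p.1) hM hM' hL1 hov1 hb1 hv hu)).congr fun p => ?_
  unfold adjN gadj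
  rw [pgEd_eq, pgEd_eq]

end Crest.Agent.R290
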