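import Crest.Agent.R290.DefsRed

/-!
Row 290.  The three-variable system of a rule list is produced in polynomial time.
-/

set_option autoImplicit false

namespace Crest.Agent.R290

open Crest.Agent.Lib.PT

variable {α : Type} [Enc α] {m n : α → ℕ} {rs : α → List (Rule Atom)}

section aux

variable (acc : Atom)

theorem pth_ruleAt (hr : PT rs) {k : α → ℕ} (hk : PT k) :
    PT (fun a => ruleAt (rs a) acc (k a)) :=
  PT.getD hk hr (PT.const _)

theorem pth_slots (hr : PT rs) {k : α → ℕ} (hk : PT k) :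
    PT (fun a => slots (rs a) acc (k a)) := by
  have h := (pth_ruleAt acc hr hk).snd.snd
  exact PT.cons (PT.const _) (PT.flatMap (g := fun _ j => [some (j, false), some (j, true)])
    (PT.range h.length (PB.length h)) (by fun_prop))

theorem pth_master (hr : PT rs) {p : α → Priv} (hp : PT p) :
    PT (fun a => master (rs a) acc (p a)) := by
  have h := pth_ruleAt acc hr hp.fst
  exact PT.optionElim
    (g := fun a (q : ℕ × Bool) => ((ruleAt (rs a) acc (p a).1).2.2.getD q.1 acc, q.2))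
    hp.snd.snd (h.snd.fst.pair hp.snd.fst)
    ((PT.getD PT.id.snd.fst (h.comp PT.id.fst).snd.snd (PT.const _)).pair PT.id.snd.snd)

theorem pth_privs (hr : PT rs) : PT (fun a => privs (rs a) acc) := by
  refine PT.flatMap (g := fun a k => [false, true].flatMap fun β =>
    (slots (rs a) acc k).map fun s => ((k, β, s) : Priv)) (PT.range hr.length (PB.length hr)) ?_
  refine PT.flatMap (g := fun (p : α × ℕ) β =>
    (slots (rs p.1) acc p.2).map fun s => ((p.2, β, s) : Priv)) (PT.const _) ?_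
  exact PT.map (g := fun (q : (α × ℕ) × Bool) s => ((q.1.2, q.2, s) : Priv))
    (pth_slots acc (hr.comp PT.id.fst.fst) PT.id.fst.snd)
    (PT.id.fst.fst.snd.pair (PT.id.fst.snd.pair PT.id.snd))

theorem pth_tested (hr : PT rs) : PT (fun a => tested (rs a) acc) := by
  have h := pth_privs acc hr
  refine PT.append (PT.map (g := fun _ p => (Sum.inr p : T0 Atom)) h PT.id.snd.inr) ?_
  refine PT.map (g := fun _ q => (Sum.inl q : T0 Atom)) ?_ PT.id.snd.inl
  refine PT.filter (g := fun _ (q : Atom × Bool) => decide (q.1 ≠ acc)) ?_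
    (PT.decide_ne PT.id.snd.fst (PT.const _))
  exact PT.map (g := fun a p => master (rs a) acc p) h
    (pth_master acc (hr.comp PT.id.fst) PT.id.snd)

theorem pth_tests (hm : PT m) (hm' : PB m) (hn : PT n) (hn' : PB n) (hr : PT rs) :
    PT (fun a => tests (m a) (n a) (rs a) acc) := by
  refine PT.cons (PT.const _) ?_
  refine PT.flatMap (g := fun a f => (List.range (m a)).flatMap fun i =>
    (List.range (if m a / 2 ≤ i / 2 then 1 else n a)).map fun s => (some (f, i, s) : Test Atom))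
    (pth_tested acc hr) ?_
  refine PT.flatMap (g := fun (p : α × T0 Atom) i =>
    (List.range (if m p.1 / 2 ≤ i / 2 then 1 else n p.1)).map
      fun s => (some (p.2, i, s) : Test Atom))
    (PT.range (hm.comp PT.id.fst) (hm'.comp PT.id.fst)) ?_
  refine PT.map (g := fun (q : (α × T0 Atom) × ℕ) s => (some (q.1.2, q.2, s) : Test Atom))
    (PT.range ?_ ?_) (PT.id.fst.fst.snd.pair (PT.id.fst.snd.pair PT.id.snd)).some
  · exact PT.ite (PT.decide_le ((hm.comp PT.id.fst.fst).div (PT.const 2))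
      (PT.id.snd.div (PT.const 2))) (PT.const 1) (hn.comp PT.id.fst.fst)
  · exact PB.ite _ (PB.const 1) (hn'.comp PT.id.fst.fst)

theorem pth_gads (hm : PT m) (hm' : PB m) (hn : PT n) (hn' : PB n) (hr : PT rs) :
    PT (fun a => gads (m a) (n a) (rs a) acc) := by
  have ht := pth_tests acc hm hm' hn hn' hr
  refine PT.append (PT.append (PT.append ?_ ?_) ?_) ?_
  · exact PT.flatMap (g := fun _ k => ([Sum.inl (k, false), Sum.inl (k, true)] : List (HR Atom)))
      (PT.range hr.length (PB.length hr))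
      ((PT.id.snd.pair (PT.const _)).inl.cons
        ((PT.id.snd.pair (PT.const _)).inl.cons (PT.const _)))
  · exact PT.map (g := fun _ p => (Sum.inr (Sum.inl p) : HR Atom)) (pth_privs acc hr)
      PT.id.snd.inl.inr
  · exact PT.map (g := fun _ o => (Sum.inr (Sum.inr (Sum.inl o)) : HR Atom)) ht
      PT.id.snd.inl.inr.inr
  · exact PT.flatMap (g := fun _ o => ([Sum.inr (Sum.inr (Sum.inr (o, false))),
      Sum.inr (Sum.inr (Sum.inr (o, true)))] : List (HR Atom))) ht
      ((PT.id.snd.pair (PT.const _)).inr.inr.inr.cons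
        ((PT.id.snd.pair (PT.const _)).inr.inr.inr.cons (PT.const _)))

theorem pth_hF (hr : PT rs) {r : α → HR Atom} (h : PT r) :
    PT (fun a => hF (rs a) acc (r a)) := by
  refine PT.sumElim
    (f := fun a (q : ℕ × Bool) => (slots (rs a) acc q.1).map
      fun s => (Sum.inl (Sum.inr (q.1, q.2, s)) : HT Atom))
    (g := fun a r' => r'.elim
      (fun p => ([Sum.inl (Sum.inr p), Sum.inl (Sum.inl (master (rs a) acc p))] : List (HT Atom)))
      fun r'' => r''.elim (fun o => [Sum.inr (o, false), Sum.inr (o, true)])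
        fun q => [Sum.inr q, Sum.inl (Sum.inl (acc, q.2))]) h ?_ ?_
  · exact PT.map (g := fun (q : α × ℕ × Bool) s =>
      (Sum.inl (Sum.inr (q.2.1, q.2.2, s)) : HT Atom))
      (pth_slots acc (hr.comp PT.id.fst) PT.id.snd.fst)
      (PT.id.fst.snd.fst.pair (PT.id.fst.snd.snd.pair PT.id.snd)).inr.inl
  refine PT.sumElim
    (f := fun (a : α × (Priv ⊕ Test Atom ⊕ (Test Atom × Bool))) p =>
      ([Sum.inl (Sum.inr p), Sum.inl (Sum.inl (master (rs a.1) acc p))] : List (HT Atom)))
    (g := fun _ r'' => r''.elim (fun o => [Sum.inr (o, false), Sum.inr (o, true)])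
        fun q => [Sum.inr q, Sum.inl (Sum.inl (acc, q.2))]) PT.id.snd ?_ ?_
  · exact PT.id.snd.inr.inl.cons
      ((pth_master acc (hr.comp PT.id.fst.fst) PT.id.snd).inl.inl.cons (PT.const _))
  refine PT.comp (g := fun r'' : Test Atom ⊕ (Test Atom × Bool) =>
    r''.elim (fun o => ([Sum.inr (o, false), Sum.inr (o, true)] : List (HT Atom)))
      fun q => [Sum.inr q, Sum.inl (Sum.inl (acc, q.2))]) ?_ PT.id.snd
  exact PT.sumElim
    (f := fun _ o => ([Sum.inr (o, false), Sum.inr (o, true)] : List (HT Atom)))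
    (g := fun _ q => [Sum.inr q, Sum.inl (Sum.inl (acc, q.2))]) PT.id
    ((PT.id.snd.pair (PT.const _)).inr.cons ((PT.id.snd.pair (PT.const _)).inr.cons (PT.const _)))
    (PT.id.snd.inr.cons (((PT.const _).pair PT.id.snd.snd).inl.inl.cons (PT.const _)))

theorem pth_hPat (hr : PT rs) {r : α → HR Atom} (h : PT r) :
    PT (fun a => hPat (rs a) acc (r a)) := by
  refine PT.sumElim (f := fun a (q : ℕ × Bool) => (ruleAt (rs a) acc q.1).1)
    (g := fun a r' => r'.elim (fun p : Priv => (ruleAt (rs a) acc p.1).1) fun _ => []) h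
    (pth_ruleAt acc (hr.comp PT.id.fst) PT.id.snd.fst).fst ?_
  exact PT.sumElim
    (f := fun (a : α × (Priv ⊕ Test Atom ⊕ (Test Atom × Bool))) (p : Priv) =>
      (ruleAt (rs a.1) acc p.1).1) (g := fun _ _ => []) PT.id.snd
    (pth_ruleAt acc (hr.comp PT.id.fst.fst) PT.id.snd.fst).fst (PT.const _)

theorem pth_hSide {r : α → HR Atom} (h : PT r) {f : α → HT Atom} (hf : PT f) :
    PT (fun a => hSide (r a) (f a)) := by
  have h1 : PT fun g : T0 Atom => g.elim (fun _ => true) fun p => p.2.2.isNone :=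
    PT.sumElim (f := fun _ _ => true) (g := fun _ (p : Priv) => p.2.2.isNone) PT.id (PT.const _)
      PT.id.snd.snd.snd.isNone
  have h2 : PT fun f : HT Atom =>
      f.elim (fun g => g.elim (fun _ => true) fun p => p.2.2.isNone) fun _ => true :=
    PT.sumElim (f := fun _ (g : T0 Atom) => g.elim (fun _ => true) fun p => p.2.2.isNone)
      (g := fun _ _ => true) PT.id (h1.comp PT.id.snd) (PT.const _)
  have h3 : PT fun r' : Priv ⊕ Test Atom ⊕ (Test Atom × Bool) =>
      r'.elim (fun p => p.2.2.isNone) fun _ => true :=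
    PT.sumElim (f := fun _ (p : Priv) => p.2.2.isNone) (g := fun _ _ => true) PT.id
      PT.id.snd.snd.snd.isNone (PT.const _)
  exact PT.sumElim (f := fun a _ =>
      (f a).elim (fun g => g.elim (fun _ => true) fun p => p.2.2.isNone) fun _ => true)
    (g := fun _ r' => r'.elim (fun p => p.2.2.isNone) fun _ => true) h
    (h2.comp (hf.comp PT.id.fst)) (h3.comp PT.id.snd)

theorem pth_hFgn {r : α → HR Atom} (h : PT r) : PT (fun a => hFgn (r a)) := by
  have h1 : PT fun o : Test Atom => o.map fun y => ((Sum.inl y.1, y.2) : HT Atom × ℕ × ℕ) :=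
    PT.optionMap (g := fun _ (y : T0 Atom × ℕ × ℕ) => ((Sum.inl y.1, y.2) : HT Atom × ℕ × ℕ))
      PT.id (PT.id.snd.fst.inl.pair PT.id.snd.snd)
  have h2 : PT fun r'' : Test Atom ⊕ (Test Atom × Bool) =>
      r''.elim (fun o => o.map fun y => ((Sum.inl y.1, y.2) : HT Atom × ℕ × ℕ)) fun _ => none :=
    PT.sumElim (f := fun _ (o : Test Atom) =>
      o.map fun y => ((Sum.inl y.1, y.2) : HT Atom × ℕ × ℕ)) (g := fun _ _ => none) PT.id
      (h1.comp PT.id.snd) (PT.const _)
  have h3 : PT fun r' : Priv ⊕ Test Atom ⊕ (Test Atom × Bool) =>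
      r'.elim (fun _ => none) fun r'' => r''.elim
        (fun o => o.map fun y => ((Sum.inl y.1, y.2) : HT Atom × ℕ × ℕ)) fun _ => none :=
    PT.sumElim (f := fun _ _ => none) (g := fun _ (r'' : Test Atom ⊕ (Test Atom × Bool)) =>
      r''.elim (fun o => o.map fun y => ((Sum.inl y.1, y.2) : HT Atom × ℕ × ℕ)) fun _ => none)
      PT.id (PT.const _) (h2.comp PT.id.snd)
  exact PT.sumElim (f := fun _ _ => none)
    (g := fun _ (r' : Priv ⊕ Test Atom ⊕ (Test Atom × Bool)) =>
      r'.elim (fun _ => none) fun r'' => r''.elim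
        (fun o => o.map fun y => ((Sum.inl y.1, y.2) : HT Atom × ℕ × ℕ)) fun _ => none)
    h (PT.const _) (h3.comp PT.id.snd)

theorem pth_hB {r : α → HR Atom} (h : PT r) : PT (fun a => hB (r a)) := by
  have h1 : PT fun o : Test Atom => if o.isNone then (1 : ZMod 2) else 0 :=
    PT.ite PT.id.isNone.decide_eq_true (PT.const _) (PT.const _)
  have h2 : PT fun r'' : Test Atom ⊕ (Test Atom × Bool) =>
      r''.elim (fun o => if o.isNone then (1 : ZMod 2) else 0) fun _ => 0 :=
    PT.sumElim (f := fun _ (o : Test Atom) => if o.isNone then (1 : ZMod 2) else 0)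
      (g := fun _ _ => 0) PT.id (h1.comp PT.id.snd) (PT.const _)
  have h3 : PT fun r' : Priv ⊕ Test Atom ⊕ (Test Atom × Bool) =>
      r'.elim (fun _ => 0) fun r'' => r''.elim
        (fun o => if o.isNone then (1 : ZMod 2) else 0) fun _ => 0 :=
    PT.sumElim (f := fun _ _ => 0) (g := fun _ (r'' : Test Atom ⊕ (Test Atom × Bool)) =>
      r''.elim (fun o => if o.isNone then (1 : ZMod 2) else 0) fun _ => 0)
      PT.id (PT.const _) (h2.comp PT.id.snd)
  exact PT.sumElim (f := fun _ _ => 0)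
    (g := fun _ (r' : Priv ⊕ Test Atom ⊕ (Test Atom × Bool)) =>
      r'.elim (fun _ => 0) fun r'' => r''.elim
        (fun o => if o.isNone then (1 : ZMod 2) else 0) fun _ => 0)
    h (PT.const _) (h3.comp PT.id.snd)

theorem pth_patAt {π : α → Pat} (hπ : PT π) {ρ : α → ℕ} (hρ : PT ρ) :
    PT (fun a => patAt (π a) (ρ a)) :=
  PT.getD hρ hπ (PT.const _)

theorem pth_patFix {π : α → Pat} (hπ : PT π) {s : α → Bool} (hs : PT s) {ρ : α → ℕ}
    (hρ : PT ρ) : PT (fun a => patFix (π a) (s a) (ρ a)) :=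
  PT.optionElim (g := fun a (v : ℕ × ℕ) => if s a then v.2 else v.1) (pth_patAt hπ hρ)
    (PT.const _) (PT.ite (hs.comp PT.id.fst).decide_eq_true PT.id.snd.snd PT.id.snd.fst)

theorem pth_wild (hr : PT rs) {r : α → HR Atom} (h : PT r) {ρ : α → ℕ} (hρ : PT ρ) :
    PT (fun a => (hornG (m a) (n a) (rs a) acc).wild (r a) (ρ a)) :=
  (pth_patAt (pth_hPat acc hr h) hρ).isNone

theorem pth_val (hr : PT rs) {r : α → HR Atom} (h : PT r) {f : α → HT Atom} (hf : PT f)
    {ρ d : α → ℕ} (hρ : PT ρ) (hd : PT d) :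
    PT (fun a => (hornG (m a) (n a) (rs a) acc).val (r a) (f a) (ρ a) (d a)) :=
  PT.ite (pth_wild (m := m) (n := n) acc hr h hρ).decide_eq_true hd
    (pth_patFix (pth_hPat acc hr h) (pth_hSide h hf) hρ)

theorem pth_rowPairs (hm : PT m) (hm' : PB m) : PT (fun a => rowPairs (m a)) := by
  have h : PT fun a => (List.range (m a)).flatMap fun l =>
      (List.range (min l (m a))).map fun j => (j, l) := by
    refine PT.flatMap (g := fun a l => (List.range (min l (m a))).map fun j => (j, l))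
      (PT.range hm hm') ?_
    exact PT.map (g := fun (p : α × ℕ) j => (j, p.2))
      (PT.range (PT.id.snd.min (hm.comp PT.id.fst)) (PB.min_right _ (hm'.comp PT.id.fst)))
      (PT.id.snd.pair PT.id.fst.snd)
  refine h.congr fun a => List.flatMap_congr fun l hl => ?_
  rw [min_eq_left (List.mem_range.1 hl).le]

theorem pth_cols (hm : PT m) (hm' : PB m) (hr : PT rs) {B : α → GB (HR Atom)} (hB : PT B) :
    PT (fun a => (hornG (m a) (n a) (rs a) acc).cols (B a)) :=
  PT.append (PT.append (PT.map (g := fun _ f => (Sum.inl f : GC (HT Atom)))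
    (pth_hF acc hr hB.fst) PT.id.snd.inl) (PT.const _))
    (PT.map (g := fun _ q => (Sum.inr (Sum.inr q) : GC (HT Atom))) (pth_rowPairs hm hm')
      PT.id.snd.inr.inr)

theorem pth_cv (hr : PT rs) {B : α → GB (HR Atom)} (hB : PT B) {κ : α → GC (HT Atom)}
    (hκ : PT κ) : PT (fun a => (hornG (m a) (n a) (rs a) acc).cv (B a) (κ a)) := by
  have h1 : PT fun p : α × HT Atom => (some (Sum.inl (p.2, (B p.1).2.1,
      (hornG (m p.1) (n p.1) (rs p.1) acc).val (B p.1).1 p.2 ((B p.1).2.1 / 2) (B p.1).2.2)) :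
        Option (GX (HR Atom) (HT Atom))) := by
    have hB' := hB.comp (f := fun p : α × HT Atom => p.1) PT.id.fst
    exact (PT.id.snd.pair (hB'.snd.fst.pair
      (pth_val (m := fun p : α × HT Atom => m p.1) (n := fun p => n p.1) acc (hr.comp PT.id.fst)
        hB'.fst PT.id.snd (hB'.snd.fst.div (PT.const 2)) hB'.snd.snd))).inl.some
  have h2 : PT fun a => (if (hornG (m a) (n a) (rs a) acc).wild (B a).1 ((B a).2.1 / 2) then
      some (Sum.inr (Sum.inl ((B a).1, (B a).2.1 / 2, (B a).2.2))) else none :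
        Option (GX (HR Atom) (HT Atom))) :=
    PT.ite (pth_wild (m := m) (n := n) acc hr hB.fst
      (hB.snd.fst.div (PT.const 2))).decide_eq_true
      (hB.fst.pair ((hB.snd.fst.div (PT.const 2)).pair hB.snd.snd)).inl.inr.some (PT.const _)
  have h3 : PT fun a => ((hFgn (B a).1).bind fun y =>
      if (B a).2.1 = y.2.1 then some (Sum.inl y) else none : Option (GX (HR Atom) (HT Atom))) :=
    PT.optionBind (g := fun a (y : HT Atom × ℕ × ℕ) =>
      (if (B a).2.1 = y.2.1 then some (Sum.inl y) else none : Option (GX (HR Atom) (HT Atom))))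
      (pth_hFgn hB.fst)
      (PT.ite (PT.decide_eq (hB.comp PT.id.fst).snd.fst PT.id.snd.snd.fst) PT.id.snd.inl.some
        (PT.const _))
  have h4 : PT fun p : α × ℕ × ℕ => (if (B p.1).2.1 = p.2.1 ∨ (B p.1).2.1 = p.2.2 then
      some (Sum.inr (Sum.inr ((B p.1).1, p.2.1, p.2.2))) else none :
        Option (GX (HR Atom) (HT Atom))) := by
    have hB' := hB.comp (f := fun p : α × ℕ × ℕ => p.1) PT.id.fst
    exact PT.ite (PT.decide_or (PT.decide_eq hB'.snd.fst PT.id.snd.fst)
      (PT.decide_eq hB'.snd.fst PT.id.snd.snd))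
      (hB'.fst.pair (PT.id.snd.fst.pair PT.id.snd.snd)).inr.inr.some (PT.const _)
  refine PT.sumElim hκ h1 ?_
  refine PT.sumElim PT.id.snd ?_ (h4.comp (PT.id.fst.fst.pair PT.id.snd))
  exact PT.ite PT.id.snd.decide_eq_true (h2.comp PT.id.fst.fst) (h3.comp PT.id.fst.fst)

theorem pth_usum (hm : PT m) (hm' : PB m) (hr : PT rs) {B : α → GB (HR Atom)} (hB : PT B)
    {t : α → ℕ} (ht : PT t) :
    PT (fun a => (hornG (m a) (n a) (rs a) acc).sys.usum (B a) (t a)) :=
  PT.ite (PT.decide_or (PT.decide_eq ht (PT.const 0))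
    (PT.decide_eq ht (pth_cols (n := n) acc hm hm' hr hB).length)) (PT.const _)
    (hB.pair ht).inr.some

theorem pth_colv (hm : PT m) (hm' : PB m) (hr : PT rs) {B : α → GB (HR Atom)} (hB : PT B)
    {t : α → ℕ} (ht : PT t) :
    PT (fun a => (hornG (m a) (n a) (rs a) acc).sys.colv (B a) (t a)) :=
  PT.optionMap (g := fun _ x => (Sum.inl x : GX (HR Atom) (HT Atom) ⊕ (GB (HR Atom) × ℕ)))
    (PT.optionBind (g := fun a κ => (hornG (m a) (n a) (rs a) acc).cv (B a) κ)
      (PT.getElem? ht (pth_cols (n := n) acc hm hm' hr hB))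
      (pth_cv (m := fun p : α × GC (HT Atom) => m p.1) (n := fun p => n p.1) acc
        (hr.comp PT.id.fst) (hB.comp PT.id.fst) PT.id.snd))
    PT.id.snd.inl

theorem pth_var3 (hm : PT m) (hm' : PB m) (hr : PT rs) {c : α → BSys.CC (GB (HR Atom))}
    (hc : PT c) {j : α → ℕ} (hj : PT j) :
    PT (fun a => (hornG (m a) (n a) (rs a) acc).sys.var3 (c a) (j a)) := by
  have hm1 := hm.comp (f := fun p : α × GB (HR Atom) × ℕ => p.1) PT.id.fst
  have hm2 := hm'.comp (f := fun p : α × GB (HR Atom) × ℕ => p.1) PT.id.fst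
  have hr1 := hr.comp (f := fun p : α × GB (HR Atom) × ℕ => p.1) PT.id.fst
  have hj1 := hj.comp (f := fun p : α × GB (HR Atom) × ℕ => p.1) PT.id.fst
  have h1 := pth_usum (n := fun p : α × GB (HR Atom) × ℕ => n p.1) acc hm1 hm2 hr1
    (B := fun p => p.2.1) PT.id.snd.fst (t := fun p => p.2.2) PT.id.snd.snd
  have h2 := pth_usum (n := fun p : α × GB (HR Atom) × ℕ => n p.1) acc hm1 hm2 hr1
    (B := fun p => p.2.1) PT.id.snd.fst (t := fun p => p.2.2 + 1)
    (PT.id.snd.snd.add (PT.const 1))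
  have h3 := pth_colv (n := fun p : α × GB (HR Atom) × ℕ => n p.1) acc hm1 hm2 hr1
    (B := fun p => p.2.1) PT.id.snd.fst (t := fun p => p.2.2) PT.id.snd.snd
  have h4 := PT.ite (PT.decide_eq hj1 (PT.const 0)) h1
    (PT.ite (PT.decide_eq hj1 (PT.const 1)) h2 h3)
  exact PT.optionElim (g := fun a (q : GB (HR Atom) × ℕ) =>
    if j a = 0 then (hornG (m a) (n a) (rs a) acc).sys.usum q.1 q.2 else
      if j a = 1 then (hornG (m a) (n a) (rs a) acc).sys.usum q.1 (q.2 + 1) else
        (hornG (m a) (n a) (rs a) acc).sys.colv q.1 q.2) hc (PT.const none) h4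

theorem pth_crhs {c : α → BSys.CC (GB (HR Atom))} (hc : PT c) :
    PT (fun a => BSys.crhs (hornG (m a) (n a) (rs a) acc).rhs (c a)) := by
  have h : PT fun q : GB (HR Atom) × ℕ =>
      if q.2 = 0 then (if q.1.2.1 = 0 then hB q.1.1 else 0) else 0 :=
    PT.ite (PT.decide_eq PT.id.snd (PT.const 0))
      (PT.ite (PT.decide_eq PT.id.fst.snd.fst (PT.const 0)) (pth_hB PT.id.fst.fst) (PT.const _))
      (PT.const _)
  exact PT.optionElim (g := fun _ (q : GB (HR Atom) × ℕ) =>
    if q.2 = 0 then (if q.1.2.1 = 0 then hB q.1.1 else 0) else 0) hc (PT.const _)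
    (h.comp PT.id.snd)

theorem pth_hBlocks (hm : PT m) (hm' : PB m) (hn : PT n) (hn' : PB n) (hr : PT rs) :
    PT (fun a => hBlocks (m a) (n a) (rs a) acc) := by
  refine PT.flatMap (g := fun a r => (List.range (m a)).flatMap fun i =>
    (List.range (if (hornG (m a) (n a) (rs a) acc).wild r (i / 2) then n a else 1)).map
      fun d => ((r, i, d) : GB (HR Atom))) (pth_gads acc hm hm' hn hn' hr) ?_
  refine PT.flatMap (g := fun (p : α × HR Atom) i =>
    (List.range (if (hornG (m p.1) (n p.1) (rs p.1) acc).wild p.2 (i / 2) then n p.1 else 1)).map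
      fun d => ((p.2, i, d) : GB (HR Atom)))
    (PT.range (hm.comp PT.id.fst) (hm'.comp PT.id.fst)) ?_
  refine PT.map (g := fun (q : (α × HR Atom) × ℕ) d => ((q.1.2, q.2, d) : GB (HR Atom)))
    (PT.range ?_ ?_) (PT.id.fst.fst.snd.pair (PT.id.fst.snd.pair PT.id.snd))
  · exact PT.ite (pth_wild (m := fun q : (α × HR Atom) × ℕ => m q.1.1) (n := fun q => n q.1.1)
      acc (hr.comp PT.id.fst.fst) PT.id.fst.snd (PT.id.snd.div (PT.const 2))).decide_eq_true
      (hn.comp PT.id.fst.fst) (PT.const 1)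
  · exact PB.ite _ (hn'.comp PT.id.fst.fst) (PB.const 1)

theorem pth_hChecks (hm : PT m) (hm' : PB m) (hn : PT n) (hn' : PB n) (hr : PT rs) :
    PT (fun a => hChecks (m a) (n a) (rs a) acc) := by
  refine PT.dedup (PT.cons (PT.const _) ?_)
  refine PT.flatMap (g := fun a B =>
    (List.range ((hornG (m a) (n a) (rs a) acc).cols B).length).map
      fun t => (some (B, t) : BSys.CC (GB (HR Atom)))) (pth_hBlocks acc hm hm' hn hn' hr) ?_
  have h := pth_cols (m := fun p : α × GB (HR Atom) => m p.1) (n := fun p => n p.1) acc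
    (hm.comp PT.id.fst) (hm'.comp PT.id.fst) (hr.comp PT.id.fst) PT.id.snd
  exact PT.map (g := fun (p : α × GB (HR Atom)) t => (some (p.2, t) : BSys.CC (GB (HR Atom))))
    (PT.range h.length (PB.length h)) (PT.id.fst.snd.pair PT.id.snd).some

end aux

theorem pt_hChecks (hm : PT m) (hm' : PB m) (hn : PT n) (hn' : PB n) (hr : PT rs) :
    PT (fun a => hChecks (m a) (n a) (rs a) Atom.acc) := by
  exact pth_hChecks _ hm hm' hn hn' hr

theorem pt_hOv (hm : PT m) (hm' : PB m) (hn : PT n) (hn' : PB n) (hr : PT rs) {o : α → ℕ}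
    (ho : PT o) : PT (fun a => hOv (m a) (n a) (rs a) Atom.acc (o a)) := by
  exact pth_var3 _ hm hm' hr
    (PT.getD (ho.div (PT.const 3)) (pth_hChecks _ hm hm' hn hn' hr) (PT.const _))
    (ho.mod (PT.const 3))

theorem pt_hRhs (hm : PT m) (hm' : PB m) (hn : PT n) (hn' : PB n) (hr : PT rs) {c : α → ℕ}
    (hc : PT c) : PT (fun a => hRhs (m a) (n a) (rs a) Atom.acc (c a)) := by
  exact pth_crhs _ (PT.getD hc (pth_hChecks _ hm hm' hn hn' hr) (PT.const _))

end Crest.Agent.R290
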