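import Crest.Agent.R290.PTTab
import Crest.Agent.R290.PTHorn
import Crest.Agent.R290.PTGraph

/-!
Row 290.  The reduction runs in polynomial time.
-/

set_option autoImplicit false

namespace Crest.Agent.R290

open Crest.Agent.Lib.PT

namespace Inp

theorem pt_m : PT (fun I : Inp => I.m) := by unfold m; fun_prop
theorem pb_m : PB (fun I : Inp => I.m) := by unfold m; fun_prop
theorem pt_n : PT (fun I : Inp => I.n) := by unfold n; fun_prop
theorem pb_n : PB (fun I : Inp => I.n) := by unfold n; fun_prop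

theorem pt_N : PT (fun I : Inp => I.N) :=
  (pt_hChecks pt_m pb_m pt_n pb_n pt_rules).length

theorem pb_N : PB (fun I : Inp => I.N) :=
  PB.length (pt_hChecks pt_m pb_m pt_n pb_n pt_rules)

variable {α : Type} [Enc α] {I : α → Inp} {L : α → ℕ}

theorem pt_nv (hI : PT I) (hL : PT L) : PT (fun a => (I a).nv (L a)) :=
  ((hL.add (PT.const 2)).add ((PT.const 46).mul (pt_N.comp hI))).congr fun _ => rfl

theorem pb_nv (hI : PT I) (hL : PB L) : PB (fun a => (I a).nv (L a)) :=
  ((hL.add (PB.const 2)).add ((PB.const 46).mul (pb_N.comp hI))).of_le fun _ => le_rfl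

theorem pt_adj (hI : PT I) (hL : PT L) (e : Bool) :
    PT (fun p : α × ℕ × ℕ => (I p.1).adj (L p.1) e p.2.1 p.2.2) := by
  have h1 : PT (fun p : α × ℕ => I p.1) := hI.comp PT.id.fst
  refine pt_adjN (N := fun a => (I a).N) (L := L)
    (ov := fun a => hOv (I a).m (I a).n (I a).rules Atom.acc)
    (b := fun a c => if e then hRhs (I a).m (I a).n (I a).rules Atom.acc c else 0)
    (pt_N.comp hI) (pb_N.comp hI) hL
    (pt_hOv (pt_m.comp h1) (pb_m.comp h1) (pt_n.comp h1) (pb_n.comp h1) (pt_rules.comp h1)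
      PT.id.snd) ?_
  cases e
  · exact PT.const _
  · exact pt_hRhs (pt_m.comp h1) (pb_m.comp h1) (pt_n.comp h1) (pb_n.comp h1) (pt_rules.comp h1)
      PT.id.snd

theorem pt_code (hI : PT I) (hL : PT L) (hL' : PB L) (e : Bool) :
    PT (fun a => rawCode ((I a).nv (L a)) ((I a).adj (L a) e)) :=
  pt_rawCode (n := fun a => (I a).nv (L a)) (A := fun a => (I a).adj (L a) e) (pt_nv hI hL) (pb_nv hI hL') (pt_adj hI hL e)

theorem pt_apexCode (hI : PT I) (hL : PT L) (hL' : PB L) (e : Bool) :
    PT (fun a => rawCode ((I a).nv (L a) + 1) (apexN ((I a).nv (L a)) ((I a).adj (L a) e))) :=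
  pt_rawCode (n := fun a => (I a).nv (L a) + 1)
    (A := fun a => apexN ((I a).nv (L a)) ((I a).adj (L a) e))
    ((pt_nv hI hL).add (PT.const 1)) ((pb_nv hI hL').add (PB.const 1))
    (pt_apexN (n := fun a => (I a).nv (L a)) (A := fun a => (I a).adj (L a) e) (pt_nv hI hL)
      (pt_adj hI hL e))

end Inp

end Crest.Agent.R290
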