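import Crest.Agent.R290.TabHorn
import Crest.Agent.R290.DefsTab

/-!
Row 290.  Every stack machine has tableau data.
-/

set_option autoImplicit false

namespace Crest.Agent.R290

open Turing Turing.TM2 Crest.Agent.Lib.PT Crest.Agent.Lib.PT.Slp

/-- Tableau data made of a list of formulas. -/
def tabD_mk (a d : ℕ) (i0 i1 ib : List Bool) (fs : List Form) : TabD :=
  (List.replicate a (), List.replicate d (), i0, i1, ib,
    emitAll (fun v => v % ((3 * d + 1) * a)) fs ((3 * d + 1) * a),
    (List.range ((2 * d + 1) * a)).map (fun j => (3 * d + 1) * a + goff fs j),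
    (3 * d + 1) * a + goff fs ((2 * d + 1) * a))

section

variable (a d : ℕ) (i0 i1 ib : List Bool) (fs : List Form)

lemma tabD_a : (tabD_mk a d i0 i1 ib fs).a = a := by simp [tabD_mk, TabD.a]
lemma tabD_d : (tabD_mk a d i0 i1 ib fs).d = d := by simp [tabD_mk, TabD.d]
lemma tabD_nin : (tabD_mk a d i0 i1 ib fs).nin = (3 * d + 1) * a := by
  rw [TabD.nin, tabD_a, tabD_d]
lemma tabD_gates : (tabD_mk a d i0 i1 ib fs).gates =
    emitAll (fun v => v % ((3 * d + 1) * a)) fs ((3 * d + 1) * a) := rfl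
lemma tabD_ow : (tabD_mk a d i0 i1 ib fs).ow = (3 * d + 1) * a + goff fs ((2 * d + 1) * a) := rfl
lemma tabD_outs {j : ℕ} (hj : j < (2 * d + 1) * a) :
    (tabD_mk a d i0 i1 ib fs).outs.getD j 0 = (3 * d + 1) * a + goff fs j := by
  simp [tabD_mk, TabD.outs, List.getD_eq_getElem?_getD, hj]

lemma tabD_lt {a d p b : ℕ} (hp : p ≤ 2 * d) (hb : b < a) : p * a + b < (2 * d + 1) * a := by
  have : p * a ≤ 2 * d * a := Nat.mul_le_mul_right _ hp
  nlinarith

lemma tabD_wf (ha : 0 < a) (hfs : fs ≠ []) : (tabD_mk a d i0 i1 ib fs).WF := by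
  have hn : 0 < (3 * d + 1) * a := Nat.mul_pos (by omega) ha
  refine ⟨?_, ?_, ?_⟩
  · rw [tabD_gates, tabD_nin]
    exact wf_emitAll _ _ _ fun v => Nat.mod_lt _ hn
  · intro p hp b hb
    rw [tabD_d] at hp
    rw [tabD_a] at hb ⊢
    rw [tabD_outs _ _ _ _ _ _ (tabD_lt hp hb), tabD_nin, tabD_gates, length_emitAll]
    have := goff_lt hfs (p * a + b)
    omega
  · rw [tabD_ow, tabD_nin, tabD_gates, length_emitAll]
    have := goff_lt hfs ((2 * d + 1) * a)
    omega

lemma tabD_wires (ha : 0 < a) (W : ℕ) (c : ℕ → ℕ → Bool) (i j : ℕ) (hj : j < fs.length) :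
    ((tabD_mk a d i0 i1 ib fs).wires W c i).getD ((3 * d + 1) * a + goff fs j) false =
      fs[j].eval fun v => c ((tabD_mk a d i0 i1 ib fs).nb W i (v % ((3 * d + 1) * a) / a))
        (v % ((3 * d + 1) * a) % a) := by
  have hn : 0 < (3 * d + 1) * a := Nat.mul_pos (by omega) ha
  unfold TabD.wires
  rw [tabD_gates, tabD_nin, tabD_a]
  set ws := (List.range ((3 * d + 1) * a)).map
    fun v => c ((tabD_mk a d i0 i1 ib fs).nb W i (v / a)) (v % a) with hws
  have hl : ws.length = (3 * d + 1) * a := by simp [hws]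
  have := getD_run_emitAll (fun v => v % ((3 * d + 1) * a)) fs ws j hj
    (fun v => by rw [hl]; exact Nat.mod_lt _ hn)
  rw [hl] at this
  rw [this]
  congr 1
  funext v
  have hv := Nat.mod_lt v hn
  simp [hws, List.getD_eq_getElem?_getD, hv]

end

theorem exists_tabD (M : TM2ComputableAux Bool Bool) :
    ∃ τ : TabD, τ.WF ∧ ∀ (z : List Bool) (o : Bool) (T W : ℕ),
      Nonempty (TM2OutputsInTime M.tm (z.map M.inputAlphabet.invFun)
        (some ([o].map M.outputAlphabet.invFun)) T) →
      T < W → z.length + τ.d * T < W → τ.out z W = o := by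
  classical
  obtain ⟨tm, ein, eout⟩ := M
  let _ := tm.kFin
  let _ := tm.ΛFin
  let _ := tm.σFin
  let _ := tm.Γk₀Fin
  let R : Set (Σ k, tm.Γ k) :=
    (⋃ l, Sim.pushes (tm.m l)) ∪ Set.range (fun s : tm.Γ tm.k₀ => ⟨tm.k₀, s⟩)
  have hR : R.Finite :=
    (Set.finite_iUnion fun l => Sim.pushes_finite (tm.m l)).union (Set.finite_range _)
  have hM : ∀ l, Sim.pushes (tm.m l) ⊆ R := fun l x hx => Or.inl (Set.mem_iUnion.mpr ⟨l, hx⟩)
  obtain ⟨d, hd⟩ := (Set.finite_range fun l => Sim.ops (tm.m l)).bddAbove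
  have hd' : ∀ l, Sim.ops (tm.m l) ≤ d := fun l => hd ⟨l, rfl⟩
  -- the finite set of columns
  let A : Set (Sim.Col tm.Γ tm.Λ tm.σ) :=
    {x | ∀ k s, x.2 k = some s → (⟨k, s⟩ : Σ k, tm.Γ k) ∈ R}
  have hA : A.Finite := by
    have h1 : ∀ k, {o : Option (tm.Γ k) | ∀ s, o = some s → (⟨k, s⟩ : Σ k, tm.Γ k) ∈ R}.Finite := by
      intro k
      have h2 : {s : tm.Γ k | (⟨k, s⟩ : Σ k, tm.Γ k) ∈ R}.Finite :=
        hR.preimage (f := fun s : tm.Γ k => (⟨k, s⟩ : Σ k, tm.Γ k)) sigma_mk_injective.injOn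
      refine ((h2.image some).insert none).subset ?_
      intro o ho
      cases o with
      | none => simp
      | some s => exact Or.inr ⟨s, ho s rfl, rfl⟩
    refine ((Set.finite_univ (α := Option tm.Λ × tm.σ)).prod (Set.Finite.pi' h1)).subset ?_
    intro x hx
    exact ⟨trivial, hx⟩
  let Al := hA.toFinset.toList
  have hAl : ∀ x, x ∈ Al ↔ x ∈ A := fun x => by simp [Al]
  have hcol : ∀ (c : Cfg tm.Γ tm.Λ tm.σ) (i : ℕ), Sim.Valid R c.stk → Sim.col c i ∈ Al := by
    intro c i hc
    rw [hAl]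
    intro k s hs
    exact hc k s (List.mem_of_getElem? hs)
  let a := Al.length
  let _ : Inhabited (Sim.Col tm.Γ tm.Λ tm.σ) := ⟨((none, tm.initialState), fun _ => none)⟩
  have ha : 0 < a := List.length_pos_of_mem ((hAl default).mpr (by intro k s hs; simp at hs))
  -- the formulas
  have FS : ∀ j : ℕ, ∃ φ : Form, ∀ ρ, φ.eval ρ =
      if j < (2 * d + 1) * a then
        oneHot Al (Sim.rule tm.m d (j / a) fun i => unHot Al fun b => ρ (i * a + b)) (j % a)
      else decide ((unHot Al ρ).2 tm.k₁ = some (eout.symm true)) :=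
    fun j => Form.exists_of_depends ((3 * d + 1) * a) _ fun ρ ρ' h => by
      rw [Sim.rule_congr tm.m d (j / a) _ (fun i => unHot Al fun b => ρ' (i * a + b)),
        unHot_congr Al ρ ρ' (fun b hb => h b (by change b < a at hb; nlinarith))]
      intro i hi
      refine unHot_congr _ _ _ fun b hb => h _ ?_
      have : (i + 1) * a ≤ (3 * d + 1) * a := Nat.mul_le_mul_right _ hi
      change b < a at hb
      nlinarith
  choose φS hφS using FS
  let fs : List Form := (List.range ((2 * d + 1) * a + 1)).map φS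
  have lfs : fs.length = (2 * d + 1) * a + 1 := by simp [fs]
  let cd : List (tm.Γ tm.k₀) → List Bool := fun l =>
    (List.range a).map (oneHot Al (Sim.col (initList tm l) 0))
  have hcd : ∀ l, ∀ b < a, (cd l).getD b false = oneHot Al (Sim.col (initList tm l) 0) b := by
    intro l b hb
    simp [cd, List.getD_eq_getElem?_getD, hb]
  let τ : TabD := tabD_mk a d (cd [ein.symm false]) (cd [ein.symm true]) (cd []) fs
  have τd : τ.d = d := tabD_d ..
  have τa : τ.a = a := tabD_a ..
  refine ⟨τ, tabD_wf _ _ _ _ _ _ ha (by intro h; rw [h] at lfs; simp at lfs), ?_⟩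
  rintro z o T W ⟨⟨⟨m, hm⟩, hmt⟩⟩ hTW hW
  rw [τd] at hW
  let P : Tab := ⟨a, d, [], [], Form.var 0⟩
  have hnb : ∀ i j, τ.nb W i j = P.nb W i j := by
    intro i j
    simp only [TabD.nb, Tab.nb, τd, P]
  let c₀ : Cfg tm.Γ tm.Λ tm.σ := initList tm (z.map ein.symm)
  have hv : ∀ t, Sim.Valid R ((Sim.next tm.m)^[t] c₀).stk ∧
      ∀ k, (((Sim.next tm.m)^[t] c₀).stk k).length ≤ z.length + d * t := by
    intro t
    induction t with
    | zero =>
      simp only [Function.iterate_zero, id_eq, c₀, initList_eq]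
      refine ⟨Sim.Valid.update (fun k s hs => by simp at hs) _ _ fun s _ => Or.inr ⟨s, rfl⟩, ?_⟩
      intro k
      by_cases hk : k = tm.k₀
      · subst hk; simp
      · simp [hk]
    | succ t ih =>
      rw [Function.iterate_succ_apply']
      refine ⟨Sim.next_valid _ hM _ ih.1, fun k => ?_⟩
      exact (Sim.next_length _ hd' _ _ ih.2 k).trans (le_of_eq (by ring))
  have hfin : ∀ t, T ≤ t → (Sim.next tm.m)^[t] c₀ = haltList tm [eout.symm o] := fun t ht =>
    Sim.next_iterate_of_halts tm.m m _ _ hm rfl t (le_trans hmt ht)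
  have hlen : ∀ t k, (((Sim.next tm.m)^[t] c₀).stk k).length < W := by
    intro t k
    rcases le_total t T with h | h
    · have h1 := (hv t).2 k
      have h2 : d * t ≤ d * T := Nat.mul_le_mul_left _ h
      omega
    · rw [hfin t h, ← hfin T le_rfl]
      have h1 := (hv T).2 k
      omega
  have hmod : ∀ j < 3 * d + 1, ∀ b < a, (j * a + b) % ((3 * d + 1) * a) = j * a + b := by
    intro j hj b hb
    apply Nat.mod_eq_of_lt
    have : (j + 1) * a ≤ (3 * d + 1) * a := Nat.mul_le_mul_right _ hj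
    nlinarith
  have hdiv : ∀ j, ∀ b < a, (j * a + b) / a = j ∧ (j * a + b) % a = b := by
    intro j b hb
    constructor
    · rw [Nat.add_comm, Nat.add_mul_div_right _ _ ha, Nat.div_eq_of_lt hb, Nat.zero_add]
    · rw [Nat.add_comm, Nat.add_mul_mod_self_right, Nat.mod_eq_of_lt hb]
  have key : ∀ t i, ∀ b < a,
      τ.cell z W t i b = oneHot Al (Sim.col ((Sim.next tm.m)^[t] c₀) i) b := by
    intro t
    induction t with
    | zero =>
      intro i b hb
      simp only [TabD.cell, Function.iterate_zero, id_eq]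
      by_cases hi' : i < z.length
      · have e : (if z.getD i false then τ.i1 else τ.i0) = cd [ein.symm (z.getD i false)] := by
          cases z.getD i false <;> rfl
        rw [if_pos hi', e, hcd _ _ hb]
        congr 1
        simp only [c₀, initList_eq, Sim.col]
        congr 1
        funext k
        by_cases hk : k = tm.k₀
        · subst hk; simp [List.getD_eq_getElem?_getD, hi']
        · simp [hk]
      · have e : τ.ib = cd [] := rfl
        rw [if_neg hi', e, hcd _ _ hb]
        congr 1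
        simp only [c₀, initList_eq, Sim.col]
        congr 1
        funext k
        by_cases hk : k = tm.k₀
        · subst hk; simp; omega
        · simp [hk]
    | succ t ih =>
      intro i b hb
      have hlt : min i (2 * d) * a + b < (2 * d + 1) * a := tabD_lt (min_le_right _ _) hb
      simp only [TabD.cell, τd, τa]
      rw [tabD_outs _ _ _ _ _ _ hlt, tabD_wires _ _ _ _ _ _ ha _ _ _ _ (by omega)]
      simp only [fs, List.getElem_map, List.getElem_range, hφS]
      rw [if_pos hlt, (hdiv _ _ hb).1, (hdiv _ _ hb).2, Function.iterate_succ_apply',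
        ← Sim.col_next tm.m P hd' _ W (hlen t) i]
      congr 1
      refine Sim.rule_congr _ _ _ _ _ fun j hj => ?_
      rw [unHot_congr Al _ (oneHot Al (Sim.col ((Sim.next tm.m)^[t] c₀) (P.nb W i j))),
        unHot_oneHot _ _ (hcol _ _ (hv t).1)]
      intro b' hb'
      change b' < a at hb'
      rw [hmod j hj b' hb', (hdiv _ _ hb').1, (hdiv _ _ hb').2, ← hnb]
      exact ih _ _ hb'
  unfold TabD.out
  rw [tabD_ow, tabD_wires _ _ _ _ _ _ ha _ _ _ _ (by omega)]
  simp only [fs, List.getElem_map, List.getElem_range, hφS]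
  rw [if_neg (lt_irrefl _),
    unHot_congr Al _ (oneHot Al (Sim.col ((Sim.next tm.m)^[W - 1] c₀) 0)),
    unHot_oneHot _ _ (hcol _ _ (hv _).1), hfin _ (by omega), haltList_eq]
  · cases o <;> simp [Sim.col]
  · intro b hb
    change b < a at hb
    have h1 := hmod 0 (by omega) b hb
    rw [Nat.zero_mul, Nat.zero_add] at h1
    rw [h1, Nat.div_eq_of_lt hb, Nat.mod_eq_of_lt hb]
    have h0 : τ.nb W 0 0 = 0 := by
      unfold TabD.nb
      split_ifs <;> simp
    exact (congrArg (fun i => τ.cell z W (W - 1) i b) h0).trans (key _ _ _ hb)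

end Crest.Agent.R290
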