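import Crest.Agent.R290.Hard
import Crest.Agent.R290.Main
import Crest.Agent.R290.TabD
import Crest.Agent.R290.PTRed

/-!
Row 290.  The unconditional lower bound, by diagonalisation through the reduction.
-/

set_option autoImplicit false

namespace Crest.Agent.R290

open Crest.Agent.Lib.PT Crest.WLRefine Crest.Enc

lemma dg_exists_sd : ∃ c : TabD → List Bool, SD c := by
  have hu : SD (fun _ : Unit => [true]) :=
    SD.bool.comp (fun _ : Unit => true) (Reads.const _ ())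
  have hU := SD.natCode.list hu (by simp)
  have hB := SD.natCode.list SD.bool (by simp)
  have hG := SD.natCode.list (SD.natCode.prod SD.natCode) (by simp [natCode_ne_nil])
  exact ⟨_, hU.prod (hU.prod (hB.prod (hB.prod (hB.prod (hG.prod
    (SD.listCode.prod SD.natCode))))))⟩

/-- A total reader for codes of a tableau and two numbers. -/
lemma dg_exists_reader : ∃ (c : TabD → List Bool) (P : List Bool → TabD × ℕ × ℕ), PT P ∧
    ∀ τ m n, P (c τ ++ (natCode m ++ natCode n)) = (τ, m, n) := by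
  obtain ⟨c, hc⟩ := dg_exists_sd
  obtain ⟨P, hP, h⟩ := (hc.prod (SD.natCode.prod SD.natCode)).exists_parser
  refine ⟨c, fun z => (P z).1, hP.fst, fun τ m n => ?_⟩
  have := h (τ, m, n) []
  rw [List.append_nil] at this
  exact congrArg Prod.fst this

/-- The instance built from the input `z` and the padding `u`. -/
def dgInp (P : List Bool → TabD × ℕ × ℕ) (E : ℕ) (a : List Bool × List Unit) : Inp :=
  ((P a.1).1, a.1, List.replicate (min (P a.1).2.1 a.2.length) (),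
    List.replicate (2 ^ (Nat.log 2 (min (P a.1).2.2 a.2.length) / E)) (), true)

def dgL (P : List Bool → TabD × ℕ × ℕ) (E : ℕ) (a : List Bool × List Unit) : ℕ :=
  min (P a.1).2.2 a.2.length - (3 + 46 * (dgInp P E a).N)

def dgCode (P : List Bool → TabD × ℕ × ℕ) (E : ℕ) (a : List Bool × List Unit) : List Bool :=
  rawCode ((dgInp P E a).nv (dgL P E a) + 1)
      (apexN ((dgInp P E a).nv (dgL P E a)) ((dgInp P E a).adj (dgL P E a) false)) ++
    rawCode ((dgInp P E a).nv (dgL P E a) + 1)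
      (apexN ((dgInp P E a).nv (dgL P E a)) ((dgInp P E a).adj (dgL P E a) true))

lemma dg_two_pow_le (n E : ℕ) : 2 ^ (Nat.log 2 n / E) ≤ n + 1 := by
  rcases Nat.eq_zero_or_pos n with rfl | hn
  · simp
  · exact (Nat.pow_le_pow_right (by norm_num) (Nat.div_le_self _ _)).trans
      ((Nat.pow_log_le_self 2 hn.ne').trans (by omega))

lemma dg_pt_code {P : List Bool → TabD × ℕ × ℕ} (hP : PT P) (E : ℕ) : PT (dgCode P E) := by
  have h1 : PT (fun a : List Bool × List Unit => P a.1) := hP.comp PT.id.fst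
  have hl : PT (fun a : List Bool × List Unit => a.2.length) := PT.id.snd.length
  have hl' : PB (fun a : List Bool × List Unit => a.2.length) := PB.length PT.id.snd
  have hn : PT (fun a : List Bool × List Unit => min (P a.1).2.2 a.2.length) := h1.snd.snd.min hl
  have hn' : PB (fun a : List Bool × List Unit => min (P a.1).2.2 a.2.length) :=
    PB.min_right _ hl'
  have hI : PT (dgInp P E) := by
    refine h1.fst.pair (PT.id.fst.pair (PT.pair ?_ (PT.pair ?_ (PT.const true))))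
    · exact PT.replicate (h1.snd.fst.min hl) (PB.min_right _ hl') (PT.const ())
    · refine PT.replicate ((PT.const 2).pow (hn.log2.div (PT.const E)) ((PB.log2 hn).div _))
        ((hn'.add (PB.const 1)).of_le fun a => dg_two_pow_le _ _) (PT.const ())
  have hL : PT (dgL P E) := hn.sub ((PT.const 3).add ((PT.const 46).mul (Inp.pt_N.comp hI)))
  have hL' : PB (dgL P E) := hn'.of_le fun a => Nat.sub_le _ _
  exact (Inp.pt_apexCode hI hL hL' false).append (Inp.pt_apexCode hI hL hL' true)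

lemma dg_eventually (E A : ℕ) (hE : 0 < E) : ∃ n₀, ∀ n ≥ n₀, A ≤ 2 ^ (Nat.log 2 n / E) := by
  refine ⟨2 ^ (A * E), fun n hn => ?_⟩
  have h1 : A * E ≤ Nat.log 2 n := Nat.le_log_of_pow_le (by norm_num) hn
  have h2 : A ≤ Nat.log 2 n / E := (Nat.le_div_iff_mul_le hE).2 h1
  exact Nat.lt_two_pow_self.le.trans (Nat.pow_le_pow_right (by norm_num) h2)

lemma dg_le_pow (E n : ℕ) (hE : 0 < E) : n ≤ 2 ^ E * (2 ^ (Nat.log 2 n / E)) ^ E := by
  have h1 := Nat.lt_pow_succ_log_self (b := 2) (by norm_num) n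
  have h2 : Nat.log 2 n + 1 ≤ E + Nat.log 2 n / E * E := by
    have := Nat.div_add_mod (Nat.log 2 n) E
    have := Nat.mod_lt (Nat.log 2 n) hE
    rw [mul_comm (_ / _)]
    omega
  rw [← pow_mul, ← pow_add]
  exact h1.le.trans (Nat.pow_le_pow_right (by norm_num) h2)

lemma dg_pow_le (E n : ℕ) (hn : 0 < n) : (2 ^ (Nat.log 2 n / E)) ^ E ≤ n := by
  rw [← pow_mul]
  exact (Nat.pow_le_pow_right (by norm_num) (Nat.div_mul_le_self _ _)).trans
    (Nat.pow_log_le_self 2 hn.ne')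

lemma dg_size_le (E n : ℕ) (hE : 0 < E) : Nat.size n ≤ E * 2 ^ (Nat.log 2 n / E) := by
  have h1 := log2_eq_size_sub_one n
  have h2 : Nat.log 2 n + 1 ≤ E * (Nat.log 2 n / E + 1) := by
    have := Nat.div_add_mod (Nat.log 2 n) E
    have := Nat.mod_lt (Nat.log 2 n) hE
    rw [mul_add]
    omega
  have h3 : Nat.log 2 n / E + 1 ≤ 2 ^ (Nat.log 2 n / E) := Nat.lt_two_pow_self
  have := Nat.mul_le_mul_left E h3
  omega

lemma dg_real {n t K D : ℕ} (hn : 0 < n) (hD : 0 < D) (h : ¬ (n : ℝ) ^ ((1 / D : ℝ) * K) ≤ t) :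
    t ≤ n ^ (K / D + 1) := by
  have h1 : (t : ℝ) ≤ (n : ℝ) ^ ((K / D + 1 : ℕ) : ℝ) := by
    refine (not_le.1 h).le.trans (Real.rpow_le_rpow_of_exponent_le (by exact_mod_cast hn) ?_)
    have hD' : (0 : ℝ) < D := by exact_mod_cast hD
    rw [one_div, inv_mul_eq_div, div_le_iff₀ hD']
    have : K ≤ (K / D + 1) * D := by
      have := Nat.div_add_mod K D
      have := Nat.mod_lt K hD
      rw [add_mul, mul_comm (K / D)]
      omega
    exact_mod_cast this
  rw [Real.rpow_natCast] at h1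
  exact_mod_cast h1

theorem diag (e : ℕ) : ∃ c : ℝ, 0 < c ∧ ∃ K₀ : ℕ, ∀ K ≥ K₀, ∀ (p : Prog) (T : ℕ → ℕ) (C : ℕ),
    Decides p K (fun n => C * (T n + n + 1) ^ e) →
      ∃ n₀ : ℕ, ∀ n ≥ n₀, (n : ℝ) ^ (c * K) ≤ T n := by
  obtain ⟨c, P, hP, hc⟩ := dg_exists_reader
  obtain ⟨c₁, k₁, hN⟩ := Inp.pb_N
  obtain ⟨E, hE⟩ : ∃ E, E = k₁ + 1 := ⟨_, rfl⟩
  have hE0 : 0 < E := by omega
  obtain ⟨c₂, k₂, q, hq⟩ := TimeF.of_pad (m := fun z => Nat.size (P z).2.2) hP.snd.snd.size
    (dg_pt_code hP E)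
  obtain ⟨Dn, hD⟩ : ∃ Dn, Dn = 8 * (E * e) + 1 := ⟨_, rfl⟩
  have hD0 : 0 < Dn := by omega
  refine ⟨1 / Dn, by positivity, 8 * (E * (e + k₂ + 1)) + 24, fun K hK p T C hp => ?_⟩
  obtain ⟨M, K₁, hM⟩ := compile (Enc.enc : Bool → D) (Enc.enc : Bool → D) Enc.inj (.comp p q)
  obtain ⟨τ, hτ, hout⟩ := exists_tabD M
  -- exponents and constants
  obtain ⟨r, hr⟩ : ∃ r, r = (K / Dn + 1) * e + k₂ + 1 := ⟨_, rfl⟩
  have hh : E * r + 1 ≤ (K - 1) / 4 := by
    have h1 : Dn * (K / Dn) ≤ K := Nat.mul_div_le _ _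
    have h2 : E * r = E * e * (K / Dn) + E * (e + k₂ + 1) := by rw [hr]; ring
    have h3 : 8 * (E * e * (K / Dn)) ≤ Dn * (K / Dn) := by
      rw [← mul_assoc]; exact Nat.mul_le_mul_right _ (by omega)
    omega
  obtain ⟨B, hB⟩ : ∃ B, B = (c τ).length + (natCode (K - 1)).length + 2 := ⟨_, rfl⟩
  obtain ⟨A₁, hA₁⟩ : ∃ A, A = sz τ + 6 * (B + 2 * E) + 2 * K + 14 := ⟨_, rfl⟩
  obtain ⟨A₂, hA₂⟩ : ∃ A, A = K₁ * (c₂ * (6 * (B + 2) + 3) ^ k₂ + C * 3 ^ e) := ⟨_, rfl⟩
  obtain ⟨A₃, hA₃⟩ : ∃ A, A = B + 2 + (τ.d + 1) * A₂ + 2 * τ.d := ⟨_, rfl⟩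
  obtain ⟨n₁, hn₁⟩ := dg_eventually E (49 * (c₁ * A₁ ^ k₁ + 1) + A₃ * 2 ^ (E * r) + 1) hE0
  refine ⟨n₁ + K + 1, fun n hn => ?_⟩
  by_contra hcon
  have hn0 : 0 < n := by omega
  have hT := dg_real hn0 hD0 hcon
  have hb := hn₁ n (by omega)
  obtain ⟨b, hbdef⟩ : ∃ b, b = 2 ^ (Nat.log 2 n / E) := ⟨_, rfl⟩
  rw [← hbdef] at hb
  have hb0 : 0 < b := by omega
  obtain ⟨z, hz⟩ : ∃ z, z = c τ ++ (natCode (K - 1) ++ natCode n) := ⟨_, rfl⟩
  have hPz : P z = (τ, K - 1, n) := by rw [hz, hc]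
  have hzl : z.length = B + 2 * Nat.size n := by
    rw [hz, List.length_append, List.length_append, length_natCode n, hB]; ring
  have hs1 : n < 2 ^ Nat.size n := Nat.lt_size_self n
  have hs2 : 2 ^ Nat.size n ≤ 2 * n := by
    have h1 := log2_eq_size_sub_one n
    have h2 := Nat.pow_log_le_self 2 hn0.ne'
    have h3 : 0 < Nat.size n := Nat.size_pos.2 hn0
    rw [show Nat.size n = Nat.log 2 n + 1 by omega, pow_succ]
    omega
  have hs3 := size_le_self' n
  obtain ⟨a, ha⟩ : ∃ a : List Bool × List Unit, a = (z, List.replicate (2 ^ Nat.size n) ()) :=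
    ⟨_, rfl⟩
  obtain ⟨I, hI⟩ : ∃ I : Inp,
      I = (τ, z, List.replicate (K - 1) (), List.replicate b (), true) := ⟨_, rfl⟩
  have hIa : dgInp P E a = I := by
    simp only [dgInp, ha, hPz, hI, List.length_replicate, hbdef]
    rw [min_eq_left (by omega), min_eq_left hs1.le]
  have hIm : I.m = K - 1 := by simp [hI, Inp.m]
  have hIn : I.n = b := by simp [hI, Inp.n]
  have hIx : I.x = z := by simp [hI, Inp.x]
  have hIt : I.tab = τ := by simp [hI, Inp.tab]
  have hIf : I.flag = true := by simp [hI, Inp.flag]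
  -- the system fits into `n` vertices
  have hfit : 3 + 46 * I.N ≤ n := by
    have h1 : sz I ≤ A₁ * b := by
      have e1 : sz I = sz τ + (6 * z.length + 1) + (2 * (K - 1) + 1) + (2 * b + 1) + 9 := by
        rw [hI]
        simp only [sz_pair, sz_boolList, sz_unitList, List.length_replicate, sz_bool]
        ring
      have e2 := dg_size_le E n hE0
      rw [← hbdef] at e2
      have e3 : sz τ + 6 * B + 2 * K + 12 ≤ (sz τ + 6 * B + 2 * K + 12) * b :=
        Nat.le_mul_of_pos_right _ hb0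
      rw [e1, hzl, hA₁]
      have e4 : (sz τ + 6 * (B + 2 * E) + 2 * K + 14) * b =
          (sz τ + 6 * B + 2 * K + 12) * b + 12 * (E * b) + 2 * b := by ring
      omega
    have h2 : I.N ≤ c₁ * A₁ ^ k₁ * b ^ k₁ := by
      rw [mul_assoc, ← mul_pow]
      exact (hN I).trans (Nat.mul_le_mul_left _ (Nat.pow_le_pow_left h1 _))
    have h3 := dg_pow_le E n hn0
    rw [← hbdef, hE, pow_succ] at h3
    have h4 : 0 < b ^ k₁ := by positivity
    generalize c₁ * A₁ ^ k₁ = x at h2 hb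
    generalize b ^ k₁ = y at h2 h3 h4
    have h5 : y * (49 * (x + 1)) ≤ y * b := Nat.mul_le_mul_left _ (by omega)
    have h6 : y * (49 * (x + 1)) = 49 * (x * y) + 49 * y := by ring
    omega
  obtain ⟨L, hL⟩ : ∃ L, L = n - (3 + 46 * I.N) := ⟨_, rfl⟩
  have hLa : dgL P E a = L := by
    rw [dgL, hIa, hL, ha, hPz]
    simp only [List.length_replicate]
    rw [min_eq_left hs1.le]
  have hnv : I.nv L + 1 = n := by
    unfold Inp.nv R290.nv
    omega
  -- the grid is large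
  obtain ⟨T', hT'⟩ : ∃ T', T' = K₁ * (c₂ * (sz z + 2 ^ Nat.size n) ^ k₂ + C * (T n + n + 1) ^ e) :=
    ⟨_, rfl⟩
  have hnr : n ≤ n ^ r := Nat.le_self_pow (by omega) _
  have hT2 : T' ≤ A₂ * n ^ r := by
    have e1 : sz z + 2 ^ Nat.size n ≤ (6 * (B + 2) + 3) * n := by
      rw [sz_boolList, hzl]
      have : B ≤ B * n := Nat.le_mul_of_pos_right _ hn0
      have e : (6 * (B + 2) + 3) * n = 6 * (B * n) + 15 * n := by ring
      omega
    have e2 : T n + n + 1 ≤ 3 * n ^ (K / Dn + 1) := by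
      have : n ≤ n ^ (K / Dn + 1) := Nat.le_self_pow (Nat.succ_ne_zero _) _
      omega
    have e3 : (sz z + 2 ^ Nat.size n) ^ k₂ ≤ (6 * (B + 2) + 3) ^ k₂ * n ^ r := by
      refine (Nat.pow_le_pow_left e1 _).trans ?_
      rw [mul_pow]
      exact Nat.mul_le_mul_left _ (Nat.pow_le_pow_right hn0
        (hr ▸ (Nat.le_add_left _ _).trans (Nat.le_succ _)))
    have e4 : (T n + n + 1) ^ e ≤ 3 ^ e * n ^ r := by
      refine (Nat.pow_le_pow_left e2 _).trans ?_
      rw [mul_pow, ← pow_mul]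
      exact Nat.mul_le_mul_left _ (Nat.pow_le_pow_right hn0 (by omega))
    rw [hT', hA₂, mul_assoc, add_mul, mul_assoc, mul_assoc]
    gcongr
  have hW : A₃ * n ^ r < I.W := by
    have e1 := dg_le_pow E n hE0
    rw [← hbdef] at e1
    have e2 : n ^ r ≤ 2 ^ (E * r) * b ^ (E * r) := by
      refine (Nat.pow_le_pow_left e1 r).trans ?_
      rw [mul_pow, ← pow_mul, ← pow_mul]
    have e3 : b ^ (E * r + 1) ≤ I.W := by
      rw [Inp.W, hIm, hIn]
      exact Nat.pow_le_pow_right hb0 hh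
    have e4 : 0 < b ^ (E * r) := by positivity
    calc A₃ * n ^ r ≤ A₃ * (2 ^ (E * r) * b ^ (E * r)) := Nat.mul_le_mul_left _ e2
      _ = A₃ * 2 ^ (E * r) * b ^ (E * r) := by ring
      _ < b * b ^ (E * r) := Nat.mul_lt_mul_of_pos_right (by omega) e4
      _ = b ^ (E * r + 1) := by ring
      _ ≤ I.W := e3
  have hW2 : z.length + (τ.d + 1) * T' + 2 * τ.d < I.W := by
    refine lt_of_le_of_lt ?_ hW
    have e1 : z.length ≤ (B + 2) * n ^ r := by
      have : B ≤ B * n ^ r := Nat.le_mul_of_pos_right _ (by omega)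
      rw [hzl, add_mul]
      omega
    have e2 : (τ.d + 1) * T' ≤ (τ.d + 1) * A₂ * n ^ r := by
      rw [mul_assoc]; exact Nat.mul_le_mul_left _ hT2
    have e3 : 2 * τ.d ≤ 2 * τ.d * n ^ r := Nat.le_mul_of_pos_right _ (by omega)
    rw [hA₃, add_mul (B + 2 + (τ.d + 1) * A₂), add_mul (B + 2)]
    exact Nat.add_le_add (Nat.add_le_add e1 e2) e3
  rw [add_mul, one_mul] at hW2
  have hOK : I.OK := ⟨hIt ▸ hτ, by omega, by omega, by rw [hIt]; omega, by rw [hIx]; omega⟩
  -- run the decider on its own tableau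
  have s0 := I.subcubic L false
  have s1 := I.subcubic L true
  obtain ⟨o, ho, hev⟩ := hp _ _ _ (simpleConnDiamTwo_apex s0.1) (simpleConnDiamTwo_apex s1.1)
  rw [peb_apex_iff (by omega) (I.five_le_nv L) s0.2.2 s1.2.2,
    show K = I.m + 1 by omega, Inp.peb_iff L hOK, hIf, hIt, hIx] at ho
  rw [adjMatrixCode_toMat, adjMatrixCode_toMat] at hev
  have h1 := hq z
  simp only [hPz, ← ha] at h1
  rw [dgCode, hIa, hLa] at h1
  have h2 := h1.comp_l hev
  simp only [hnv] at h2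
  have h3 := hout z o T' I.W (hT' ▸ hM z [o] _ h2) (by omega) (by omega)
  rw [h3] at ho
  cases o <;> simp at ho

end Crest.Agent.R290
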