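import Crest.Agent.R290.GadDupB

/-!
Row 290.  Duplicator's strategy on a safe gadget system.
-/

set_option autoImplicit false

namespace Crest.Agent.R290

open Finset

namespace GSys

variable {R T : Type} [DecidableEq R] [DecidableEq T] {G : GSys R T}
  {Tr : T → (ℕ → ℕ) → Prop} {p : Finset (GB R)} {σ : GX R T → ZMod 2} {r₂ : R} {i d : ℕ}

/-- What is asked of the flip amounts `α`. -/
structure Good (G : GSys R T) (Tr : T → (ℕ → ℕ) → Prop) (p : Finset (GB R))
    (σ : GX R T → ZMod 2) (r₂ : R) (i d : ℕ) (α : T → ZMod 2) : Prop where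
  r1 : ∀ f, α f ≠ 0 → G.Flip p (i / 2) f
  r2 : ∀ r, G.okR r → G.wild r (i / 2) = true → Occ p r (2 * (i / 2)) →
    Occ p r (2 * (i / 2) + 1) → ((G.F r).map α).sum = 0
  r3 : ∀ f a, G.New p (r₂, i, d) f a → Tr f a → G.Z σ f + α f = 0
  r4 : ¬ Occ p r₂ i → (∀ l < G.m, l ≠ i → Occ p r₂ l) →
    ((G.F r₂).map fun f => G.Z σ f + α f).sum + G.fv σ r₂ + G.b r₂ = 0 ∧
      ∀ y, G.fgn r₂ = some y → α y.1 = 0

omit [DecidableEq R] [DecidableEq T] in
lemma Inv.viol_occ (h : G.Inv Tr p σ) {r : R} {j : ℕ} (ho : Occ p r j) :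
    G.viol σ (r, j, 0) = 0 := by
  obtain ⟨d', hY⟩ := ho
  obtain ⟨h1, h2, h3⟩ := h.ok _ hY
  dsimp only at h1 h2 h3
  by_cases hw : G.wild r (j / 2) = true
  · rw [← h.v1 r j d' h1 h2 hw]; exact h.v2 _ hY
  · rw [if_neg hw] at h3
    rw [← h3]; exact h.v2 _ hY

omit [DecidableEq R] [DecidableEq T] in
/-- Both rows of the register of `i` are occupied: name the pebble in row `i` and the other row. -/
lemma both_rows (hW : G.WF) {r : R} (hr : G.okR r) (hw : G.wild r (i / 2) = true)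
    (h1 : Occ p r (2 * (i / 2))) (h2 : Occ p r (2 * (i / 2) + 1)) :
    ∃ j d₁ d₂, j < G.m ∧ j ≠ i ∧ j / 2 = i / 2 ∧ (r, i, d₁) ∈ p ∧ (r, j, d₂) ∈ p := by
  have := wild_lt hW hr hw
  obtain ⟨d₁, h1⟩ := h1
  obtain ⟨d₂, h2⟩ := h2
  by_cases e : i % 2 = 0
  · exact ⟨2 * (i / 2) + 1, d₁, d₂, by omega, by omega, by omega,
      by rwa [show 2 * (i / 2) = i by omega] at h1, h2⟩
  · exact ⟨2 * (i / 2), d₂, d₁, by omega, by omega, by omega,
      by rwa [show 2 * (i / 2) + 1 = i by omega] at h2, h1⟩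

omit [DecidableEq R] in
lemma sum_map_add_single {l : List T} (hl : l.Nodup) {g : T} (hg : g ∈ l) (φ : T → ZMod 2)
    (t : ZMod 2) : (l.map fun f => φ f + if f = g then t else 0).sum = (l.map φ).sum + t := by
  rw [gd_sum_map_add, gd_sum_map_single l hl g hg _ (fun x _ hx => if_neg hx), if_pos rfl]

/-- The new block completes a full world. -/
lemma good_of_legit (hW : G.WF) (hS : G.Safe Tr) (h : G.Inv Tr p σ) (hc : p.card ≤ G.m)
    (hB : G.ok (r₂, i, d)) (hn : (r₂, i, d) ∉ p) {w : ℕ → ℕ} (hL : G.Legit p r₂ i d w) :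
    ∃ α, Good G Tr p σ r₂ i d α := by
  classical
  have hi : i < G.m := hB.2.1
  have hr₂ : G.okR r₂ := hB.1
  have hm := hW.m4
  -- types whose port in row `i` is already touched
  let U : T → Prop := fun f => Touch G.sys.eqn p (Sum.inl (f, i, G.wv r₂ f w (i / 2)))
  have hU : ∀ f ∈ G.F r₂, ¬ U f → G.New p (r₂, i, d) f (G.wv r₂ f w) := fun f hf hu =>
    ⟨hL.compl hf, fun hc => hu (hc i hi)⟩
  have hUc : ∀ f ∈ G.F r₂, U f → G.Compl p f (G.wv r₂ f w) := by
    intro f hf hu j hj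
    by_cases hji : j = i
    · rw [hji]; exact hu
    · exact touch_iff.2 ⟨_, _, hL.2.2 j hj hji, Legit.port hf j⟩
  have hUn : ∀ f ∈ G.F r₂, ∀ a, G.New p (r₂, i, d) f a → ¬ U f := by
    intro f hf a hN hu
    have := (hN.port hi).unique hW hr₂ (hL.port_new hf)
    exact hN.not_touch (this ▸ hu)
  have hU1 : ∀ f ∈ G.F r₂, ∀ g ∈ G.F r₂, U f → U g → f = g := by
    intro f hf g hg huf hug
    obtain ⟨r, d₁, hX, hP⟩ := touch_iff.1 huf
    obtain ⟨r', d₂, hX', hP'⟩ := touch_iff.1 hug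
    have e := hL.cover.eq_of_row hc hi hX rfl hX hX' rfl
    rw [← e] at hP'
    have hne : r ≠ r₂ := by
      rintro rfl
      have e1 := hP.of_mem hW hr₂ hf
      have e2 := (hL.port_new hf).of_mem hW hr₂ hf
      have o1 := (h.ok _ hX).2.2
      have o2 := hB.2.2
      dsimp only at e1 e2 o1 o2
      by_cases hw : G.wild r (i / 2) = true
      · rw [val, if_pos hw] at e1 e2
        exact hn (by rw [← e2, e1]; exact hX)
      · rw [if_neg hw] at o1 o2
        exact hn (by rw [o2, ← o1]; exact hX)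
    exact hS.share r r₂ (h.ok _ hX).1 hr₂ hne f g hP.ment (Or.inl hf) hP'.ment (Or.inl hg)
  -- newly completed types are types of the gadget
  have hNF : ∀ f a, G.New p (r₂, i, d) f a → f ∈ G.F r₂ := by
    intro f a hN
    by_contra hf
    have hy : G.fgn r₂ = some (f, i, a (i / 2)) := (hN.port hi).resolve_left fun h => hf h.1
    obtain ⟨j, l, hj, hl, hji, hli, hjl⟩ : ∃ j l, j < G.m ∧ l < G.m ∧ j ≠ i ∧ l ≠ i ∧ j ≠ l := by
      by_cases e0 : i = 0
      · exact ⟨1, 2, by omega, by omega, by omega, by omega, by omega⟩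
      · by_cases e1 : i = 1
        · exact ⟨0, 2, by omega, by omega, by omega, by omega, by omega⟩
        · exact ⟨0, 1, by omega, by omega, by omega, by omega, by omega⟩
    have key : ∀ j < G.m, j ≠ i → ∀ r d', G.Port (r, j, d') f (a (j / 2)) → r ≠ r₂ := by
      rintro j _ hji r d' (hP | hP) rfl
      · exact hf hP.1
      · rw [hy] at hP
        simp only [Option.some.injEq, Prod.mk.injEq] at hP
        exact hji hP.2.1.symm
    obtain ⟨r, d₁, hY, hP⟩ := hN.touch hj hji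
    obtain ⟨r', d₂, hY', hP'⟩ := hN.touch hl hli
    rcases hL.cover.not_double hc hi hY (hL.2.2 j hj hji) hY' (hL.2.2 l hl hli) rfl rfl hjl with
      e | e
    · exact key j hj hji r d₁ hP (congrArg Prod.fst e)
    · exact key l hl hli r' d₂ hP' (congrArg Prod.fst e)
  -- it suffices to balance the gadget
  suffices H : ∃ α : T → ZMod 2, (∀ f, α f ≠ 0 → f ∈ G.F r₂ ∧ ¬ U f) ∧
      (∀ f a, G.New p (r₂, i, d) f a → Tr f a → G.Z σ f + α f = 0) ∧
      ((G.F r₂).map fun f => G.Z σ f + α f).sum + G.fv σ r₂ + G.b r₂ = 0 by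
    obtain ⟨α, a1, a2, a3⟩ := H
    refine ⟨α, fun f hf => (hU f (a1 f hf).1 (a1 f hf).2).flip hW h.ok hc hB, ?_, a2,
      fun _ _ => ⟨a3, fun y hy => ?_⟩⟩
    · intro r hr hw o1 o2
      obtain ⟨j, d₁, d₂, hj, hji, _, hX, hY⟩ := both_rows hW hr hw o1 o2
      have e := hL.cover.eq_of_row hc hi hX rfl hY (hL.2.2 j hj hji) rfl
      obtain rfl : r = r₂ := congrArg Prod.fst e
      have hs := G.sum_viol hW h.ps hr
      rw [sum_eq_zero fun l hl => h.viol_occ (by
        by_cases hli : l = i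
        · exact ⟨d₁, hli ▸ hX⟩
        · exact ⟨_, hL.2.2 l (mem_range.1 hl) hli⟩)] at hs
      rw [gd_sum_map_add] at a3
      linear_combination a3 + hs
    · by_contra hy'
      exact (hW.fgn r₂ hr₂ y hy).2.2.1 (a1 _ hy').1
  rcases hS.local' r₂ hr₂ w hL.1 with ⟨hT, hb, hf0⟩ | ⟨f₁, hf₁, f₂, hf₂, hne, n1, n2⟩
  · refine ⟨fun f => if f ∈ G.F r₂ then G.Z σ f else 0, fun f hf => ?_, fun f a hN _ => ?_, ?_⟩
    · beta_reduce at hf
      split_ifs at hf with hf'
      · exact ⟨hf', fun hu => hf (h.g1 f _ (hUc f hf' hu) (hT f hf'))⟩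
      · exact absurd rfl hf
    · beta_reduce
      rw [if_pos (hNF f a hN)]; exact gd_add_self _
    · rw [gd_sum_map_zero _ _ fun f hf => by beta_reduce; rw [if_pos hf]; exact gd_add_self _, hb, fv, hf0]
      simp
  · obtain ⟨g, hg, hgU, hgT⟩ : ∃ g ∈ G.F r₂, ¬ U g ∧ ¬ Tr g (G.wv r₂ g w) := by
      by_cases hu : U f₁
      · exact ⟨f₂, hf₂, fun hu' => hne (hU1 _ hf₁ _ hf₂ hu hu'), n2⟩
      · exact ⟨f₁, hf₁, hu, n1⟩
    let α₀ : T → ZMod 2 := fun f => if f ∈ G.F r₂ ∧ ¬ U f then G.Z σ f else 0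
    let t : ZMod 2 := ((G.F r₂).map fun f => G.Z σ f + α₀ f).sum + G.fv σ r₂ + G.b r₂
    refine ⟨fun f => α₀ f + if f = g then t else 0, fun f hf => ?_, fun f a hN hT => ?_, ?_⟩
    · by_cases e : f = g
      · rw [e]; exact ⟨hg, hgU⟩
      · beta_reduce at hf
        rw [if_neg e, add_zero] at hf
        by_contra hcon
        exact hf (if_neg hcon)
    · have hf := hNF f a hN
      have e : f ≠ g := by
        rintro rfl
        refine hgT (hS.congr f a _ (fun ρ hρ => ?_) hT)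
        by_cases hρi : ρ = i / 2
        · rw [hρi]; exact (hN.port hi).unique hW hr₂ (hL.port_new hf)
        · obtain ⟨r, d₁, hY, hP⟩ := hN.touch (j := 2 * ρ) (by omega) (by omega)
          obtain ⟨r', d₂, hY', hP'⟩ := hN.touch (j := 2 * ρ + 1) (by omega) (by omega)
          rcases hL.cover.not_double hc hi hY (hL.2.2 (2 * ρ) (by omega) (by omega)) hY'
            (hL.2.2 (2 * ρ + 1) (by omega) (by omega)) rfl rfl (by dsimp only; omega) with e | e
          · rw [e] at hP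
            have := hP.unique hW hr₂ (Legit.port hf (2 * ρ))
            rwa [show 2 * ρ / 2 = ρ by omega] at this
          · rw [e] at hP'
            have := hP'.unique hW hr₂ (Legit.port hf (2 * ρ + 1))
            rwa [show (2 * ρ + 1) / 2 = ρ by omega] at this
      beta_reduce
      rw [if_neg e, add_zero]
      simp only [α₀]
      rw [if_pos ⟨hf, hUn f hf a hN⟩]
      exact gd_add_self _
    · simp only [← add_assoc]
      rw [sum_map_add_single (hW.nodup r₂ hr₂) hg (fun f => G.Z σ f + α₀ f) t]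
      have := gd_add_self t
      simp only [t] at this ⊢
      linear_combination this

/-- All other rows of the gadget are occupied but no full world is completed. -/
lemma good_of_full (hW : G.WF) (hS : G.Safe Tr) (h : G.Inv Tr p σ) (hc : p.card ≤ G.m)
    (hB : G.ok (r₂, i, d)) (hL : ¬ ∃ w, G.Legit p r₂ i d w)
    (ho : ∀ l < G.m, l ≠ i → Occ p r₂ l) : ∃ α, Good G Tr p σ r₂ i d α := by
  classical
  have hi : i < G.m := hB.2.1
  have hr₂ : G.okR r₂ := hB.1
  have hcov : Cover p G.m i := fun j hj hji => ⟨r₂, ho j hj hji⟩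
  obtain ⟨ρ₀, hw₀⟩ : ∃ ρ, G.wild r₂ ρ = true := by
    by_contra hcon
    push Not at hcon
    refine hL ⟨fun _ => 0, fun _ => hW.npos, fun hw => absurd hw (hcon _), fun j hj hji => ?_⟩
    obtain ⟨d', hY⟩ := ho j hj hji
    have o := (h.ok _ hY).2.2
    dsimp only at o
    rw [if_neg (hcon _)] at o ⊢
    rw [← o]; exact hY
  have hf0 := fgn_none hW hr₂ hw₀
  have hMF : ∀ f, G.Ment r₂ f → f ∈ G.F r₂ := by
    rintro f (hf | ⟨y, hy, _⟩)
    · exact hf
    · rw [hf0] at hy; simp at hy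
  let M : T → Prop := fun f => ∃ Y ∈ p, Y.1 ≠ r₂ ∧ G.Ment Y.1 f
  have hNM : ∀ f a, G.New p (r₂, i, d) f a → M f := by
    intro f a hN
    by_contra hM
    refine hL (hN.legit hW h.ok hB (hMF f (hN.port hi).ment) fun j _ _ r d' hY hP => ?_)
    by_contra hr
    exact hM ⟨_, hY, hr, hP.ment⟩
  have hM1 : ∀ f ∈ G.F r₂, ∀ g ∈ G.F r₂, M f → M g → f = g := by
    rintro f hf g hg ⟨Y, hY, y1, y2⟩ ⟨Y', hY', y1', y2'⟩
    have : ∀ j, ∃ d', j < G.m → j ≠ i → (r₂, j, d') ∈ p := by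
      intro j
      by_cases hj : j < G.m ∧ j ≠ i
      · obtain ⟨d', hd'⟩ := ho j hj.1 hj.2
        exact ⟨d', fun _ _ => hd'⟩
      · exact ⟨0, fun h1 h2 => absurd ⟨h1, h2⟩ hj⟩
    choose φ hφ using this
    have e := no_two_extra hc hi (fun j => (r₂, j, φ j)) (fun j hj hji => ⟨hφ j hj hji, rfl⟩) hY hY'
      (Or.inr fun e => y1 (congrArg Prod.fst e)) (Or.inr fun e => y1' (congrArg Prod.fst e))
    rw [← e] at y2'
    exact hS.share _ r₂ (h.ok _ hY).1 hr₂ y1 f g y2 (Or.inl hf) y2' (Or.inl hg)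
  by_cases hoi : Occ p r₂ i
  · refine ⟨fun _ => 0, fun f hf => absurd rfl hf, fun r _ _ _ _ => gd_sum_map_zero _ _ fun _ _ => rfl,
      fun f a hN _ => ?_, fun h' => absurd hoi h'⟩
    obtain ⟨Y, hY, y1, _⟩ := hNM f a hN
    obtain ⟨d₁, hX⟩ := hoi
    exfalso
    by_cases e : Y.2.1 = i
    · exact y1 (congrArg Prod.fst (hcov.eq_of_row hc hi hX rfl hY hX e))
    · obtain ⟨d₂, hY'⟩ := ho _ (h.ok _ hY).2.1 e
      exact y1 (congrArg Prod.fst (hcov.eq_of_row hc hi hX rfl hY hY' rfl))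
  · obtain ⟨g, hg, hgM⟩ := exists_ne_of_two (hW.nodup r₂ hr₂) (hS.two r₂ hr₂ ρ₀ hw₀) M hM1
    let α₀ : T → ZMod 2 := fun f => if ∃ a, G.New p (r₂, i, d) f a then G.Z σ f else 0
    let t : ZMod 2 := ((G.F r₂).map fun f => G.Z σ f + α₀ f).sum + G.fv σ r₂ + G.b r₂
    refine ⟨fun f => α₀ f + if f = g then t else 0, fun f hf => ?_, fun r hr hw o1 o2 => ?_,
      fun f a hN _ => ?_, fun _ _ => ⟨?_, fun y hy => ?_⟩⟩
    · by_cases e : f = g
      · subst e
        refine fun s => ⟨i, hi, rfl, fun ht => ?_⟩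
        obtain ⟨r, d₁, hX, hP⟩ := touch_iff.1 ht
        exact hgM ⟨_, hX, fun e => hoi ⟨d₁, by rw [← e]; exact hX⟩, hP.ment⟩
      · rw [if_neg e, add_zero] at hf
        have : ∃ a, G.New p (r₂, i, d) f a := by
          by_contra hcon
          exact hf (if_neg hcon)
        obtain ⟨a, hN⟩ := this
        exact hN.flip hW h.ok hc hB
    · exfalso
      obtain ⟨j, d₁, d₂, hj, hji, _, hX, hY⟩ := both_rows hW hr hw o1 o2
      obtain ⟨d₃, hY'⟩ := ho j hj hji
      obtain rfl : r = r₂ := congrArg Prod.fst (hcov.eq_of_row hc hi hX rfl hY hY' rfl)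
      exact hoi ⟨d₁, hX⟩
    · have e : f ≠ g := fun e => hgM (e ▸ hNM f a hN)
      rw [if_neg e, add_zero]
      simp only [α₀]
      rw [if_pos ⟨a, hN⟩]
      exact gd_add_self _
    · simp only [← add_assoc]
      rw [sum_map_add_single (hW.nodup r₂ hr₂) hg (fun f => G.Z σ f + α₀ f) t]
      have := gd_add_self t
      simp only [t] at this ⊢
      linear_combination this
    · rw [hf0] at hy; simp at hy

/-- Another row of the gadget is free. -/
lemma good_of_free (hW : G.WF) (hS : G.Safe Tr) (h : G.Inv Tr p σ) (hc : p.card ≤ G.m)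
    (hB : G.ok (r₂, i, d)) {l : ℕ} (hl : l < G.m) (hli : l ≠ i) (hol : ¬ Occ p r₂ l) :
    ∃ α, Good G Tr p σ r₂ i d α := by
  classical
  have hi : i < G.m := hB.2.1
  have hr₂ : G.okR r₂ := hB.1
  let α₀ : T → ZMod 2 := fun f => if ∃ a, G.New p (r₂, i, d) f a then G.Z σ f else 0
  have h0 : ∀ f, α₀ f ≠ 0 → ∃ a, G.New p (r₂, i, d) f a := by
    intro f hf
    by_contra hcon
    exact hf (if_neg hcon)
  have h1 : ∀ f a, G.New p (r₂, i, d) f a → G.Z σ f + α₀ f = 0 := by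
    intro f a hN
    simp only [α₀]
    rw [if_pos ⟨a, hN⟩]
    exact gd_add_self _
  by_cases hR : ∀ r, G.okR r → G.wild r (i / 2) = true → Occ p r (2 * (i / 2)) →
      Occ p r (2 * (i / 2) + 1) → ((G.F r).map α₀).sum = 0
  · refine ⟨α₀, fun f hf => ?_, hR, fun f a hN _ => h1 f a hN,
      fun _ h' => absurd (h' l hl hli) hol⟩
    obtain ⟨a, hN⟩ := h0 f hf
    exact hN.flip hW h.ok hc hB
  · push Not at hR
    obtain ⟨r, hr, hw, o1, o2, hκ⟩ := hR
    obtain ⟨f₀, hf₀, hα⟩ : ∃ f ∈ G.F r, α₀ f ≠ 0 := by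
      by_contra hcon
      push Not at hcon
      exact hκ (gd_sum_map_zero _ _ hcon)
    obtain ⟨a₀, hN₀⟩ := h0 f₀ hα
    obtain ⟨j, d₁, d₂, hj, hji, hj2, hX, hY⟩ := both_rows hW hr hw o1 o2
    have huniq := fun {Y₁ Y₂ : GB R} => hN₀.cover.eq_of_row hc hi hX rfl (Y₁ := Y₁) (Y₂ := Y₂)
    have hN1 : ∀ f a, G.New p (r₂, i, d) f a → f = f₀ := by
      intro f a hN
      obtain ⟨r₃, d₃, hY₃, hP₃⟩ := hN.touch hl hli
      obtain ⟨r₄, d₄, hY₄, hP₄⟩ := hN₀.touch hl hli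
      rw [← huniq hY₃ hY₄ rfl] at hP₄
      exact hS.share r₃ r₂ (h.ok _ hY₃).1 hr₂ (fun e => hol ⟨d₃, e ▸ hY₃⟩) f f₀ hP₃.ment
        (hN.port hi).ment hP₄.ment (hN₀.port hi).ment
    obtain ⟨g, hg, hgf⟩ := exists_ne_of_two (hW.nodup r hr) (hS.two r hr _ hw) (fun f => f = f₀)
      fun f _ g _ e e' => e.trans e'.symm
    refine ⟨fun f => α₀ f + if f = g then ((G.F r).map α₀).sum else 0, fun f hf => ?_,
      fun r' hr' hw' o1' o2' => ?_, fun f a hN _ => ?_, fun _ h' => absurd (h' l hl hli) hol⟩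
    · by_cases e : f = g
      · subst e
        intro s
        by_cases ht : Touch G.sys.eqn p (Sum.inl (f, i, s))
        · refine ⟨j, hj, hj2, fun ht' => ?_⟩
          obtain ⟨r₃, d₃, hY₃, hP₃⟩ := touch_iff.1 ht
          obtain ⟨r₄, d₄, hY₄, hP₄⟩ := touch_iff.1 ht'
          obtain ⟨r₅, d₅, hY₅, hP₅⟩ := hN₀.touch hj hji
          rw [huniq hY₃ hX rfl] at hP₃
          rw [huniq hY₄ hY rfl] at hP₄
          rw [huniq hY₅ hY rfl] at hP₅
          have e3 := hP₃.of_mem hW hr hg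
          have e4 := hP₄.of_mem hW hr hg
          have e5 := hP₅.of_mem hW hr hf₀
          dsimp only at e3 e4 e5
          rw [hj2] at e4 e5
          rw [val, if_pos hw] at e3 e4 e5
          refine hN₀.not_touch (touch_iff.2 ⟨r, d₁, hX, Or.inl ⟨hf₀, ?_⟩⟩)
          dsimp only
          rw [val, if_pos hw, e5, ← e4, e3]
        · exact ⟨i, hi, rfl, ht⟩
      · rw [if_neg e, add_zero] at hf
        obtain ⟨a, hN⟩ := h0 f hf
        exact hN.flip hW h.ok hc hB
    · obtain ⟨_, d₃, _, _, _, _, hX', _⟩ := both_rows hW hr' hw' o1' o2'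
      obtain rfl : r' = r := congrArg Prod.fst (huniq hX' hX rfl)
      rw [sum_map_add_single (hW.nodup r' hr') hg]
      exact gd_add_self _
    · rw [if_neg (fun e : f = g => hgf (e.symm.trans (hN1 f a hN))), add_zero]
      exact h1 f a hN

lemma Inv.extend (hW : G.WF) (hS : G.Safe Tr) (h : G.Inv Tr p σ) (hc : p.card ≤ G.m)
    (hB : G.ok (r₂, i, d)) :
    ∃ σ', G.Inv Tr (insert (r₂, i, d) p) σ' ∧ ∀ x, Touch G.sys.eqn p x → σ' x = σ x := by
  classical
  by_cases hn : (r₂, i, d) ∈ p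
  · exact ⟨σ, by rw [insert_eq_of_mem hn]; exact h, fun _ _ => rfl⟩
  have hi : i < G.m := hB.2.1
  have hr₂ : G.okR r₂ := hB.1
  obtain ⟨α, hα⟩ : ∃ α, Good G Tr p σ r₂ i d α := by
    by_cases hL : ∃ w, G.Legit p r₂ i d w
    · obtain ⟨w, hw⟩ := hL
      exact good_of_legit hW hS h hc hB hn hw
    · by_cases ho : ∀ l < G.m, l ≠ i → Occ p r₂ l
      · exact good_of_full hW hS h hc hB hL ho
      · push Not at ho
        obtain ⟨l, hl, hli, hol⟩ := ho
        exact good_of_free hW hS h hc hB hl hli hol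
  obtain ⟨σ₁, a1, a2, a3, a4, a5⟩ := G.flip hW h.ok h.ps h.v1 α hα.r1 hα.r2
  have hv : ∀ σ' : GX R T → ZMod 2, (∀ x, Touch G.sys.eqn p x → σ' x = σ x) →
      ∀ B ∈ p, G.viol σ' B = 0 := by
    intro σ' h' B hB'
    rw [← h.v2 B hB']
    unfold viol lhs
    congr 2
    exact List.map_congr_left fun x hx => h' x ⟨B, hB', hx⟩
  have hI₁ : G.Inv (fun _ _ => False) p σ₁ := ⟨h.ok, a2, a3, hv σ₁ a1, fun _ _ _ hF => hF.elim⟩
  obtain ⟨σ₂, b1, b2, b3, b4⟩ : ∃ σ₂ : GX R T → ZMod 2,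
      (∀ x, Touch G.sys.eqn p x → σ₂ x = σ₁ x) ∧ (∀ y, σ₂ (Sum.inl y) = σ₁ (Sum.inl y)) ∧
      G.V1 σ₂ ∧ G.viol σ₂ (r₂, i, 0) = 0 := by
    by_cases hoi : Occ p r₂ i
    · exact ⟨σ₁, fun _ _ => rfl, fun _ => rfl, a3, hI₁.viol_occ hoi⟩
    · by_cases ho : ∀ l < G.m, l ≠ i → Occ p r₂ l
      · refine ⟨σ₁, fun _ _ => rfl, fun _ => rfl, a3, ?_⟩
        obtain ⟨c1, c2⟩ := hα.r4 hoi ho
        have hs := G.sum_viol hW a2 hr₂
        rw [sum_eq_single_of_mem i (mem_range.2 hi)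
          fun l hl hli => hI₁.viol_occ (ho l (mem_range.1 hl) hli)] at hs
        have e : G.fv σ₁ r₂ = G.fv σ r₂ := by
          unfold fv
          cases hy : G.fgn r₂ with
          | none => rfl
          | some y => exact a5 y (c2 y hy)
        rw [hs, e, show G.Z σ₁ = fun f => G.Z σ f + α f from funext a4, c1]
      · push Not at ho
        obtain ⟨l, hl, hli, hol⟩ := ho
        exact G.move a3 hi hl hli hoi hol
  have hag : ∀ x, Touch G.sys.eqn p x → σ₂ x = σ x := fun x hx => (b1 x hx).trans (a1 x hx)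
  have hZ : ∀ f, G.Z σ₂ f = G.Z σ f + α f := fun f => by
    rw [← a4]; exact sum_congr rfl fun _ _ => b2 _
  refine ⟨σ₂, ⟨fun B hB' => ?_, fun f ρ s hρ => ?_, b3, fun B hB' => ?_, fun f a hc' hT => ?_⟩, hag⟩
  · rcases mem_insert.1 hB' with rfl | hB'
    · exact hB
    · exact h.ok B hB'
  · simp only [b2]; exact a2 f ρ s hρ
  · rcases mem_insert.1 hB' with rfl | hB'
    · by_cases hw : G.wild r₂ (i / 2) = true
      · rw [b3 r₂ i d hr₂ hi hw, b4]
      · have o := hB.2.2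
        dsimp only at o
        rw [if_neg hw] at o
        rw [o, b4]
    · exact hv σ₂ hag B hB'
  · rw [hZ]
    by_cases hcp : G.Compl p f a
    · have : α f = 0 := by
        by_contra hα'
        obtain ⟨j, hj, hj2, ht⟩ := hα.r1 f hα' (a (i / 2))
        exact ht (hj2 ▸ hcp j hj)
      rw [this, add_zero]
      exact h.g1 f a hcp hT
    · exact hα.r3 f a ⟨hc', hcp⟩ hT

variable (G)

theorem cons_of_safe (hW : G.WF) {Tr : T → (ℕ → ℕ) → Prop} (hS : G.Safe Tr) :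
    Cons (G.m + 1) G.sys.ok G.sys.eqn G.rhs := by
  have hm := hW.m4
  refine ⟨{s | G.Inv Tr s.1 s.2}, ⟨(∅, fun _ => 0), ?_⟩, fun p σ h => h.ok, fun p σ h B hB => ?_,
    fun p σ h q hq => ?_, fun p σ h hc B hB => ?_⟩
  · refine ⟨by simp, fun f ρ s _ => rfl, fun r i d _ _ _ => ?_, by simp, fun f a hc _ => ?_⟩
    · unfold viol
      rw [gd_lhs_zero _ _ fun _ _ => rfl, gd_lhs_zero _ _ fun _ _ => rfl]
      rfl
    · obtain ⟨B, hB, _⟩ := hc 0 (by omega)
      simp at hB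
  · have := h.v2 B hB
    unfold viol at this
    have e := gd_add_self (G.rhs B)
    linear_combination this - e
  · exact ⟨fun B hB => h.ok B (hq hB), h.ps, h.v1, fun B hB => h.v2 B (hq hB),
      fun f a hc hT => h.g1 f a (fun j hj =>
        let ⟨B, hB, hx⟩ := hc j hj
        ⟨B, hq hB, hx⟩) hT⟩
  · obtain ⟨r₂, i, d⟩ := B
    exact Inv.extend hW hS h (by omega) hB

end GSys

end Crest.Agent.R290
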