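import Crest.Agent.R290.Sweep
import Crest.Agent.R290.DefsGad

/-!
Row 290.  Duplicator's strategy on a gadget system: the equations, the invariant, and the two
kinds of modification.
-/

set_option autoImplicit false

namespace Crest.Agent.R290

open Finset

lemma gd_add_self (x : ZMod 2) : x + x = 0 := CharTwo.add_self_eq_zero x

lemma gd_lhs_filterMap {X κ : Type} (σ : X → ZMod 2) (g : κ → Option X) (l : List κ) :
    lhs σ (l.filterMap g) = (l.map fun k => (g k).elim 0 σ).sum := by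
  induction l with
  | nil => simp [lhs]
  | cons a l ih =>
    unfold lhs at ih ⊢
    cases h : g a <;> simp [h, ih]

lemma gd_lhs_add {X : Type} (σ δ : X → ZMod 2) (l : List X) :
    lhs (σ + δ) l = lhs σ l + lhs δ l := by
  unfold lhs
  induction l with
  | nil => simp
  | cons a l ih => simp only [List.map_cons, List.sum_cons, ih, Pi.add_apply]; ring

lemma gd_lhs_zero {X : Type} (δ : X → ZMod 2) (l : List X) (h : ∀ x ∈ l, δ x = 0) :
    lhs δ l = 0 := by
  unfold lhs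
  exact List.sum_eq_zero fun y hy => by
    obtain ⟨x, hx, rfl⟩ := List.mem_map.1 hy
    exact h x hx

lemma gd_sum_map_zero {κ : Type} (l : List κ) (g : κ → ZMod 2) (h : ∀ x ∈ l, g x = 0) :
    (l.map g).sum = 0 := gd_lhs_zero g l h

lemma gd_sum_map_add {κ : Type} (l : List κ) (g g' : κ → ZMod 2) :
    (l.map fun x => g x + g' x).sum = (l.map g).sum + (l.map g').sum := gd_lhs_add g g' l

lemma gd_sum_map_single {κ : Type} (l : List κ) (hl : l.Nodup) (a : κ) (ha : a ∈ l)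
    (g : κ → ZMod 2) (h : ∀ x ∈ l, x ≠ a → g x = 0) : (l.map g).sum = g a := by
  induction l with
  | nil => simp at ha
  | cons b l ih =>
    rw [List.nodup_cons] at hl
    rw [List.map_cons, List.sum_cons]
    rcases List.mem_cons.1 ha with rfl | ha'
    · rw [gd_sum_map_zero l g fun x hx => h x (List.mem_cons_of_mem _ hx)
        (fun e => hl.1 (e ▸ hx)), add_zero]
    · rw [h b List.mem_cons_self (fun e => hl.1 (e ▸ ha')), zero_add]
      exact ih hl.2 ha' fun x hx => h x (List.mem_cons_of_mem _ hx)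

lemma gd_sum_comm {κ : Type} (l : List κ) (s : Finset ℕ) (g : ℕ → κ → ZMod 2) :
    ∑ i ∈ s, (l.map (g i)).sum = (l.map fun k => ∑ i ∈ s, g i k).sum := by
  induction l with
  | nil => simp
  | cons a l ih => simp [Finset.sum_add_distrib, ih]

lemma gd_mem_rowPairs {m : ℕ} {q : ℕ × ℕ} : q ∈ rowPairs m ↔ q.1 < q.2 ∧ q.2 < m := by
  obtain ⟨j, l⟩ := q
  simp only [rowPairs, List.mem_flatMap, List.mem_range, List.mem_map, Prod.mk.injEq]
  constructor
  · rintro ⟨a, ha, b, hb, rfl, rfl⟩; exact ⟨hb, ha⟩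
  · rintro ⟨h1, h2⟩; exact ⟨l, h2, j, h1, rfl, rfl⟩

lemma gd_nodup_rowPairs (m : ℕ) : (rowPairs m).Nodup := by
  unfold rowPairs
  rw [List.nodup_flatMap]
  refine ⟨fun l _ => List.nodup_range.map fun a b h => (Prod.mk.inj h).1, ?_⟩
  refine List.nodup_range.pairwise_of_forall_ne fun a _ b _ hab => ?_
  intro q h1 h2
  simp only [List.mem_map] at h1 h2
  obtain ⟨_, _, rfl⟩ := h1
  obtain ⟨_, _, h⟩ := h2
  exact hab (Prod.mk.inj h).2.symm

/-- Sums over rows, register by register. -/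
lemma gd_sum_rows (m : ℕ) (g : ℕ → ZMod 2) :
    ∑ i ∈ range m, g i = ∑ ρ ∈ range (m / 2), (g (2 * ρ) + g (2 * ρ + 1)) +
      if m % 2 = 1 then g (m - 1) else 0 := by
  have key : ∀ k, ∑ i ∈ range (2 * k), g i = ∑ ρ ∈ range k, (g (2 * ρ) + g (2 * ρ + 1)) := by
    intro k
    induction k with
    | zero => simp
    | succ k ih =>
      rw [show 2 * (k + 1) = 2 * k + 1 + 1 by ring, sum_range_succ, sum_range_succ, ih,
        sum_range_succ]
      ring
  rcases Nat.mod_two_eq_zero_or_one m with h | h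
  · rw [if_neg (by omega), add_zero, ← key, show 2 * (m / 2) = m by omega]
  · rw [if_pos h, ← key]
    conv_lhs => rw [show m = 2 * (m / 2) + 1 by omega, sum_range_succ]
    rw [show 2 * (m / 2) = m - 1 by omega]

namespace GSys

variable {R T : Type} (G : GSys R T)

/-- Block `Y` contains the port of type `f` and value `s` (in its own row). -/
def Port (Y : GB R) (f : T) (s : ℕ) : Prop :=
  (f ∈ G.F Y.1 ∧ s = G.val Y.1 f (Y.2.1 / 2) Y.2.2) ∨ G.fgn Y.1 = some (f, Y.2.1, s)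

lemma mem_eqn_iff (Y : GB R) (x : GX R T) : x ∈ G.sys.eqn Y ↔
    (∃ f ∈ G.F Y.1, x = Sum.inl (f, Y.2.1, G.val Y.1 f (Y.2.1 / 2) Y.2.2)) ∨
    (∃ y, G.fgn Y.1 = some y ∧ Y.2.1 = y.2.1 ∧ x = Sum.inl y) ∨
    (G.wild Y.1 (Y.2.1 / 2) = true ∧ x = Sum.inr (Sum.inl (Y.1, Y.2.1 / 2, Y.2.2))) ∨
    (∃ q ∈ rowPairs G.m, (Y.2.1 = q.1 ∨ Y.2.1 = q.2) ∧ x = Sum.inr (Sum.inr (Y.1, q.1, q.2))) := by
  simp only [BSys.eqn, sys, cols, List.mem_filterMap, List.mem_append, List.mem_map,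
    List.mem_cons, List.not_mem_nil, or_false]
  constructor
  · rintro ⟨κ, ((⟨f, hf, rfl⟩ | rfl | rfl) | ⟨q, hq, rfl⟩), h⟩
    · left; exact ⟨f, hf, by simpa [cv] using h.symm⟩
    · right; left
      simp only [cv, Sum.elim_inr, Sum.elim_inl, Bool.false_eq_true, if_false,
        Option.bind_eq_some_iff] at h
      obtain ⟨y, hy, h⟩ := h
      split_ifs at h with h1
      exact ⟨y, hy, h1, (Option.some.inj h).symm⟩
    · right; right; left
      simp only [cv, Sum.elim_inr, Sum.elim_inl, if_true] at h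
      split_ifs at h with h1
      exact ⟨h1, (Option.some.inj h).symm⟩
    · right; right; right
      simp only [cv, Sum.elim_inr] at h
      split_ifs at h with h1
      exact ⟨q, hq, h1, (Option.some.inj h).symm⟩
  · rintro (⟨f, hf, rfl⟩ | ⟨y, hy, h1, rfl⟩ | ⟨h1, rfl⟩ | ⟨q, hq, h1, rfl⟩)
    · exact ⟨_, Or.inl (Or.inl ⟨f, hf, rfl⟩), by simp [cv]⟩
    · exact ⟨_, Or.inl (Or.inr (Or.inl rfl)), by simp [cv, hy, h1]⟩
    · exact ⟨_, Or.inl (Or.inr (Or.inr rfl)), by simp [cv, h1]⟩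
    · exact ⟨_, Or.inr ⟨q, hq, rfl⟩, by simp only [cv, Sum.elim_inr, if_pos h1]⟩

lemma mem_eqn_port (Y : GB R) (f : T) (j s : ℕ) :
    (Sum.inl (f, j, s) : GX R T) ∈ G.sys.eqn Y ↔ j = Y.2.1 ∧ G.Port Y f s := by
  rw [mem_eqn_iff]
  constructor
  · rintro (⟨g, hg, h⟩ | ⟨y, hy, h1, h⟩ | ⟨_, h⟩ | ⟨q, _, _, h⟩)
    · simp only [Sum.inl.injEq, Prod.mk.injEq] at h
      obtain ⟨rfl, rfl, rfl⟩ := h
      exact ⟨rfl, Or.inl ⟨hg, rfl⟩⟩
    · simp only [Sum.inl.injEq] at h
      subst h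
      exact ⟨h1.symm, Or.inr (by rw [hy, h1])⟩
    · simp at h
    · simp at h
  · rintro ⟨rfl, ⟨h1, rfl⟩ | h⟩
    · exact Or.inl ⟨f, h1, rfl⟩
    · exact Or.inr (Or.inl ⟨_, h, rfl, rfl⟩)

lemma mem_eqn_e (Y : GB R) (y : R × ℕ × ℕ) (h : (Sum.inr (Sum.inl y) : GX R T) ∈ G.sys.eqn Y) :
    G.wild Y.1 (Y.2.1 / 2) = true ∧ y = (Y.1, Y.2.1 / 2, Y.2.2) := by
  rw [mem_eqn_iff] at h
  rcases h with (⟨g, hg, h⟩ | ⟨y, hy, h1, h⟩ | ⟨h1, h⟩ | ⟨q, _, _, h⟩)
  · simp at h
  · simp at h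
  · exact ⟨h1, by simpa using h⟩
  · simp at h

lemma mem_eqn_c (Y : GB R) (y : R × ℕ × ℕ) (h : (Sum.inr (Sum.inr y) : GX R T) ∈ G.sys.eqn Y) :
    y.1 = Y.1 ∧ (Y.2.1 = y.2.1 ∨ Y.2.1 = y.2.2) := by
  rw [mem_eqn_iff] at h
  rcases h with (⟨g, hg, h⟩ | ⟨y, hy, h1, h⟩ | ⟨h1, h⟩ | ⟨q, _, h1, h⟩)
  · simp at h
  · simp at h
  · simp at h
  · simp only [Sum.inr.injEq] at h
    subst h
    exact ⟨rfl, h1⟩

/-- The value of the foreign port. -/
def fv (σ : GX R T → ZMod 2) (r : R) : ZMod 2 := (G.fgn r).elim 0 fun y => σ (Sum.inl y)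

lemma lhs_eqn' (σ : GX R T → ZMod 2) (r : R) (i d : ℕ) :
    lhs σ (G.sys.eqn (r, i, d)) =
      ((G.F r).map fun f => σ (Sum.inl (f, i, G.val r f (i / 2) d))).sum +
      ((G.fgn r).elim 0 fun y => if i = y.2.1 then σ (Sum.inl y) else 0) +
      (if G.wild r (i / 2) then σ (Sum.inr (Sum.inl (r, i / 2, d))) else 0) +
      ((rowPairs G.m).map fun q =>
        if i = q.1 ∨ i = q.2 then σ (Sum.inr (Sum.inr (r, q.1, q.2))) else 0).sum := by
  simp only [BSys.eqn, sys, cols, gd_lhs_filterMap, List.map_append, List.sum_append,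
    List.map_map, List.map_cons, List.map_nil, List.sum_cons, List.sum_nil, add_zero]
  have e1 : (G.cv (r, i, d) (Sum.inr (Sum.inl false))).elim 0 σ =
      (G.fgn r).elim 0 fun y => if i = y.2.1 then σ (Sum.inl y) else 0 := by
    simp only [cv, Sum.elim_inr, Sum.elim_inl, Bool.false_eq_true, if_false]
    cases G.fgn r with
    | none => rfl
    | some y => simp only [Option.bind_some, Option.elim_some]; split_ifs <;> rfl
  have e2 : (G.cv (r, i, d) (Sum.inr (Sum.inl true))).elim 0 σ =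
      if G.wild r (i / 2) then σ (Sum.inr (Sum.inl (r, i / 2, d))) else 0 := by
    simp only [cv, Sum.elim_inr, Sum.elim_inl, if_true]
    split_ifs <;> rfl
  rw [e1, e2, ← add_assoc]
  congr 2
  refine List.map_congr_left fun q _ => ?_
  simp only [Function.comp, cv, Sum.elim_inr]
  split_ifs <;> rfl

/-- The violation of a block. -/
def viol (σ : GX R T → ZMod 2) (B : GB R) : ZMod 2 := lhs σ (G.sys.eqn B) + G.rhs B

lemma viol_add (σ δ : GX R T → ZMod 2) (B : GB R) :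
    G.viol (σ + δ) B = G.viol σ B + lhs δ (G.sys.eqn B) := by
  unfold viol; rw [gd_lhs_add]; ring

/-- The value of a type. -/
def Z (σ : GX R T → ZMod 2) (f : T) : ZMod 2 := ∑ i ∈ range G.m, σ (Sum.inl (f, i, 0))

/-- Register sums do not depend on the value. -/
def PS (σ : GX R T → ZMod 2) : Prop :=
  ∀ f ρ s, ρ < G.m / 2 → σ (Sum.inl (f, 2 * ρ, s)) + σ (Sum.inl (f, 2 * ρ + 1, s)) =
    σ (Sum.inl (f, 2 * ρ, 0)) + σ (Sum.inl (f, 2 * ρ + 1, 0))

/-- Violations do not depend on the value. -/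
def V1 (σ : GX R T → ZMod 2) : Prop :=
  ∀ r i d, G.okR r → i < G.m → G.wild r (i / 2) = true → G.viol σ (r, i, d) = G.viol σ (r, i, 0)

lemma sum_ports {σ : GX R T → ZMod 2} (h : G.PS σ) (f : T) (a : ℕ → ℕ) (ha : a (G.m / 2) = 0) :
    ∑ i ∈ range G.m, σ (Sum.inl (f, i, a (i / 2))) = G.Z σ f := by
  unfold Z
  rw [gd_sum_rows G.m fun i => σ (Sum.inl (f, i, a (i / 2))),
    gd_sum_rows G.m fun i => σ (Sum.inl (f, i, 0))]
  congr 1
  · refine sum_congr rfl fun ρ hρ => ?_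
    rw [show 2 * ρ / 2 = ρ by omega, show (2 * ρ + 1) / 2 = ρ by omega]
    exact h f ρ _ (mem_range.1 hρ)
  · split_ifs with h1
    · rw [show (G.m - 1) / 2 = G.m / 2 by omega, ha]
    · rfl

lemma sum_viol (hW : G.WF) {σ : GX R T → ZMod 2} (h : G.PS σ) {r : R} (hr : G.okR r) :
    ∑ i ∈ range G.m, G.viol σ (r, i, 0) = ((G.F r).map (G.Z σ)).sum + G.fv σ r + G.b r := by
  have hm := hW.m4
  simp only [viol, lhs_eqn', sum_add_distrib]
  have e1 : ∑ i ∈ range G.m, ((G.F r).map fun f => σ (Sum.inl (f, i, G.val r f (i / 2) 0))).sum =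
      ((G.F r).map (G.Z σ)).sum := by
    rw [gd_sum_comm]
    congr 1
    refine List.map_congr_left fun f _ => ?_
    refine G.sum_ports h f (fun ρ => G.val r f ρ 0) ?_
    unfold val
    split_ifs
    · rfl
    · exact (hW.out r hr _ le_rfl).2 f
  have e2 : ∑ i ∈ range G.m, ((G.fgn r).elim 0 fun y => if i = y.2.1 then σ (Sum.inl y) else 0) =
      G.fv σ r := by
    unfold fv
    cases hy : G.fgn r with
    | none => simp
    | some y =>
      simp only [Option.elim_some]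
      rw [sum_ite_eq' (range G.m) y.2.1, if_pos (mem_range.2 (hW.fgn r hr y hy).1)]
  have e3 : ∑ i ∈ range G.m,
      (if G.wild r (i / 2) then σ (Sum.inr (Sum.inl (r, i / 2, 0))) else 0) = 0 := by
    rw [gd_sum_rows, sum_eq_zero, zero_add]
    · split_ifs with h1 h2
      · rw [show (G.m - 1) / 2 = G.m / 2 by omega, (hW.out r hr _ le_rfl).1] at h2
        simp at h2
      · rfl
      · rfl
    · intro ρ _
      rw [show 2 * ρ / 2 = ρ by omega, show (2 * ρ + 1) / 2 = ρ by omega]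
      exact gd_add_self _
  have e4 : ∑ i ∈ range G.m, ((rowPairs G.m).map fun q =>
      if i = q.1 ∨ i = q.2 then σ (Sum.inr (Sum.inr (r, q.1, q.2))) else 0).sum = 0 := by
    rw [gd_sum_comm]
    refine gd_sum_map_zero _ _ fun q hq => ?_
    obtain ⟨h1, h2⟩ := gd_mem_rowPairs.1 hq
    rw [← sum_filter, show (range G.m).filter (fun i => i = q.1 ∨ i = q.2) = {q.1, q.2} by
      ext i; simp only [mem_filter, mem_range, mem_insert, mem_singleton]; omega,
      sum_pair (by omega)]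
    exact gd_add_self _
  have e5 : ∑ i ∈ range G.m, G.rhs (r, i, 0) = G.b r := by
    simp only [rhs]
    rw [sum_ite_eq' (range G.m) 0, if_pos (mem_range.2 (by omega))]
  rw [e1, e2, e3, e4, e5]
  ring

/-- Row `i` of gadget `r` carries a pebble. -/
def Occ (p : Finset (GB R)) (r : R) (i : ℕ) : Prop := ∃ d, (r, i, d) ∈ p

variable [DecidableEq R] [DecidableEq T]

/-- Moving a violation along a clique variable. -/
lemma move {p : Finset (GB R)} {σ : GX R T → ZMod 2} (h1 : G.V1 σ) {r : R} {i l : ℕ}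
    (hi : i < G.m) (hl : l < G.m) (hne : l ≠ i) (hoi : ¬ Occ p r i) (hol : ¬ Occ p r l) :
    ∃ σ' : GX R T → ZMod 2, (∀ x, Touch G.sys.eqn p x → σ' x = σ x) ∧
      (∀ y, σ' (Sum.inl y) = σ (Sum.inl y)) ∧ G.V1 σ' ∧ G.viol σ' (r, i, 0) = 0 := by
  set δ : GX R T → ZMod 2 := fun x =>
    if x = Sum.inr (Sum.inr (r, min i l, max i l)) then G.viol σ (r, i, 0) else 0 with hδ
  have hl' : ∀ r' j d, lhs δ (G.sys.eqn (r', j, d)) = ((rowPairs G.m).map fun q =>
      if j = q.1 ∨ j = q.2 then δ (Sum.inr (Sum.inr (r', q.1, q.2))) else 0).sum := by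
    intro r' j d
    rw [lhs_eqn', gd_sum_map_zero _ _ (fun f _ => by simp [hδ])]
    have : ((G.fgn r').elim 0 fun y => if j = y.2.1 then δ (Sum.inl y) else 0) = 0 := by
      cases G.fgn r' <;> simp [hδ]
    rw [this]
    simp [hδ]
  refine ⟨σ + δ, ?_, fun y => by simp [hδ], ?_, ?_⟩
  · rintro x ⟨Y, hY, hx⟩
    simp only [Pi.add_apply, hδ]
    rw [if_neg, add_zero]
    rintro rfl
    obtain ⟨e1, e2⟩ := G.mem_eqn_c Y _ hx
    obtain ⟨r', j, d⟩ := Y
    dsimp only at e1 e2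
    subst e1
    have : j = i ∨ j = l := by omega
    rcases this with rfl | rfl
    · exact hoi ⟨d, hY⟩
    · exact hol ⟨d, hY⟩
  · intro r' j d hr' hj hw
    rw [viol_add, viol_add, h1 r' j d hr' hj hw, hl', hl']
  · rw [viol_add, hl', gd_sum_map_single _ (gd_nodup_rowPairs _) (min i l, max i l)
      (gd_mem_rowPairs.2 (by dsimp only; omega))]
    · rw [if_pos (by dsimp only; omega)]
      simp only [hδ, if_true]
      exact gd_add_self _
    · intro q _ hq
      split_ifs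
      · simp only [hδ]
        rw [if_neg]
        intro e
        simp only [Sum.inr.injEq, Prod.mk.injEq] at e
        exact hq (Prod.ext e.2.1 e.2.2)
      · rfl

/-- Type `f` can be flipped on register `ρ`. -/
def Flip (p : Finset (GB R)) (ρ : ℕ) (f : T) : Prop :=
  ∀ s, ∃ j < G.m, j / 2 = ρ ∧ ¬ Touch G.sys.eqn p (Sum.inl (f, j, s))

omit [DecidableEq R] [DecidableEq T] in
/-- Flipping types on one register. -/
lemma flip (hW : G.WF) {p : Finset (GB R)} (hp : ∀ B ∈ p, G.ok B) {σ : GX R T → ZMod 2}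
    (h0 : G.PS σ) (h1 : G.V1 σ) {ρ : ℕ} (α : T → ZMod 2)
    (hR1 : ∀ f, α f ≠ 0 → G.Flip p ρ f)
    (hR2 : ∀ r, G.okR r → G.wild r ρ = true → Occ p r (2 * ρ) → Occ p r (2 * ρ + 1) →
      ((G.F r).map α).sum = 0) :
    ∃ σ' : GX R T → ZMod 2, (∀ x, Touch G.sys.eqn p x → σ' x = σ x) ∧ G.PS σ' ∧ G.V1 σ' ∧
      (∀ f, G.Z σ' f = G.Z σ f + α f) ∧
      (∀ y : T × ℕ × ℕ, α y.1 = 0 → σ' (Sum.inl y) = σ (Sum.inl y)) := by
  classical
  have hpick : ∀ f s, ∃ j, α f ≠ 0 →
      j < G.m ∧ j / 2 = ρ ∧ ¬ Touch G.sys.eqn p (Sum.inl (f, j, s)) := by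
    intro f s
    by_cases h : α f = 0
    · exact ⟨0, fun h' => absurd h h'⟩
    · obtain ⟨j, hj⟩ := hR1 f h s
      exact ⟨j, fun _ => hj⟩
  choose pick hpick using hpick
  let δx : T × ℕ × ℕ → ZMod 2 := fun y => if y.2.1 = pick y.1 y.2.2 then α y.1 else 0
  have x1 : ∀ f j s, j / 2 ≠ ρ → δx (f, j, s) = 0 := by
    intro f j s hj
    simp only [δx]
    split_ifs with h
    · by_contra h'
      exact hj (h ▸ (hpick f s h').2.1)
    · rfl
  have x2 : ∀ f s, δx (f, 2 * ρ, s) + δx (f, 2 * ρ + 1, s) = α f := by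
    intro f s
    by_cases h : α f = 0
    · simp [δx, h]
    · have := (hpick f s h).2.1
      simp only [δx]
      by_cases h' : pick f s = 2 * ρ
      · rw [if_pos h'.symm, if_neg (by omega), add_zero]
      · rw [if_neg (Ne.symm h'), if_pos (by omega), zero_add]
  have x3 : ∀ y, Touch G.sys.eqn p (Sum.inl y) → δx y = 0 := by
    rintro ⟨f, j, s⟩ ht
    simp only [δx]
    split_ifs with h
    · by_contra h'
      exact (hpick f s h').2.2 (h ▸ ht)
    · rfl
  let Δ : R → ℕ → ℕ → ZMod 2 := fun r j d => ((G.F r).map fun f => δx (f, j, G.val r f ρ d)).sum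
  have d1 : ∀ r d, Δ r (2 * ρ) d + Δ r (2 * ρ + 1) d = ((G.F r).map α).sum := by
    intro r d
    simp only [Δ]
    rw [← gd_sum_map_add]
    congr 1
    exact List.map_congr_left fun f _ => x2 f _
  let u : R → ℕ := fun r => if Occ p r (2 * ρ) then 2 * ρ else 2 * ρ + 1
  let δ : GX R T → ZMod 2 := Sum.elim δx (Sum.elim
    (fun y => if y.2.1 = ρ then Δ y.1 (u y.1) y.2.2 else 0) fun _ => 0)
  have hl : ∀ r j d, G.okR r → G.wild r (j / 2) = true → lhs δ (G.sys.eqn (r, j, d)) =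
      if j / 2 = ρ then (if j = u r then 0 else ((G.F r).map α).sum) else 0 := by
    intro r j d hr hw
    have hn : G.fgn r = none := by
      cases hy : G.fgn r with
      | none => rfl
      | some y => rw [(hW.fgn r hr y hy).2.2.2] at hw; simp at hw
    rw [lhs_eqn', hn, if_pos hw, gd_sum_map_zero (rowPairs G.m) _ (fun q _ => by simp [δ])]
    simp only [δ, Sum.elim_inl, Sum.elim_inr, Option.elim_none, add_zero]
    by_cases hj : j / 2 = ρ
    · rw [if_pos hj, if_pos hj, hj]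
      change Δ r j d + _ = _
      split_ifs with h
      · rw [h]; exact gd_add_self _
      · rw [← d1 r d]
        have hu : u r = 2 * ρ ∨ u r = 2 * ρ + 1 := by simp only [u]; split_ifs <;> simp
        rcases hu with hu | hu
        · rw [hu, show j = 2 * ρ + 1 by omega, add_comm]
        · rw [hu, show j = 2 * ρ by omega]
    · rw [if_neg hj, if_neg hj, add_zero]
      exact gd_sum_map_zero _ _ fun f _ => x1 f j _ hj
  refine ⟨σ + δ, ?_, ?_, ?_, ?_, ?_⟩
  · intro x hx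
    rw [Pi.add_apply, add_eq_left]
    rcases x with y | y | y
    · exact x3 y hx
    · obtain ⟨⟨r, j, d⟩, hY, hx⟩ := hx
      obtain ⟨hw, rfl⟩ := G.mem_eqn_e _ _ hx
      dsimp only at hw
      simp only [δ, Sum.elim_inr, Sum.elim_inl]
      split_ifs with hj
      · have hz : Δ r j d = 0 := gd_sum_map_zero _ _ fun f hf => x3 _
          ⟨_, hY, (G.mem_eqn_port _ _ _ _).2 ⟨rfl, Or.inl ⟨hf, by rw [hj]⟩⟩⟩
        by_cases ho : Occ p r (2 * ρ)
        · have hu : u r = 2 * ρ := if_pos ho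
          rw [hu]
          by_cases hj' : j = 2 * ρ
          · rw [← hj', hz]
          · have hj'' : j = 2 * ρ + 1 := by omega
            have := d1 r d
            rw [hR2 r (hp _ hY).1 (hj ▸ hw) ho ⟨d, hj'' ▸ hY⟩, ← hj'', hz, add_zero] at this
            exact this
        · have hu : u r = 2 * ρ + 1 := if_neg ho
          have hj' : j ≠ 2 * ρ := fun e => ho ⟨d, e ▸ hY⟩
          rw [hu, ← show j = 2 * ρ + 1 by omega, hz]
      · rfl
    · rfl
  · intro f ρ' s hρ'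
    have := h0 f ρ' s hρ'
    simp only [Pi.add_apply, δ, Sum.elim_inl]
    by_cases h : ρ' = ρ
    · subst h
      have a1 := x2 f s
      have a2 := x2 f 0
      linear_combination this + a1 - a2
    · rw [x1 f _ s (by omega), x1 f _ s (by omega), x1 f _ 0 (by omega), x1 f _ 0 (by omega)]
      simpa using this
  · intro r j d hr hj hw
    rw [viol_add, viol_add, h1 r j d hr hj hw, hl r j d hr hw, hl r j 0 hr hw]
  · intro f
    simp only [Z, Pi.add_apply, sum_add_distrib, δ, Sum.elim_inl, δx]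
    congr 1
    by_cases h : α f = 0
    · simp [h]
    · rw [sum_ite_eq' (range G.m) (pick f 0), if_pos (mem_range.2 (hpick f 0 h).1)]
  · intro y hy
    simp [δ, δx, hy]

end GSys

end Crest.Agent.R290
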