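import Crest.Agent.R290.GadDupA

/-!
Row 290.  Duplicator's strategy on a gadget system: which types to flip.
-/

set_option autoImplicit false

namespace Crest.Agent.R290

open Finset

namespace GSys

variable {R T : Type} (G : GSys R T)

/-- All ports of type `f` in world `a` are touched. -/
def Compl (p : Finset (GB R)) (f : T) (a : ℕ → ℕ) : Prop :=
  ∀ i < G.m, Touch G.sys.eqn p (Sum.inl (f, i, a (i / 2)))

/-- Duplicator's invariant. -/
structure Inv (Tr : T → (ℕ → ℕ) → Prop) (p : Finset (GB R)) (σ : GX R T → ZMod 2) : Prop where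
  ok : ∀ B ∈ p, G.ok B
  ps : G.PS σ
  v1 : G.V1 σ
  v2 : ∀ B ∈ p, G.viol σ B = 0
  g1 : ∀ f a, G.Compl p f a → Tr f a → G.Z σ f = 0

variable {G}

lemma touch_iff {p : Finset (GB R)} {f : T} {j s : ℕ} :
    Touch G.sys.eqn p (Sum.inl (f, j, s)) ↔ ∃ r d, (r, j, d) ∈ p ∧ G.Port (r, j, d) f s := by
  constructor
  · rintro ⟨⟨r, j', d⟩, hY, h⟩
    obtain ⟨rfl, h⟩ := (G.mem_eqn_port _ _ _ _).1 h
    exact ⟨r, d, hY, h⟩
  · rintro ⟨r, d, hY, h⟩
    exact ⟨_, hY, (G.mem_eqn_port _ _ _ _).2 ⟨rfl, h⟩⟩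

lemma Port.ment {Y : GB R} {f : T} {s : ℕ} (h : G.Port Y f s) : G.Ment Y.1 f := by
  rcases h with h | h
  · exact Or.inl h.1
  · exact Or.inr ⟨_, h, rfl⟩

lemma Port.of_mem (hW : G.WF) {Y : GB R} (hY : G.okR Y.1) {f : T} {s : ℕ} (h : G.Port Y f s)
    (hf : f ∈ G.F Y.1) : s = G.val Y.1 f (Y.2.1 / 2) Y.2.2 := by
  rcases h with h | h
  · exact h.2
  · exact absurd hf (hW.fgn _ hY _ h).2.2.1

lemma Port.unique (hW : G.WF) {Y : GB R} (hY : G.okR Y.1) {f : T} {s s' : ℕ} (h : G.Port Y f s)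
    (h' : G.Port Y f s') : s = s' := by
  by_cases hf : f ∈ G.F Y.1
  · rw [h.of_mem hW hY hf, h'.of_mem hW hY hf]
  · rcases h with h | h
    · exact absurd h.1 hf
    · rcases h' with h' | h'
      · exact absurd h'.1 hf
      · rw [h] at h'
        simpa using h'

lemma Port.dummy (hW : G.WF) {Y : GB R} (hY : G.okR Y.1) {f : T} {s : ℕ} (h : G.Port Y f s)
    (hd : G.m / 2 ≤ Y.2.1 / 2) : s = 0 := by
  rcases h with h | h
  · rw [h.2, val, (hW.out _ hY _ hd).1, (hW.out _ hY _ hd).2]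
    rfl
  · exact (hW.fgn _ hY _ h).2.1 hd

lemma fgn_none (hW : G.WF) {r : R} (hr : G.okR r) {ρ : ℕ} (hw : G.wild r ρ = true) :
    G.fgn r = none := by
  cases hy : G.fgn r with
  | none => rfl
  | some y => rw [(hW.fgn r hr y hy).2.2.2] at hw; simp at hw

lemma wild_lt (hW : G.WF) {r : R} (hr : G.okR r) {ρ : ℕ} (hw : G.wild r ρ = true) :
    ρ < G.m / 2 := by
  by_contra h
  rw [(hW.out r hr ρ (by omega)).1] at hw
  simp at hw

lemma exists_ne_of_two {l : List T} (hl : l.Nodup) (h2 : 2 ≤ l.length) (P : T → Prop)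
    (hP : ∀ f ∈ l, ∀ g ∈ l, P f → P g → f = g) : ∃ g ∈ l, ¬ P g := by
  match l, hl, h2, hP with
  | a :: b :: l, hl, _, hP =>
    by_contra h
    push Not at h
    have := hP a (by simp) b (by simp) (h a (by simp)) (h b (by simp))
    subst this
    simp at hl

variable [DecidableEq R]

/-- At most one pebble is left over when all rows but one are served. -/
lemma no_two_extra {p : Finset (GB R)} {m i : ℕ} (hc : p.card ≤ m) (hi : i < m) (φ : ℕ → GB R)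
    (hφ : ∀ j < m, j ≠ i → φ j ∈ p ∧ (φ j).2.1 = j) {Y₁ Y₂ : GB R} (h1 : Y₁ ∈ p) (h2 : Y₂ ∈ p)
    (e1 : Y₁.2.1 = i ∨ Y₁ ≠ φ Y₁.2.1) (e2 : Y₂.2.1 = i ∨ Y₂ ≠ φ Y₂.2.1) : Y₁ = Y₂ := by
  by_contra hne
  have hn : ∀ Y : GB R, (Y.2.1 = i ∨ Y ≠ φ Y.2.1) → Y ∉ ((range m).erase i).image φ := by
    intro Y e hY
    obtain ⟨j, hj, rfl⟩ := mem_image.1 hY
    rw [mem_erase, mem_range] at hj
    rw [(hφ j hj.2 hj.1).2] at e
    rcases e with e | e
    · exact hj.1 e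
    · exact e rfl
  have hsub : insert Y₁ (insert Y₂ (((range m).erase i).image φ)) ⊆ p := by
    intro Y hY
    simp only [mem_insert, mem_image, mem_erase, mem_range] at hY
    rcases hY with rfl | rfl | ⟨j, hj, rfl⟩
    · exact h1
    · exact h2
    · exact (hφ j hj.2 hj.1).1
  have hcard := card_le_card hsub
  rw [card_insert_of_notMem (by simp only [mem_insert, not_or]; exact ⟨hne, hn _ e1⟩),
    card_insert_of_notMem (hn _ e2), card_image_of_injOn, card_erase_of_mem (mem_range.2 hi),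
    card_range] at hcard
  · omega
  · intro j hj j' hj' e
    simp only [coe_erase, coe_range, Set.mem_sdiff, Set.mem_Iio, Set.mem_singleton_iff] at hj hj'
    rw [← (hφ j hj.1 hj.2).2, e, (hφ j' hj'.1 hj'.2).2]

/-- Every row other than `i` carries a pebble. -/
def Cover (p : Finset (GB R)) (m i : ℕ) : Prop := ∀ j < m, j ≠ i → ∃ r d, (r, j, d) ∈ p

omit [DecidableEq R] in
lemma Cover.exists_fun {p : Finset (GB R)} {m i : ℕ} (h : Cover p m i) (B : GB R) :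
    ∃ φ : ℕ → GB R, ∀ j < m, j ≠ i → φ j ∈ p ∧ (φ j).2.1 = j := by
  have : ∀ j, ∃ Y : GB R, j < m → j ≠ i → Y ∈ p ∧ Y.2.1 = j := by
    intro j
    by_cases hj : j < m ∧ j ≠ i
    · obtain ⟨r, d, hY⟩ := h j hj.1 hj.2
      exact ⟨(r, j, d), fun _ _ => ⟨hY, rfl⟩⟩
    · exact ⟨B, fun h1 h2 => absurd ⟨h1, h2⟩ hj⟩
  choose φ hφ using this
  exact ⟨φ, hφ⟩

/-- With a pebble in row `i`, every row has exactly one pebble. -/
lemma Cover.eq_of_row {p : Finset (GB R)} {m i : ℕ} (h : Cover p m i) (hc : p.card ≤ m)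
    (hi : i < m) {X : GB R} (hX : X ∈ p) (hXi : X.2.1 = i) {Y₁ Y₂ : GB R} (h1 : Y₁ ∈ p)
    (h2 : Y₂ ∈ p) (e : Y₁.2.1 = Y₂.2.1) : Y₁ = Y₂ := by
  obtain ⟨φ, hφ⟩ := h.exists_fun X
  by_cases hr : Y₁.2.1 = i
  · exact no_two_extra hc hi φ hφ h1 h2 (Or.inl hr) (Or.inl (e ▸ hr))
  · by_cases a1 : Y₁ = φ Y₁.2.1
    · by_cases a2 : Y₂ = φ Y₂.2.1
      · rw [a1, a2, e]
      · have := no_two_extra hc hi φ hφ hX h2 (Or.inl hXi) (Or.inr a2)
        exact absurd (by rw [e, ← this, hXi]) hr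
    · have := no_two_extra hc hi φ hφ hX h1 (Or.inl hXi) (Or.inr a1)
      exact absurd (by rw [← this, hXi]) hr

/-- Two different rows cannot both carry two pebbles. -/
lemma Cover.not_double {p : Finset (GB R)} {m i : ℕ} (h : Cover p m i) (hc : p.card ≤ m)
    (hi : i < m) {Y₁ Y₂ Y₃ Y₄ : GB R} (h1 : Y₁ ∈ p) (h2 : Y₂ ∈ p) (h3 : Y₃ ∈ p) (h4 : Y₄ ∈ p)
    (e : Y₁.2.1 = Y₂.2.1) (e' : Y₃.2.1 = Y₄.2.1) (hne : Y₁.2.1 ≠ Y₃.2.1) :
    Y₁ = Y₂ ∨ Y₃ = Y₄ := by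
  obtain ⟨φ, hφ⟩ := h.exists_fun Y₁
  by_contra hcon
  push Not at hcon
  have k1 : ∃ Y ∈ p, Y.2.1 = Y₁.2.1 ∧ Y ≠ φ Y.2.1 := by
    by_cases a : Y₁ = φ Y₁.2.1
    · exact ⟨Y₂, h2, e.symm, fun a' => hcon.1 (by rw [a, a', e])⟩
    · exact ⟨Y₁, h1, rfl, a⟩
  have k2 : ∃ Y ∈ p, Y.2.1 = Y₃.2.1 ∧ Y ≠ φ Y.2.1 := by
    by_cases a : Y₃ = φ Y₃.2.1
    · exact ⟨Y₄, h4, e'.symm, fun a' => hcon.2 (by rw [a, a', e'])⟩
    · exact ⟨Y₃, h3, rfl, a⟩
  obtain ⟨Y, hY, a1, a2⟩ := k1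
  obtain ⟨Y', hY', b1, b2⟩ := k2
  have := no_two_extra hc hi φ hφ hY hY' (Or.inr a2) (Or.inr b2)
  exact hne (by rw [← a1, ← b1, this])

/-- Type `f` is completed in world `a` by the new block. -/
def New (G : GSys R T) (p : Finset (GB R)) (B : GB R) (f : T) (a : ℕ → ℕ) : Prop :=
  G.Compl (insert B p) f a ∧ ¬ G.Compl p f a

section

variable {p : Finset (GB R)} {r₂ : R} {i d : ℕ} {f : T} {a : ℕ → ℕ}

lemma New.touch (h : G.New p (r₂, i, d) f a) {j : ℕ} (hj : j < G.m) (hji : j ≠ i) :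
    ∃ r d', (r, j, d') ∈ p ∧ G.Port (r, j, d') f (a (j / 2)) := by
  obtain ⟨r, d', hY, hP⟩ := touch_iff.1 (h.1 j hj)
  rcases mem_insert.1 hY with e | hY
  · exact absurd (congrArg (fun Y : GB R => Y.2.1) e) hji
  · exact ⟨r, d', hY, hP⟩

lemma New.not_touch (h : G.New p (r₂, i, d) f a) :
    ¬ Touch G.sys.eqn p (Sum.inl (f, i, a (i / 2))) := by
  intro ht
  refine h.2 fun j hj => ?_
  by_cases hji : j = i
  · rw [hji]; exact ht
  · exact touch_iff.2 (h.touch hj hji)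

lemma New.port (h : G.New p (r₂, i, d) f a) (hi : i < G.m) : G.Port (r₂, i, d) f (a (i / 2)) := by
  obtain ⟨r, d', hY, hP⟩ := touch_iff.1 (h.1 i hi)
  rcases mem_insert.1 hY with e | hY
  · rw [← e]; exact hP
  · exact absurd (touch_iff.2 ⟨r, d', hY, hP⟩) h.not_touch

lemma New.cover (h : G.New p (r₂, i, d) f a) : Cover p G.m i := fun _ hj hji =>
  let ⟨r, d', hY, _⟩ := h.touch hj hji
  ⟨r, d', hY⟩

lemma New.flip (hW : G.WF) (hp : ∀ B ∈ p, G.ok B) (hc : p.card ≤ G.m) (hB : G.ok (r₂, i, d))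
    (h : G.New p (r₂, i, d) f a) : G.Flip p (i / 2) f := by
  intro s
  have hi : i < G.m := hB.2.1
  by_cases ht : Touch G.sys.eqn p (Sum.inl (f, i, s))
  · obtain ⟨r, d', hX, hP⟩ := touch_iff.1 ht
    have hs : s ≠ a (i / 2) := fun e => h.not_touch (e ▸ ht)
    have hd : i / 2 < G.m / 2 := by
      by_contra hd
      exact hs ((hP.dummy hW (hp _ hX).1 (by dsimp only; omega)).trans
        ((h.port hi).dummy hW hB.1 (by dsimp only; omega)).symm)
    obtain ⟨j, hj, hj2, hji⟩ : ∃ j < G.m, j / 2 = i / 2 ∧ j ≠ i := by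
      by_cases e : i % 2 = 0
      · exact ⟨i + 1, by omega, by omega, by omega⟩
      · exact ⟨i - 1, by omega, by omega, by omega⟩
    refine ⟨j, hj, hj2, fun ht' => ?_⟩
    obtain ⟨r₁, d₁, hY₁, hP₁⟩ := touch_iff.1 ht'
    obtain ⟨r₃, d₃, hY₃, hP₃⟩ := h.touch hj hji
    have := h.cover.eq_of_row hc hi hX rfl hY₁ hY₃ rfl
    rw [← this, hj2] at hP₃
    exact hs (hP₁.unique hW (hp _ hY₁).1 hP₃)
  · exact ⟨i, hi, rfl, ht⟩

/-- The new block completes a full world of its gadget. -/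
def Legit (G : GSys R T) (p : Finset (GB R)) (r₂ : R) (i d : ℕ) (w : ℕ → ℕ) : Prop :=
  (∀ ρ, w ρ < G.n) ∧ (G.wild r₂ (i / 2) = true → w (i / 2) = d) ∧
    ∀ j < G.m, j ≠ i → (r₂, j, if G.wild r₂ (j / 2) then w (j / 2) else 0) ∈ p

lemma New.legit (hW : G.WF) (hp : ∀ B ∈ p, G.ok B) (hB : G.ok (r₂, i, d))
    (h : G.New p (r₂, i, d) f a) (hf : f ∈ G.F r₂)
    (hr : ∀ j < G.m, j ≠ i → ∀ r d', (r, j, d') ∈ p → G.Port (r, j, d') f (a (j / 2)) → r = r₂) :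
    ∃ w, G.Legit p r₂ i d w := by
  have key : ∀ j < G.m, j ≠ i → (r₂, j, if G.wild r₂ (j / 2) then a (j / 2) else 0) ∈ p := by
    intro j hj hji
    obtain ⟨r, d', hY, hP⟩ := h.touch hj hji
    obtain rfl := hr j hj hji r d' hY hP
    have e := hP.of_mem hW (hp _ hY).1 hf
    have o := (hp _ hY).2.2
    dsimp only at e o
    split_ifs with hw
    · rw [e, val, if_pos hw]; exact hY
    · rw [if_neg hw] at o
      rw [← o]; exact hY
  refine ⟨fun ρ => if G.wild r₂ ρ then a ρ else 0, fun ρ => ?_, fun hw => ?_, fun j hj hji => ?_⟩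
  · dsimp only
    split_ifs with hw
    · have hρ := wild_lt hW hB.1 hw
      obtain ⟨j, hj, hj2, hji⟩ : ∃ j < G.m, j / 2 = ρ ∧ j ≠ i := by
        by_cases e : i = 2 * ρ
        · exact ⟨2 * ρ + 1, by omega, by omega, by omega⟩
        · exact ⟨2 * ρ, by omega, by omega, by omega⟩
      have o := (hp _ (key j hj hji)).2.2
      dsimp only at o
      rw [hj2, if_pos hw, if_pos hw] at o
      exact o
    · exact hW.npos
  · dsimp only
    rw [if_pos hw, (h.port hB.2.1).of_mem hW hB.1 hf, val, if_pos hw]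
  · have := key j hj hji
    dsimp only
    split_ifs at this ⊢ <;> exact this

omit [DecidableEq R] in
lemma Legit.port {w : ℕ → ℕ} (hf : f ∈ G.F r₂) (j : ℕ) :
    G.Port (r₂, j, if G.wild r₂ (j / 2) then w (j / 2) else 0) f (G.wv r₂ f w (j / 2)) := by
  refine Or.inl ⟨hf, ?_⟩
  simp only [wv, val]
  split_ifs <;> rfl

omit [DecidableEq R] in
lemma Legit.port_new {w : ℕ → ℕ} (h : G.Legit p r₂ i d w) (hf : f ∈ G.F r₂) :
    G.Port (r₂, i, d) f (G.wv r₂ f w (i / 2)) := by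
  refine Or.inl ⟨hf, ?_⟩
  simp only [wv, val]
  split_ifs with hw
  · exact h.2.1 hw
  · rfl

omit [DecidableEq R] in
lemma Legit.cover {w : ℕ → ℕ} (h : G.Legit p r₂ i d w) : Cover p G.m i :=
  fun j hj hji => ⟨_, _, h.2.2 j hj hji⟩

lemma Legit.compl {w : ℕ → ℕ} (h : G.Legit p r₂ i d w) (hf : f ∈ G.F r₂) :
    G.Compl (insert (r₂, i, d) p) f (G.wv r₂ f w) := by
  intro j hj
  by_cases hji : j = i
  · subst hji
    exact touch_iff.2 ⟨_, _, mem_insert_self _ _, h.port_new hf⟩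
  · exact touch_iff.2 ⟨_, _, mem_insert_of_mem (h.2.2 j hj hji), Legit.port hf j⟩

end

end GSys

end Crest.Agent.R290
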