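import Crest.Agent.R290.PebWL

/-!
Row 290.  Colour refinement is the two-pebble game; identification in terms of the game.
-/

set_option autoImplicit false

namespace Crest.Agent.R290

open Finset Crest.WLRefine

variable {n m k : ℕ} {G : Fin n → Fin n → Bool} {H : Fin m → Fin m → Bool}

theorem cr_equiv_of_map_eq {V W C : Type} [Fintype V] [Fintype W] (f : V → C) (g : W → C)
    (h : (univ : Finset V).val.map f = (univ : Finset W).val.map g) :
    ∃ π : V ≃ W, ∀ v, g (π v) = f v := by
  classical
  have h1 : ∀ c, Fintype.card {v // f v = c} = Fintype.card {w // g w = c} := fun c => by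
    have := congrArg (Multiset.count c) h
    rw [Multiset.count_map, Multiset.count_map] at this
    rw [Fintype.card_subtype, Fintype.card_subtype]
    simpa only [Finset.card, Finset.filter_val, eq_comm] using this
  exact ⟨Equiv.ofFiberEquiv fun c => Fintype.equivOfCardEq (h1 c),
    fun v => Equiv.ofFiberEquiv_map _ v⟩

theorem cr_map_eq_of_equiv {V W C : Type} [Fintype V] [Fintype W] (f : V → C) (g : W → C)
    (π : V ≃ W) (p : V → Prop) (q : W → Prop) [DecidablePred p] [DecidablePred q]
    (hpq : ∀ v, p v ↔ q (π v)) (h : ∀ v, f v = g (π v)) :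
    (univ.filter p).val.map f = (univ.filter q).val.map g := by
  have e : univ.filter q = (univ.filter p).map π.toEmbedding := by
    ext w
    simp [Finset.mem_map_equiv, hpq]
  rw [e, Finset.map_val, Multiset.map_map]
  exact Multiset.map_congr rfl fun v _ => h v

theorem cr_pigeon {A : Type} [Finite A] (P : ℕ → A → Prop) (h : ∀ s, ∃ a, P s a)
    (hm : ∀ s a, P (s + 1) a → P s a) : ∃ a, ∀ s, P s a := by
  by_contra hc
  push Not at hc
  choose f hf using hc
  obtain ⟨N, hN⟩ := (Set.finite_range f).bddAbove
  obtain ⟨a, ha⟩ := h N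
  refine hf a ?_
  exact Nat.decreasingInduction (fun s _ hs => hm s a hs) ha (hN ⟨a, rfl⟩)

theorem cr_decomp (hG : IsSimple G) (v : Fin n) : (univ : Finset (Fin n)).val =
    {v} + (univ.filter fun z => G v z = true).val +
      (univ.filter fun z => z ≠ v ∧ G v z = false).val := by
  ext z
  simp only [Multiset.count_add, Multiset.count_singleton, Finset.filter_val,
    Multiset.count_filter, Multiset.count_univ]
  by_cases h : z = v
  · subst h; simp [hG.2 z]
  · cases hz : G v z <;> simp [h]

theorem cr_tagged {C : Type} (hG : IsSimple G) (v : Fin n) (f : Fin n → C) :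
    (univ : Finset (Fin n)).val.map (fun z => (f z, decide (z = v), G v z)) =
      {(f v, true, false)} +
        ((univ.filter fun z => G v z = true).val.map f).map (fun c => (c, false, true)) +
        ((univ.filter fun z => z ≠ v ∧ G v z = false).val.map f).map
          (fun c => (c, false, false)) := by
  rw [cr_decomp hG v, Multiset.map_add, Multiset.map_add, Multiset.map_singleton,
    Multiset.map_map, Multiset.map_map]
  refine congrArg₂ (· + ·) (congrArg₂ (· + ·) ?_ ?_) ?_
  · simp [hG.2 v]
  · refine Multiset.map_congr rfl fun z hz => ?_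
    have h1 : G v z = true := (Finset.mem_filter.1 (Finset.mem_def.2 hz)).2
    have h2 : z ≠ v := by rintro rfl; simp [hG.2 z] at h1
    simp [h1, h2]
  · refine Multiset.map_congr rfl fun z hz => ?_
    have h1 := (Finset.mem_filter.1 (Finset.mem_def.2 hz)).2
    simp [h1.1, h1.2]

theorem crequiv_iff_peb (hG : IsSimple G) (hH : IsSimple H) : CREquiv G H ↔ Peb 2 G H := by
  constructor
  · intro h
    refine ⟨{P | (∀ a ∈ P, ∀ s, crcolor G s a.1 = crcolor H s a.2) ∧
      (∀ a ∈ P, ∀ b ∈ P, (a.1 = b.1 ↔ a.2 = b.2)) ∧ ∀ a ∈ P, ∀ b ∈ P, G a.1 b.1 = H a.2 b.2},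
      by simp, fun P hP Q hQ => ⟨fun a ha => hP.1 a (hQ ha),
        fun a ha b hb => hP.2.1 a (hQ ha) b (hQ hb), fun a ha b hb => hP.2.2 a (hQ ha) b (hQ hb)⟩,
      fun P hP => hP.2.1, fun P hP => hP.2.2, fun P hP hc => ?_⟩
    rcases Nat.lt_succ_iff_lt_or_eq.1 hc with hc | hc
    · obtain rfl : P = ∅ := Finset.card_eq_zero.1 (by omega)
      obtain ⟨π, hπ⟩ := cr_pigeon (fun s (π : Fin n ≃ Fin m) =>
        ∀ z, crcolor H s (π z) = crcolor G s z) (fun s => cr_equiv_of_map_eq _ _ (h s))
        fun s π hπ z => congrArg Prod.fst (hπ z)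
      refine ⟨π, fun z => ?_⟩
      simp [hπ, hG.2, hH.2]
    · obtain ⟨⟨v, w⟩, rfl⟩ := Finset.card_eq_one.1 hc
      have hvw : ∀ s, crcolor G s v = crcolor H s w := hP.1 _ (Finset.mem_singleton_self _)
      obtain ⟨π, hπ⟩ := cr_pigeon (fun s (π : Fin n ≃ Fin m) =>
        ∀ z, (crcolor H s (π z), decide (π z = w), H w (π z)) =
          (crcolor G s z, decide (z = v), G v z)) (fun s => cr_equiv_of_map_eq
            (fun z => (crcolor G s z, decide (z = v), G v z))
            (fun z => (crcolor H s z, decide (z = w), H w z)) (by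
            have h1 := h s
            have h2 : ((univ.filter fun z => G v z = true).val.map (crcolor G s)) =
                (univ.filter fun z => H w z = true).val.map (crcolor H s) :=
              congrArg Prod.snd (hvw (s + 1))
            rw [cr_decomp hG v, cr_decomp hH w, Multiset.map_add, Multiset.map_add,
              Multiset.map_add, Multiset.map_add, Multiset.map_singleton, Multiset.map_singleton,
              hvw s, h2] at h1
            have h3 := add_left_cancel h1
            rw [cr_tagged hG, cr_tagged hH, hvw s, h2, h3]))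
        fun s π hπ z => Prod.ext (congrArg (fun x => x.1.1) (hπ z))
          (congrArg (fun x => x.2) (hπ z))
      refine ⟨π, fun z => ?_⟩
      have a1 : ∀ s, crcolor G s z = crcolor H s (π z) := fun s =>
        (congrArg Prod.fst (hπ s z)).symm
      have a2 : π z = w ↔ z = v := by simpa using congrArg (fun x => x.2.1) (hπ 0 z)
      have a3 : H w (π z) = G v z := congrArg (fun x => x.2.2) (hπ 0 z)
      have a4 : H (π z) w = G z v := by rw [hH.1, hG.1, a3]
      have a5 : w = π z ↔ v = z := by rw [eq_comm, a2, eq_comm]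
      simp only [Set.mem_ofPred_eq, Finset.forall_mem_insert, Finset.mem_singleton, forall_eq]
      simp [a1, a2, a3, a4, a5, hvw, hG.2, hH.2]
  · rintro ⟨F, hF⟩
    have key : ∀ s v w, ({(v, w)} : Finset (Fin n × Fin m)) ∈ F →
        crcolor G s v = crcolor H s w := by
      intro s
      induction s with
      | zero => intro _ _ _; rfl
      | succ s ih =>
        intro v w hvw
        obtain ⟨π, -, h2, -, h4, -⟩ := hF.ext' hvw (by simp)
        refine Prod.ext (ih v w hvw) ?_
        exact cr_map_eq_of_equiv _ _ π _ _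
          (fun z => by rw [h4 _ (Finset.mem_singleton_self _) z]) fun z => ih _ _ (h2 z)
    intro s
    obtain ⟨π, -, h2, -⟩ := hF.ext' hF.empty (by simp)
    have := cr_map_eq_of_equiv (crcolor G s) (crcolor H s) π (fun _ => True) (fun _ => True)
      (fun _ => Iff.rfl) fun z => key s _ _ (h2 z)
    simpa using this

theorem wlequiv_iff_peb (hk : 1 ≤ k) (hG : IsSimple G) (hH : IsSimple H) :
    WLEquiv k G H ↔ Peb (k + 1) G H := by
  unfold WLEquiv
  split_ifs with h
  · subst h
    exact crequiv_iff_peb hG hH
  · exact jequiv_iff_peb (by omega)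

/-- Some dimension up to `k` identifies `G` iff every simple graph on the same vertices that wins
the `(k+1)`-pebble game against `G` is isomorphic to it. -/
theorem exists_identifies_iff (hk : 1 ≤ k) (hG : IsSimple G) :
    (∃ k', 1 ≤ k' ∧ k' ≤ k ∧ Identifies k' G) ↔
      ∀ H : Fin n → Fin n → Bool, IsSimple H → Peb (k + 1) G H → Iso G H := by
  constructor
  · rintro ⟨k', h1, h2, h3⟩ H hH hP
    exact h3 n H hH ((wlequiv_iff_peb h1 hG hH).2 (hP.mono (by omega)))
  · intro h
    refine ⟨k, hk, le_rfl, fun m H hH hW => ?_⟩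
    have hP := (wlequiv_iff_peb hk hG hH).1 hW
    have hc := hP.card_eq (by omega)
    simp only [Fintype.card_fin] at hc
    subst hc
    exact h H hH hP

end Crest.Agent.R290
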