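import Crest.Agent.R290.Main
import Crest.Agent.R290.TabD
import Crest.Agent.R290.PTRed
import Crest.Agent.R290.Code
import Crest.Agent.R290.PebCR

/-!
Row 290.  The three languages are hard for exponential time.
-/

set_option autoImplicit false

namespace Crest.Agent.R290

open Crest.Agent.Lib.PT Crest.WLRefine Crest.ExpTime

theorem hard_bound (c d k n T : ℕ) (hT : T ≤ c * 2 ^ (n ^ k) + c) :
    T < 2 ^ (n ^ k + n + (2 * c * d + 2 * c + 2 * d + 1)) ∧
    n + d * T < 2 ^ (n ^ k + n + (2 * c * d + 2 * c + 2 * d + 1)) ∧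
    2 * d < 2 ^ (n ^ k + n + (2 * c * d + 2 * c + 2 * d + 1)) := by
  set C := 2 * c * d + 2 * c + 2 * d + 1 with hC
  set P := 2 ^ (n ^ k) with hP
  set Q := 2 ^ n with hQ
  have hP1 : 1 ≤ P := Nat.one_le_two_pow
  have hQ1 : n < Q := Nat.lt_two_pow_self
  have hC1 : C < 2 ^ C := Nat.lt_two_pow_self
  have e : 2 ^ (n ^ k + n + C) = P * Q * 2 ^ C := by rw [pow_add, pow_add]
  have hPQ : P ≤ P * Q := Nat.le_mul_of_pos_right _ (by omega)
  have hQP : Q ≤ P * Q := Nat.le_mul_of_pos_left _ (by omega)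
  have h1 : P * Q * C < P * Q * 2 ^ C :=
    Nat.mul_lt_mul_of_pos_left hC1 (Nat.mul_pos (by omega) (by omega))
  have hT2 : T ≤ 2 * c * (P * Q) := by
    calc T ≤ c * P + c := hT
      _ ≤ c * P + c * P := by nlinarith
      _ = 2 * c * P := by ring
      _ ≤ 2 * c * (P * Q) := Nat.mul_le_mul_left _ hPQ
  have hdT : d * T ≤ 2 * c * d * (P * Q) := by
    calc d * T ≤ d * (2 * c * (P * Q)) := Nat.mul_le_mul_left _ hT2
      _ = 2 * c * d * (P * Q) := by ring
  have hd : 2 * d ≤ 2 * d * (P * Q) := Nat.le_mul_of_pos_right _ (by omega)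
  have e2 : P * Q * C = 2 * c * d * (P * Q) + 2 * c * (P * Q) + 2 * d * (P * Q) + P * Q := by
    rw [hC]; ring
  rw [e]
  refine ⟨by omega, by omega, by omega⟩

theorem exists_inp {A : Set (List Bool)} (hA : InEXP A) (flag : Bool) :
    ∃ I : List Bool → Inp, PT I ∧ ∀ x, (I x).OK ∧ (I x).flag = flag ∧
      ((I x).tab.out (I x).x (I x).W = true ↔ x ∈ A) := by
  obtain ⟨k, f, c, ⟨M, hM⟩, hf⟩ := hA
  obtain ⟨τ, hτ, hout⟩ := exists_tabD M.toTM2ComputableAux
  set C := 2 * c * τ.d + 2 * c + 2 * τ.d + 1 with hC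
  refine ⟨fun x => (τ, x, List.replicate (4 * (x.length ^ k + x.length + C)) (),
    List.replicate 2 (), flag), by fun_prop, fun x => ?_⟩
  have hW : Inp.W (τ, x, List.replicate (4 * (x.length ^ k + x.length + C)) (),
      List.replicate 2 (), flag) = 2 ^ (x.length ^ k + x.length + C) := by
    simp [Inp.W, Inp.n, Inp.m]
  obtain ⟨h1, h2, h3⟩ := hard_bound c τ.d k x.length (M.time x.length) (hM _)
  refine ⟨⟨hτ, ?_, ?_, ?_, ?_⟩, rfl, ?_⟩
  · simp only [Inp.m, List.length_replicate]; omega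
  · simp [Inp.n]
  · rw [hW]; exact h3
  · rw [hW]; exact lt_of_le_of_lt (Nat.le_add_right _ _) h2
  · rw [hW, hf]
    have := hout x (f x) (M.time x.length) _ ⟨M.outputsFun x⟩ h1 h2
    change τ.out x _ = true ↔ _
    rw [this]

theorem hard_pair {A : Set (List Bool)} (hA : InEXP A) :
    ∃ I : List Bool → Inp, PT I ∧ ∀ x, (I x).OK ∧
      (Crest.WLRefine.JEquiv (I x).m (toMat ((I x).nv 0) ((I x).adj 0 false))
        (toMat ((I x).nv 0) ((I x).adj 0 true)) ↔ x ∈ A) := by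
  obtain ⟨I, hI, h⟩ := exists_inp hA false
  refine ⟨I, hI, fun x => ?_⟩
  obtain ⟨h1, h2, h3⟩ := h x
  refine ⟨h1, ?_⟩
  rw [jequiv_iff_peb (by have := h1.m4; omega), Inp.peb_iff 0 h1, h2, ← h3]
  simp

theorem hard_pt_pair {I : List Bool → Inp} (hI : PT I) :
    PT (fun x => Crest.Enc.natCode (I x).m ++
      adjMatrixCode (toMat ((I x).nv 0) ((I x).adj 0 false)) ++
      adjMatrixCode (toMat ((I x).nv 0) ((I x).adj 0 true))) := by
  simp only [adjMatrixCode_toMat]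
  exact ((Inp.pt_m.comp hI).natCode.append
    (Inp.pt_code (L := fun _ => 0) hI (PT.const 0) (PB.const 0) false)).append
    (Inp.pt_code (L := fun _ => 0) hI (PT.const 0) (PB.const 0) true)

theorem expHard_varDim : EXPHard varDimEquivLang := by
  intro A hA
  obtain ⟨I, hI, h⟩ := hard_pair hA
  refine reducible_iff_pt.2 ⟨_, hard_pt_pair hI, fun x => ?_⟩
  obtain ⟨h1, h2⟩ := h x
  rw [mem_varDim_iff, ← h2]
  have := h1.m4
  exact ⟨fun h => ⟨by omega, (Inp.subcubic 0 _ _).1, (Inp.subcubic 0 _ _).1, h⟩, fun h => h.2.2.2⟩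

theorem expHard_subcubic : EXPHard subcubicVarDimEquivLang := by
  intro A hA
  obtain ⟨I, hI, h⟩ := hard_pair hA
  refine reducible_iff_pt.2 ⟨_, hard_pt_pair hI, fun x => ?_⟩
  obtain ⟨h1, h2⟩ := h x
  rw [mem_subcubic_iff, ← h2]
  have := h1.m4
  have := Inp.five_le_nv 0 (I x)
  exact ⟨fun h => ⟨by omega, by omega, Inp.subcubic 0 _ _, Inp.subcubic 0 _ _, h⟩,
    fun h => h.2.2.2.2⟩

theorem expHard_wlDimLe : EXPHard wlDimLeLang := by
  intro A hA
  obtain ⟨I, hI, h⟩ := exists_inp hA true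
  refine reducible_iff_pt.2 ⟨fun x => Crest.Enc.natCode (I x).m ++
      adjMatrixCode (toMat ((I x).nv 0) ((I x).adj 0 false)), ?_, fun x => ?_⟩
  · simp only [adjMatrixCode_toMat]
    exact (Inp.pt_m.comp hI).natCode.append
      (Inp.pt_code (L := fun _ => 0) hI (PT.const 0) (PB.const 0) false)
  obtain ⟨h1, h2, h3⟩ := h x
  have := h1.m4
  have := Inp.five_le_nv 0 (I x)
  have hs := (Inp.subcubic 0 (I x) false).1
  rw [mem_wlDimLe_iff, exists_identifies_iff (by omega) hs, ← h3]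
  constructor
  · intro ho
    exact ⟨by omega, by omega, hs, fun H _ hp => Inp.iso_of_peb 0 h1 (ho.trans h2.symm) hp⟩
  · rintro ⟨-, -, -, hi⟩
    by_contra ho
    exact Inp.not_iso 0 h1 (hi _ (Inp.subcubic 0 (I x) true).1
      ((Inp.peb_iff 0 h1).2 (by rw [h2]; exact ho)))

end Crest.Agent.R290
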