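import Crest.Agent.R290.DefsHorn
import Crest.Agent.R290.GadDup

/-!
Row 290.  The gadget system of Horn rules is well formed, and safe when the goal is not derivable.
-/

set_option autoImplicit false

namespace Crest.Agent.R290

open Finset

variable {A : Type} [DecidableEq A] {m n : ℕ} {rs : List (Rule A)} {acc : A}


/-! ### Membership -/

omit [DecidableEq A] in
@[simp] theorem none_mem_slots (k : ℕ) : none ∈ slots rs acc k := by simp [slots]

omit [DecidableEq A] in
@[simp] theorem some_mem_slots (k j : ℕ) (γ : Bool) :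
    some (j, γ) ∈ slots rs acc k ↔ j < (ruleAt rs acc k).2.2.length := by
  cases γ <;> simp [slots]

omit [DecidableEq A] in
theorem mem_slots (k : ℕ) (s : Slot) :
    s ∈ slots rs acc k ↔ s = none ∨ ∃ j γ, j < (ruleAt rs acc k).2.2.length ∧ s = some (j, γ) := by
  rcases s with _ | ⟨j, γ⟩ <;> simp

omit [DecidableEq A] in
theorem mem_privs (p : Priv) : p ∈ privs rs acc ↔ p.1 < rs.length ∧ p.2.2 ∈ slots rs acc p.1 := by
  obtain ⟨k, β, s⟩ := p
  cases β <;> simp [privs]

@[simp] theorem inr_mem_tested (p : Priv) : Sum.inr p ∈ tested rs acc ↔ p ∈ privs rs acc := by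
  simp [tested]

@[simp] theorem inl_mem_tested (q : A × Bool) :
    Sum.inl q ∈ tested rs acc ↔ (∃ p ∈ privs rs acc, master rs acc p = q) ∧ q.1 ≠ acc := by
  simp only [tested, List.mem_append, List.mem_map, reduceCtorEq, and_false, exists_false,
    false_or, Sum.inl.injEq, exists_eq_right, List.mem_filter, decide_eq_true_eq]

theorem mem_tested (f : T0 A) : f ∈ tested rs acc ↔ (∃ p ∈ privs rs acc, f = Sum.inr p) ∨
    ∃ p ∈ privs rs acc, (master rs acc p).1 ≠ acc ∧ f = Sum.inl (master rs acc p) := by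
  rcases f with q | p
  · simp only [inl_mem_tested, reduceCtorEq, and_false, exists_false, false_or, Sum.inl.injEq]
    constructor
    · rintro ⟨⟨p, hp, rfl⟩, h⟩
      exact ⟨p, hp, h, rfl⟩
    · rintro ⟨p, hp, h, rfl⟩
      exact ⟨⟨p, hp, rfl⟩, h⟩
  · simp

@[simp] theorem none_mem_tests : none ∈ tests m n rs acc := by simp [tests]

@[simp] theorem some_mem_tests (f : T0 A) (i s : ℕ) : some (f, i, s) ∈ tests m n rs acc ↔
    f ∈ tested rs acc ∧ i < m ∧ s < if m / 2 ≤ i / 2 then 1 else n := by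
  simp only [tests, List.mem_cons, reduceCtorEq, false_or, List.mem_flatMap, List.mem_map,
    List.mem_range, Option.some.injEq, Prod.mk.injEq]
  constructor
  · rintro ⟨f', h1, i', h2, s', h3, rfl, rfl, rfl⟩
    exact ⟨h1, h2, h3⟩
  · rintro ⟨h1, h2, h3⟩
    exact ⟨f, h1, i, h2, s, h3, rfl, rfl, rfl⟩

theorem mem_tests (o : Test A) : o ∈ tests m n rs acc ↔ o = none ∨ ∃ f i s,
    f ∈ tested rs acc ∧ i < m ∧ (s < if m / 2 ≤ i / 2 then 1 else n) ∧ o = some (f, i, s) := by
  rcases o with _ | ⟨f, i, s⟩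
  · simp
  · simp only [some_mem_tests, reduceCtorEq, false_or, Option.some.injEq, Prod.mk.injEq]
    constructor
    · rintro ⟨h1, h2, h3⟩
      exact ⟨f, i, s, h1, h2, h3, rfl, rfl, rfl⟩
    · rintro ⟨f', i', s', h1, h2, h3, rfl, rfl, rfl⟩
      exact ⟨h1, h2, h3⟩

@[simp] theorem rule_mem_gads (q : ℕ × Bool) :
    (Sum.inl q : HR A) ∈ gads m n rs acc ↔ q.1 < rs.length := by
  obtain ⟨k, β⟩ := q
  cases β <;> simp [gads]

@[simp] theorem copy_mem_gads (p : Priv) :
    (Sum.inr (Sum.inl p) : HR A) ∈ gads m n rs acc ↔ p ∈ privs rs acc := by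
  simp [gads]

@[simp] theorem test_mem_gads (o : Test A) :
    (Sum.inr (Sum.inr (Sum.inl o)) : HR A) ∈ gads m n rs acc ↔ o ∈ tests m n rs acc := by
  simp [gads]

@[simp] theorem point_mem_gads (q : Test A × Bool) :
    (Sum.inr (Sum.inr (Sum.inr q)) : HR A) ∈ gads m n rs acc ↔ q.1 ∈ tests m n rs acc := by
  obtain ⟨o, γ⟩ := q
  cases γ <;> simp [gads]

theorem mem_gads (r : HR A) : r ∈ gads m n rs acc ↔
    (∃ k β, k < rs.length ∧ r = Sum.inl (k, β)) ∨
    (∃ p ∈ privs rs acc, r = Sum.inr (Sum.inl p)) ∨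
    (∃ o ∈ tests m n rs acc, r = Sum.inr (Sum.inr (Sum.inl o))) ∨
    ∃ o ∈ tests m n rs acc, ∃ γ, r = Sum.inr (Sum.inr (Sum.inr (o, γ))) := by
  rcases r with ⟨k, β⟩ | p | o | ⟨o, γ⟩ <;> simp

/-! ### The data of the four kinds of gadgets -/

section

omit [DecidableEq A]

@[simp] theorem hF_rule (q : ℕ × Bool) : hF rs acc (Sum.inl q) =
    (slots rs acc q.1).map fun s => Sum.inl (Sum.inr (q.1, q.2, s)) := rfl
@[simp] theorem hF_copy (p : Priv) : hF rs acc (Sum.inr (Sum.inl p)) =
    [Sum.inl (Sum.inr p), Sum.inl (Sum.inl (master rs acc p))] := rfl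
@[simp] theorem hF_test (o : Test A) : hF rs acc (Sum.inr (Sum.inr (Sum.inl o))) =
    [Sum.inr (o, false), Sum.inr (o, true)] := rfl
@[simp] theorem hF_point (q : Test A × Bool) : hF rs acc (Sum.inr (Sum.inr (Sum.inr q))) =
    [Sum.inr q, Sum.inl (Sum.inl (acc, q.2))] := rfl

@[simp] theorem hPat_rule (q : ℕ × Bool) : hPat rs acc (Sum.inl q) = (ruleAt rs acc q.1).1 := rfl
@[simp] theorem hPat_copy (p : Priv) :
    hPat rs acc (Sum.inr (Sum.inl p)) = (ruleAt rs acc p.1).1 := rfl
@[simp] theorem hPat_test (x : Test A ⊕ (Test A × Bool)) :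
    hPat rs acc (Sum.inr (Sum.inr x)) = [] := rfl

@[simp] theorem hSide_rule (q : ℕ × Bool) (p : Priv) :
    hSide (Sum.inl q : HR A) (Sum.inl (Sum.inr p)) = p.2.2.isNone := rfl
@[simp] theorem hSide_copy (p : Priv) (f : HT A) :
    hSide (Sum.inr (Sum.inl p) : HR A) f = p.2.2.isNone := rfl
@[simp] theorem hSide_test (x : Test A ⊕ (Test A × Bool)) (f : HT A) :
    hSide (Sum.inr (Sum.inr x) : HR A) f = true := rfl

@[simp] theorem hFgn_rule (q : ℕ × Bool) : hFgn (Sum.inl q : HR A) = none := rfl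
@[simp] theorem hFgn_copy (p : Priv) : hFgn (Sum.inr (Sum.inl p) : HR A) = none := rfl
@[simp] theorem hFgn_test (o : Test A) : hFgn (Sum.inr (Sum.inr (Sum.inl o)) : HR A) =
    o.map fun y => (Sum.inl y.1, y.2) := rfl
@[simp] theorem hFgn_point (q : Test A × Bool) :
    hFgn (Sum.inr (Sum.inr (Sum.inr q)) : HR A) = none := rfl

@[simp] theorem hB_rule (q : ℕ × Bool) : hB (Sum.inl q : HR A) = 0 := rfl
@[simp] theorem hB_copy (p : Priv) : hB (Sum.inr (Sum.inl p) : HR A) = 0 := rfl
@[simp] theorem hB_test (o : Test A) :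
    hB (Sum.inr (Sum.inr (Sum.inl o)) : HR A) = if o.isNone then 1 else 0 := rfl
@[simp] theorem hB_point (q : Test A × Bool) :
    hB (Sum.inr (Sum.inr (Sum.inr q)) : HR A) = 0 := rfl

@[simp] theorem master_none (k : ℕ) (β : Bool) :
    master rs acc (k, β, none) = ((ruleAt rs acc k).2.1, β) := rfl
@[simp] theorem master_some (k : ℕ) (β : Bool) (j : ℕ) (γ : Bool) :
    master rs acc (k, β, some (j, γ)) = ((ruleAt rs acc k).2.2.getD j acc, γ) := rfl

theorem ruleAt_mem {k : ℕ} (hk : k < rs.length) : ruleAt rs acc k ∈ rs := by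
  rw [ruleAt, List.getD_eq_getElem _ _ hk]
  exact List.getElem_mem hk

theorem exists_ruleAt {r : Rule A} (hr : r ∈ rs) : ∃ k < rs.length, ruleAt rs acc k = r := by
  obtain ⟨k, hk, rfl⟩ := List.getElem_of_mem hr
  exact ⟨k, hk, by rw [ruleAt, List.getD_eq_getElem _ _ hk]⟩

theorem nodup_slots (k : ℕ) : (slots rs acc k).Nodup := by
  rw [slots, List.nodup_cons]
  refine ⟨by simp, List.nodup_flatMap.2 ⟨fun j _ => by simp, ?_⟩⟩
  refine List.nodup_range.imp fun {a b} hab => ?_
  simp [Function.onFun, hab, hab.symm]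

theorem length_slots (k : ℕ) :
    (slots rs acc k).length = 2 * (ruleAt rs acc k).2.2.length + 1 := by
  simp [slots, List.length_flatMap, mul_comm]

end

theorem patAt_of_le {π : Pat} {ρ : ℕ} (h : π.length ≤ ρ) : patAt π ρ = some (0, 0) :=
  List.getD_eq_default _ _ h

theorem patAt_mem {π : Pat} {ρ : ℕ} (h : ρ < π.length) : patAt π ρ ∈ π := by
  rw [patAt, List.getD_eq_getElem _ _ h]
  exact List.getElem_mem h

theorem none_mem_of_patAt {π : Pat} {ρ : ℕ} (h : (patAt π ρ).isNone = true) : none ∈ π := by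
  rcases lt_or_ge ρ π.length with h' | h'
  · exact Option.isNone_iff_eq_none.1 h ▸ patAt_mem h'
  · simp [patAt_of_le h'] at h

theorem patFix_of_le {π : Pat} {ρ : ℕ} (h : π.length ≤ ρ) (side : Bool) :
    patFix π side ρ = 0 := by
  simp [patFix, patAt_of_le h]

theorem patInst_of_le {π : Pat} {ρ : ℕ} (h : π.length ≤ ρ) (side : Bool) (d : ℕ → ℕ) :
    patInst π side d ρ = 0 := by
  simp [patInst, patAt_of_le h, patFix_of_le h]

theorem patInst_nil (side : Bool) (d : ℕ → ℕ) : patInst [] side d = fun _ => 0 :=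
  funext fun _ => patInst_of_le (Nat.zero_le _) side d

theorem patFix_lt {π : Pat} (hn : 0 < n) (h : ∀ v, some v ∈ π → v.1 < n ∧ v.2 < n) (side : Bool)
    (ρ : ℕ) : patFix π side ρ < n := by
  rcases lt_or_ge ρ π.length with h' | h'
  · have h1 := patAt_mem h'
    unfold patFix
    cases e : patAt π ρ with
    | none => exact hn
    | some v =>
      rw [e] at h1
      cases side
      · exact (h v h1).1
      · exact (h v h1).2
  · rw [patFix_of_le h']; exact hn

theorem hornG_wv (r : HR A) (f : HT A) (d : ℕ → ℕ) :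
    (hornG m n rs acc).wv r f d = patInst (hPat rs acc r) (hSide r f) d := rfl

theorem hPat_cases {r : HR A} (hr : r ∈ gads m n rs acc) :
    hPat rs acc r = [] ∨ ∃ r' ∈ rs, hPat rs acc r = r'.1 := by
  rcases r with q | p | x
  · exact Or.inr ⟨_, ruleAt_mem ((rule_mem_gads q).1 hr), rfl⟩
  · exact Or.inr ⟨_, ruleAt_mem ((mem_privs p).1 ((copy_mem_gads p).1 hr)).1, rfl⟩
  · exact Or.inl rfl

theorem length_hPat_le (h : HornWF m n rs acc) {r : HR A} (hr : r ∈ gads m n rs acc) :
    (hPat rs acc r).length ≤ m / 2 := by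
  rcases hPat_cases hr with e | ⟨r', hr', e⟩ <;> rw [e]
  · exact Nat.zero_le _
  · exact h.len r' hr'

/-! ### The types mentioned by a gadget -/

theorem ment_rule (q : ℕ × Bool) (f : HT A) : (hornG m n rs acc).Ment (Sum.inl q) f ↔
    ∃ s ∈ slots rs acc q.1, f = Sum.inl (Sum.inr (q.1, q.2, s)) := by
  simp [GSys.Ment, hornG, eq_comm]

theorem ment_copy (p : Priv) (f : HT A) : (hornG m n rs acc).Ment (Sum.inr (Sum.inl p)) f ↔
    f = Sum.inl (Sum.inr p) ∨ f = Sum.inl (Sum.inl (master rs acc p)) := by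
  simp [GSys.Ment, hornG]

theorem ment_test (o : Test A) (f : HT A) :
    (hornG m n rs acc).Ment (Sum.inr (Sum.inr (Sum.inl o))) f ↔
      f = Sum.inr (o, false) ∨ f = Sum.inr (o, true) ∨ ∃ y, o = some y ∧ f = Sum.inl y.1 := by
  rcases o with _ | y <;> simp [GSys.Ment, hornG, or_assoc, eq_comm]

theorem ment_point (q : Test A × Bool) (f : HT A) :
    (hornG m n rs acc).Ment (Sum.inr (Sum.inr (Sum.inr q))) f ↔
      f = Sum.inr q ∨ f = Sum.inl (Sum.inl (acc, q.2)) := by
  simp [GSys.Ment, hornG]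

theorem hornDup_test_ne {o : Test A} (ho : o ∈ tests m n rs acc) {y : T0 A × ℕ × ℕ}
    (e : o = some y) (γ : Bool) : y.1 ≠ Sum.inl (acc, γ) := by
  obtain ⟨f, i, s⟩ := y
  subst e
  rintro rfl
  exact ((inl_mem_tested _).1 ((some_mem_tests _ _ _).1 ho).1).2 rfl

theorem hornDup_share (r r' : HR A) (hr : r ∈ gads m n rs acc) (hr' : r' ∈ gads m n rs acc)
    (hne : r ≠ r') (f g : HT A) (h1 : (hornG m n rs acc).Ment r f)
    (h2 : (hornG m n rs acc).Ment r' f) (h3 : (hornG m n rs acc).Ment r g)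
    (h4 : (hornG m n rs acc).Ment r' g) : f = g := by
  rcases r with q | p | o | q <;> rcases r' with q' | p' | o' | q' <;>
    simp only [ment_rule, ment_copy, ment_test, ment_point] at h1 h2 h3 h4
  case inr.inr.inl.inr.inr.inr =>
    have := @hornDup_test_ne _ _ _ _ _ _ _ ((test_mem_gads o).1 hr)
    grind
  case inr.inr.inr.inr.inr.inl =>
    have := @hornDup_test_ne _ _ _ _ _ _ _ ((test_mem_gads o').1 hr')
    grind
  all_goals grind

/-- truncation of a world to the registers -/
def hornDupTrunc (m : ℕ) (a : ℕ → ℕ) : ℕ → ℕ := fun ρ => if ρ < m / 2 then a ρ else 0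

theorem hornDup_trunc {π : Pat} (h : π.length ≤ m / 2) (side : Bool) (d : ℕ → ℕ) :
    hornDupTrunc m (patInst π side d) = patInst π side d := by
  funext ρ
  unfold hornDupTrunc
  split_ifs with h'
  · rfl
  · exact (patInst_of_le (by omega) side d).symm

/-- the truth predicate -/
def hornDupTr (m n : ℕ) (rs : List (Rule A)) (acc : A) (f : HT A) (a : ℕ → ℕ) : Prop :=
  f.elim (fun g => g.elim (fun q => Der n rs q.1 (hornDupTrunc m a))
    fun p => Der n rs (master rs acc p).1 (hornDupTrunc m a)) fun _ => False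

theorem hornDup_safe (h : HornWF m n rs acc) (hd : ¬ Der n rs acc fun _ => 0) :
    (hornG m n rs acc).Safe (hornDupTr m n rs acc) where
  share := hornDup_share
  two r hr ρ hw := by
    rcases r with q | p | o | q
    · have h1 := h.fact _ (ruleAt_mem (acc := acc) ((rule_mem_gads q).1 hr))
      have h2 : (ruleAt rs acc q.1).2.2 ≠ [] := fun e => h1 e (none_mem_of_patAt hw)
      have h3 := List.length_pos_iff.2 h2
      show 2 ≤ (hF rs acc (Sum.inl q)).length
      rw [hF_rule, List.length_map, length_slots]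
      omega
    all_goals exact le_rfl
  congr f a a' e ht := by
    have : hornDupTrunc m a = hornDupTrunc m a' := by
      funext ρ
      unfold hornDupTrunc
      split_ifs with h'
      · exact e ρ h'
      · rfl
    unfold hornDupTr at ht ⊢
    rwa [← this]
  local' r hr d hdn := by
    have key : ∀ f, hornDupTrunc m ((hornG m n rs acc).wv r f d) =
        patInst (hPat rs acc r) (hSide r f) d := fun f => hornDup_trunc (length_hPat_le h hr) _ _
    rcases r with ⟨k, β⟩ | p | o | q
    · by_cases hp : ∀ τ ∈ (ruleAt rs acc k).2.2, Der n rs τ (patInst (ruleAt rs acc k).1 false d)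
      · refine Or.inl ⟨fun f hf => ?_, rfl, rfl⟩
        obtain ⟨s, hs, rfl⟩ := List.mem_map.1 hf
        show Der n rs _ (hornDupTrunc m _)
        rw [key]
        rcases s with _ | ⟨j, γ⟩
        · exact Der.rule _ (ruleAt_mem ((rule_mem_gads _).1 hr)) d hdn hp
        · have hj := (some_mem_slots k j γ).1 hs
          refine hp _ ?_
          rw [master_some, List.getD_eq_getElem _ _ hj]
          exact List.getElem_mem hj
      · push Not at hp
        obtain ⟨τ, hτ, hτ'⟩ := hp
        obtain ⟨j, hj, rfl⟩ := List.getElem_of_mem hτ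
        have hn : ∀ γ, ¬ hornDupTr m n rs acc (Sum.inl (Sum.inr (k, β, some (j, γ))))
            ((hornG m n rs acc).wv (Sum.inl (k, β)) (Sum.inl (Sum.inr (k, β, some (j, γ)))) d) := by
          intro γ
          show ¬ Der n rs _ (hornDupTrunc m _)
          rw [key, master_some, List.getD_eq_getElem _ _ hj]
          exact hτ'
        exact Or.inr ⟨_, List.mem_map_of_mem ((some_mem_slots k j false).2 hj), _,
          List.mem_map_of_mem ((some_mem_slots k j true).2 hj), by simp, hn false, hn true⟩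
    · by_cases hp : Der n rs (master rs acc p).1 (patInst (ruleAt rs acc p.1).1 p.2.2.isNone d)
      · refine Or.inl ⟨fun f hf => ?_, rfl, rfl⟩
        rcases List.mem_pair.1 hf with rfl | rfl
        all_goals
          show Der n rs _ (hornDupTrunc m _)
          rw [key]
          exact hp
      · refine Or.inr ⟨_, List.mem_pair.2 (Or.inl rfl), _, List.mem_pair.2 (Or.inr rfl), by simp,
          ?_, ?_⟩
        all_goals
          show ¬ Der n rs _ (hornDupTrunc m _)
          rw [key]
          exact hp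
    · exact Or.inr ⟨_, List.mem_pair.2 (Or.inl rfl), _, List.mem_pair.2 (Or.inr rfl), by simp,
        id, id⟩
    · refine Or.inr ⟨_, List.mem_pair.2 (Or.inl rfl), _, List.mem_pair.2 (Or.inr rfl), by simp,
        id, ?_⟩
      show ¬ Der n rs _ (hornDupTrunc m _)
      rw [key, hPat_test, patInst_nil]
      exact hd

theorem mem_hBlocks (B : GB (HR A)) : B ∈ hBlocks m n rs acc ↔ (hornG m n rs acc).ok B := by
  obtain ⟨r, i, d⟩ := B
  simp only [hBlocks, List.mem_flatMap, List.mem_map, List.mem_range, Prod.mk.injEq, GSys.ok]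
  constructor
  · rintro ⟨r', h1, i', h2, d', h3, rfl, rfl, rfl⟩
    refine ⟨h1, h2, ?_⟩
    split_ifs at h3 ⊢
    · exact h3
    · omega
  · rintro ⟨h1, h2, h3⟩
    refine ⟨r, h1, i, h2, d, ?_, rfl, rfl, rfl⟩
    split_ifs at h3 ⊢
    · exact h3
    · omega

theorem hornG_wf (h : HornWF m n rs acc) : (hornG m n rs acc).WF where
  m4 := h.m4
  npos := h.npos
  nodup r _ := by
    show (hF rs acc r).Nodup
    rcases r with q | p | o | q
    · exact (nodup_slots q.1).map fun s s' e => by simpa using e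
    all_goals simp
  out r hr ρ hρ := by
    have h1 : (hPat rs acc r).length ≤ ρ := (length_hPat_le h hr).trans hρ
    exact ⟨by simp [hornG, patAt_of_le h1], fun f => patFix_of_le h1 _⟩
  fix_lt r hr f _ ρ := by
    refine patFix_lt h.npos ?_ _ _
    rcases hPat_cases hr with e | ⟨r', hr', e⟩ <;> rw [e]
    · simp
    · exact h.lt r' hr'
  fgn r hr y hy := by
    rcases r with q | p | o | q
    · cases hy
    · cases hy
    · rcases o with _ | ⟨f, i, s⟩
      · cases hy
      · cases hy
        obtain ⟨-, h2, h3⟩ := (some_mem_tests f i s).1 ((test_mem_gads _).1 hr)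
        refine ⟨h2, fun hd => ?_, by simp [hornG], fun ρ => by simp [hornG, patAt]⟩
        have hd' : m / 2 ≤ i / 2 := hd
        rw [if_pos hd'] at h3
        show s = 0
        omega
    · cases hy

theorem hornG_cons (h : HornWF m n rs acc) (hd : ¬ Der n rs acc fun _ => 0) :
    Cons (m + 1) (hornG m n rs acc).sys.ok (hornG m n rs acc).sys.eqn (hornG m n rs acc).rhs :=
  (hornG m n rs acc).cons_of_safe (hornG_wf h) (hornDup_safe h hd)

theorem mem_hChecks (c : BSys.CC (GB (HR A))) :
    c ∈ hChecks m n rs acc ↔ (hornG m n rs acc).sys.cok c := by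
  rw [hChecks, List.mem_dedup, List.mem_cons]
  rcases c with _ | ⟨B, t⟩
  · simp [BSys.cok]
  · simp only [reduceCtorEq, false_or, List.mem_flatMap, List.mem_map, List.mem_range,
      Option.some.injEq, Prod.mk.injEq, mem_hBlocks, BSys.cok, GSys.sys]
    constructor
    · rintro ⟨B', h1, t', h2, rfl, rfl⟩
      exact ⟨h1, h2⟩
    · rintro ⟨h1, h2⟩
      exact ⟨B, h1, t, h2, rfl, rfl⟩

end Crest.Agent.R290
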