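import Crest.Agent.R290.PebBasic

/-!
Row 290.  Weisfeiler-Leman equivalence is the bijective pebble game.
-/

set_option autoImplicit false

namespace Crest.Agent.R290

open Finset Crest.WLRefine Crest.WLRefine.ParityLift

variable {n m k K : ℕ} {G : Fin n → Fin n → Bool} {H : Fin m → Fin m → Bool}

theorem pwl_map_eq_of_equiv {A B C : Type} [Fintype A] [Fintype B] {f : A → C} {g : B → C}
    (π : A ≃ B) (h : ∀ x, f x = g (π x)) :
    (univ : Finset A).val.map f = (univ : Finset B).val.map g := by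
  rw [← Multiset.map_univ_val_equiv π, Multiset.map_map]
  exact Multiset.map_congr rfl fun x _ => h x

theorem pwl_equiv_of_map_eq {A B C : Type} [Fintype A] [Fintype B] {f : A → C} {g : B → C}
    (h : (univ : Finset A).val.map f = (univ : Finset B).val.map g) :
    ∃ π : A ≃ B, ∀ x, f x = g (π x) := by
  classical
  have hc : ∀ c, Fintype.card {a // f a = c} = Fintype.card {b // g b = c} := by
    intro c
    have h1 := congrArg (Multiset.count c) h
    rw [Multiset.count_map, Multiset.count_map] at h1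
    rw [Fintype.card_subtype, Fintype.card_subtype]
    simp only [Finset.card_def, Finset.filter_val]
    simpa only [eq_comm] using h1
  exact ⟨Equiv.ofFiberEquiv fun c => Fintype.equivOfCardEq (hc c),
    fun x => (Equiv.ofFiberEquiv_map _ x).symm⟩

theorem pwl_pigeon {α : Type} [Finite α] (Q : ℕ → α → Prop) (hmono : ∀ s a, Q (s + 1) a → Q s a)
    (h : ∀ s, ∃ a, Q s a) : ∃ a, ∀ s, Q s a := by
  by_contra hcon
  push Not at hcon
  choose f hf using hcon
  have := Fintype.ofFinite α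
  obtain ⟨a, ha⟩ := h (univ.sup f)
  have hle : f a ≤ univ.sup f := Finset.le_sup (mem_univ a)
  have key : ∀ d s, Q (s + d) a → Q s a := by
    intro d
    induction d with
    | zero => intro s hs; exact hs
    | succ d ih => intro s hs; exact ih s (hmono _ _ hs)
  obtain ⟨d, hd⟩ := Nat.exists_eq_add_of_le hle
  rw [hd] at ha
  exact hf a (key d _ ha)

section pairs

variable {V W : Type} [DecidableEq V] [DecidableEq W]

theorem pwl_mem_pairsOf {u : Fin k → V} {v : Fin k → W} {p : V × W} :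
    p ∈ pairsOf u v ↔ ∃ i, (u i, v i) = p := by
  simp [pairsOf]

theorem pwl_card_pairsOf (u : Fin k → V) (v : Fin k → W) : (pairsOf u v).card ≤ k := by
  unfold pairsOf
  simpa using Finset.card_image_le (s := (univ : Finset (Fin k))) (f := fun i => (u i, v i))

theorem pwl_update_subset (u : Fin k → V) (v : Fin k → W) (i : Fin k) (z : V) (w : W) :
    pairsOf (Function.update u i z) (Function.update v i w) ⊆
      insert (z, w) ((univ.erase i).image fun j => (u j, v j)) := by
  intro p hp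
  obtain ⟨j, rfl⟩ := pwl_mem_pairsOf.mp hp
  by_cases hj : j = i
  · subst hj; simp
  · rw [Function.update_of_ne hj, Function.update_of_ne hj]
    exact mem_insert_of_mem (mem_image.mpr ⟨j, by simp [hj], rfl⟩)

theorem pwl_erase_subset (u : Fin k → V) (v : Fin k → W) (i : Fin k) :
    ((univ.erase i).image fun j => (u j, v j)) ⊆ pairsOf u v :=
  image_subset_image (erase_subset _ _)

theorem pwl_unused {u : Fin k → V} {v : Fin k → W} {S : Finset (V × W)} (hS : S ⊆ pairsOf u v)
    (hc : S.card < k) :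
    ∃ i, ∀ z w, insert (z, w) S ⊆ pairsOf (Function.update u i z) (Function.update v i w) := by
  have h1 : ∀ p : S, ∃ i, (u i, v i) = p.1 := fun p => pwl_mem_pairsOf.mp (hS p.2)
  choose c hc' using h1
  have h2 : ¬ Function.Surjective c := by
    intro hs
    have := Fintype.card_le_of_surjective c hs
    simp at this
    omega
  simp only [Function.Surjective, not_forall, not_exists] at h2
  obtain ⟨i, hi⟩ := h2
  refine ⟨i, fun z w p hp => ?_⟩
  rw [pwl_mem_pairsOf]
  rcases mem_insert.mp hp with rfl | hp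
  · exact ⟨i, by simp⟩
  · refine ⟨c ⟨p, hp⟩, ?_⟩
    rw [Function.update_of_ne (hi _), Function.update_of_ne (hi _)]
    exact hc' ⟨p, hp⟩

end pairs

theorem IsPeb.pwl_atomic {F : Set (Finset (Fin n × Fin m))} (h : IsPeb K G H F)
    (u : Fin k → Fin n) (v : Fin k → Fin m) (huv : pairsOf u v ∈ F) :
    atomicType G u = atomicType H v := by
  unfold atomicType
  refine Prod.ext ?_ ?_
  · funext i j
    have := h.eq _ huv (u i, v i) (pwl_mem_pairsOf.mpr ⟨i, rfl⟩) (u j, v j)
      (pwl_mem_pairsOf.mpr ⟨j, rfl⟩)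
    simpa using this
  · funext i j
    exact h.adj _ huv (u i, v i) (pwl_mem_pairsOf.mpr ⟨i, rfl⟩) (u j, v j)
      (pwl_mem_pairsOf.mpr ⟨j, rfl⟩)

theorem pwl_of_atomic {u : Fin k → Fin n} {v : Fin k → Fin m}
    (h : atomicType G u = atomicType H v) {a b : Fin n × Fin m} (ha : a ∈ pairsOf u v)
    (hb : b ∈ pairsOf u v) : (a.1 = b.1 ↔ a.2 = b.2) ∧ G a.1 b.1 = H a.2 b.2 := by
  obtain ⟨i, rfl⟩ := pwl_mem_pairsOf.mp ha
  obtain ⟨j, rfl⟩ := pwl_mem_pairsOf.mp hb
  have h1 := congrFun (congrFun (congrArg Prod.fst h) i) j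
  have h2 := congrFun (congrFun (congrArg Prod.snd h) i) j
  simp only [atomicType] at h1 h2
  exact ⟨by simpa using h1, h2⟩

theorem IsPeb.jcolor_eq {F : Set (Finset (Fin n × Fin m))} (h : IsPeb K G H F) (hK : k + 1 ≤ K)
    (s : ℕ) (u : Fin k → Fin n) (v : Fin k → Fin m) (huv : pairsOf u v ∈ F) :
    jcolor G k s u = jcolor H k s v := by
  induction s generalizing u v with
  | zero => exact h.pwl_atomic u v huv
  | succ s ih =>
    obtain ⟨π, hπ⟩ := h.ext _ huv (lt_of_le_of_lt (pwl_card_pairsOf u v) hK)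
    simp only [jcolor]
    refine Prod.ext (ih u v huv) (pwl_map_eq_of_equiv π fun z => ?_)
    funext i
    refine ih _ _ (h.down _ (hπ z) _ ((pwl_update_subset u v i z (π z)).trans ?_))
    exact insert_subset_insert _ (pwl_erase_subset u v i)

theorem IsPeb.scolor_eq {F : Set (Finset (Fin n × Fin m))} (h : IsPeb K G H F) (hK : k ≤ K)
    (s : ℕ) (u : Fin k → Fin n) (v : Fin k → Fin m) (huv : pairsOf u v ∈ F) :
    scolor G k s u = scolor H k s v := by
  induction s generalizing u v with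
  | zero => exact h.pwl_atomic u v huv
  | succ s ih =>
    simp only [scolor]
    refine Prod.ext (ih u v huv) ?_
    funext i
    have hc : ((univ.erase i).image fun j => (u j, v j)).card < K := by
      refine lt_of_le_of_lt card_image_le ?_
      rw [card_erase_of_mem (mem_univ i), card_univ, Fintype.card_fin]
      have := i.pos
      omega
    obtain ⟨π, hπ⟩ := h.ext _ (h.down _ huv _ (pwl_erase_subset u v i)) hc
    exact pwl_map_eq_of_equiv π fun z =>
      ih _ _ (h.down _ (hπ z) _ (pwl_update_subset u v i z (π z)))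

theorem IsPeb.exists_tupleEquiv {V W : Type} [DecidableEq V] [DecidableEq W] {A : V → V → Bool}
    {B : W → W → Bool} {F : Set (Finset (V × W))} (h : IsPeb K A B F) (hK : k ≤ K) :
    ∃ Φ : (Fin k → V) ≃ (Fin k → W), ∀ u, pairsOf u (Φ u) ∈ F := by
  induction k with
  | zero =>
    refine ⟨Equiv.ofUnique _ _, fun u => ?_⟩
    have : pairsOf u (Equiv.ofUnique (Fin 0 → V) (Fin 0 → W) u) = ∅ := by simp [pairsOf]
    rw [this]
    exact h.empty
  | succ k ih =>
    obtain ⟨Φ, hΦ⟩ := ih (by omega)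
    have h1 : ∀ u : Fin k → V, ∃ π : V ≃ W, ∀ z, insert (z, π z) (pairsOf u (Φ u)) ∈ F :=
      fun u => h.ext _ (hΦ u) (lt_of_le_of_lt (pwl_card_pairsOf _ _) hK)
    choose π hπ using h1
    let e : ∀ X : Type, (Fin (k + 1) → X) ≃ (Fin k → X) × X := fun X =>
      (Fin.consEquiv fun _ => X).symm.trans (Equiv.prodComm _ _)
    refine ⟨(e V).trans ((Equiv.prodShear Φ π).trans (e W).symm), fun u => ?_⟩
    refine h.down _ (hπ (Fin.tail u) (u 0)) _ ?_
    intro p hp
    obtain ⟨i, rfl⟩ := pwl_mem_pairsOf.mp hp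
    refine Fin.cases ?_ (fun j => ?_) i
    · exact mem_insert.mpr (Or.inl rfl)
    · exact mem_insert_of_mem (pwl_mem_pairsOf.mpr ⟨j, rfl⟩)

theorem pwl_peb_zero {G : Fin 0 → Fin 0 → Bool} {H : Fin 0 → Fin 0 → Bool} : Peb K G H := by
  refine ⟨{∅}, ⟨rfl, ?_, ?_, ?_, ?_⟩⟩
  · intro P hP Q hQ
    rw [Set.mem_singleton_iff] at hP ⊢
    subst hP
    exact subset_empty.mp hQ
  · intro P _ a; exact a.1.elim0
  · intro P _ a; exact a.1.elim0
  · intro P _ _
    exact ⟨Equiv.refl _, fun z => z.elim0⟩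

theorem pwl_cases (hk : 2 ≤ k) (Φ : (Fin k → Fin n) ≃ (Fin k → Fin m)) :
    (n = 0 ∧ m = 0) ∨ Nonempty (Fin k → Fin n) := by
  rcases Nat.eq_zero_or_pos n with rfl | hn
  · left
    refine ⟨rfl, ?_⟩
    rcases Nat.eq_zero_or_pos m with hm | hm
    · exact hm
    · exact (Φ.symm (fun _ => ⟨0, hm⟩) ⟨0, by omega⟩).elim0
  · exact Or.inr ⟨fun _ => ⟨0, hn⟩⟩

theorem jequiv_iff_peb (hk : 2 ≤ k) : JEquiv k G H ↔ Peb (k + 1) G H := by
  constructor
  · intro h
    have hmono : ∀ s (u : Fin k → Fin n) (v : Fin k → Fin m),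
        jcolor G k (s + 1) u = jcolor H k (s + 1) v → jcolor G k s u = jcolor H k s v :=
      fun s u v huv => congrArg Prod.fst huv
    obtain ⟨Φ, hΦ⟩ := pwl_pigeon (α := (Fin k → Fin n) ≃ (Fin k → Fin m))
      (fun s Φ => ∀ u, jcolor G k s u = jcolor H k s (Φ u))
      (fun s Φ hs u => hmono s _ _ (hs u)) (fun s => pwl_equiv_of_map_eq (h s))
    rcases pwl_cases hk Φ with ⟨rfl, rfl⟩ | ⟨⟨u₀⟩⟩
    · exact pwl_peb_zero
    refine ⟨{P | ∀ Q ⊆ P, Q.card ≤ k → ∃ (u : Fin k → Fin n) (v : Fin k → Fin m),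
      (∀ s, jcolor G k s u = jcolor H k s v) ∧ Q ⊆ pairsOf u v}, ⟨?_, ?_, ?_, ?_, ?_⟩⟩
    · intro Q hQ _
      exact ⟨u₀, Φ u₀, fun s => hΦ s u₀, hQ.trans (empty_subset _)⟩
    · intro P hP Q hQ Q' hQ' hc
      exact hP Q' (hQ'.trans hQ) hc
    · intro P hP a ha b hb
      obtain ⟨u, v, huv, hsub⟩ := hP {a, b} (by simp [insert_subset_iff, ha, hb])
        (card_le_two.trans hk)
      exact (pwl_of_atomic (huv 0) (hsub (by simp)) (hsub (by simp))).1
    · intro P hP a ha b hb
      obtain ⟨u, v, huv, hsub⟩ := hP {a, b} (by simp [insert_subset_iff, ha, hb])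
        (card_le_two.trans hk)
      exact (pwl_of_atomic (huv 0) (hsub (by simp)) (hsub (by simp))).2
    · intro P hP hc
      obtain ⟨u, v, huv, hsub⟩ := hP P Subset.rfl (by omega)
      obtain ⟨π, hπ⟩ := pwl_pigeon (α := Fin n ≃ Fin m)
        (fun s π => ∀ z, (fun i => jcolor G k s (Function.update u i z)) =
          fun i => jcolor H k s (Function.update v i (π z)))
        (fun s π hs z => funext fun i => hmono s _ _ (congrFun (hs z) i))
        (fun s => pwl_equiv_of_map_eq (by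
          have := congrArg Prod.snd (huv (s + 1))
          simpa only [jcolor] using this))
      refine ⟨π, fun z Q hQ hQc => ?_⟩
      by_cases hz : (z, π z) ∈ Q
      · have h1 : Q.erase (z, π z) ⊆ pairsOf u v := (subset_insert_iff.mp hQ).trans hsub
        have h2 : (Q.erase (z, π z)).card < k := by
          rw [card_erase_of_mem hz]; omega
        obtain ⟨i, hi⟩ := pwl_unused h1 h2
        refine ⟨_, _, fun s => congrFun (hπ s z) i, ?_⟩
        have := hi z (π z)
        rwa [insert_erase hz] at this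
      · exact ⟨u, v, huv, ((subset_insert_iff_of_notMem hz).mp hQ).trans hsub⟩
  · rintro ⟨F, hF⟩ s
    obtain ⟨Φ, hΦ⟩ := hF.exists_tupleEquiv (k := k) (by omega)
    exact pwl_map_eq_of_equiv Φ fun u => hF.jcolor_eq le_rfl s _ _ (hΦ u)

theorem sequiv_iff_peb (hk : 2 ≤ k) : SEquiv k G H ↔ Peb k G H := by
  constructor
  · intro h
    have hmono : ∀ s (u : Fin k → Fin n) (v : Fin k → Fin m),
        scolor G k (s + 1) u = scolor H k (s + 1) v → scolor G k s u = scolor H k s v :=
      fun s u v huv => congrArg Prod.fst huv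
    obtain ⟨Φ, hΦ⟩ := pwl_pigeon (α := (Fin k → Fin n) ≃ (Fin k → Fin m))
      (fun s Φ => ∀ u, scolor G k s u = scolor H k s (Φ u))
      (fun s Φ hs u => hmono s _ _ (hs u)) (fun s => pwl_equiv_of_map_eq (h s))
    rcases pwl_cases hk Φ with ⟨rfl, rfl⟩ | ⟨⟨u₀⟩⟩
    · exact pwl_peb_zero
    refine ⟨{P | ∃ (u : Fin k → Fin n) (v : Fin k → Fin m),
      (∀ s, scolor G k s u = scolor H k s v) ∧ P ⊆ pairsOf u v}, ⟨?_, ?_, ?_, ?_, ?_⟩⟩
    · exact ⟨u₀, Φ u₀, fun s => hΦ s u₀, empty_subset _⟩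
    · rintro P ⟨u, v, huv, hsub⟩ Q hQ
      exact ⟨u, v, huv, hQ.trans hsub⟩
    · rintro P ⟨u, v, huv, hsub⟩ a ha b hb
      exact (pwl_of_atomic (huv 0) (hsub ha) (hsub hb)).1
    · rintro P ⟨u, v, huv, hsub⟩ a ha b hb
      exact (pwl_of_atomic (huv 0) (hsub ha) (hsub hb)).2
    · rintro P ⟨u, v, huv, hsub⟩ hc
      obtain ⟨i, hi⟩ := pwl_unused hsub hc
      obtain ⟨π, hπ⟩ := pwl_pigeon (α := Fin n ≃ Fin m)
        (fun s π => ∀ z, scolor G k s (Function.update u i z) =
          scolor H k s (Function.update v i (π z)))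
        (fun s π hs z => hmono s _ _ (hs z))
        (fun s => pwl_equiv_of_map_eq (by
          have := congrFun (congrArg Prod.snd (huv (s + 1))) i
          simpa only [scolor] using this))
      exact ⟨π, fun z => ⟨_, _, fun s => hπ s z, hi z (π z)⟩⟩
  · rintro ⟨F, hF⟩ s
    obtain ⟨Φ, hΦ⟩ := hF.exists_tupleEquiv (k := k) le_rfl
    exact pwl_map_eq_of_equiv Φ fun u => hF.scolor_eq le_rfl s _ _ (hΦ u)

end Crest.Agent.R290
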