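import Crest.Agent.R290.DefsRed

/-!
Row 290.  An interpreter for word-RAM programs with an absolute polynomial overhead.
-/

set_option autoImplicit false

namespace Crest.Agent.R290

open Crest.Agent.Lib.PT Crest.WordRAM

/-- Raw instructions: operation code and three numbers. -/
abbrev Ram_RI : Type := ℕ × ℕ × ℕ × ℕ

/-- Raw states: code, word length in unary, counter, halting flag, register writes, memory writes. -/
abbrev Ram_RS : Type := List Ram_RI × List Unit × ℕ × Bool × List (ℕ × ℕ) × List (ℕ × ℕ)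

/-- Read from a list of writes, newest first. -/
def Ram_rd (l : List (ℕ × ℕ)) (k : ℕ) : ℕ := (l.lookup k).getD 0

theorem Ram_rd_nil (k : ℕ) : Ram_rd [] k = 0 := rfl

theorem Ram_rd_cons (d v : ℕ) (l : List (ℕ × ℕ)) (k : ℕ) :
    Ram_rd ((d, v) :: l) k = if k = d then v else Ram_rd l k := by
  unfold Ram_rd
  by_cases h : k = d
  · subst h
    simp
  · have h' : (k == d) = false := by simpa using h
    simp [List.lookup, h', h]

theorem Ram_rd_map (l : List ℕ) (g : ℕ → ℕ) (k : ℕ) :
    Ram_rd (l.map fun i => (i, g i)) k = if k ∈ l then g k else 0 := by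
  induction l with
  | nil => simp [Ram_rd_nil]
  | cons a l ih =>
    rw [List.map_cons, Ram_rd_cons, ih]
    by_cases h : k = a <;> simp [h]

/-- The raw form of an instruction. -/
def Ram_ins {r : ℕ} : Instr r → Ram_RI
  | .const d v => (0, d, v, 0)
  | .copy d s => (1, d, s, 0)
  | .add d a b => (2, d, a, b)
  | .sub d a b => (3, d, a, b)
  | .mul d a b => (4, d, a, b)
  | .quot d a b => (5, d, a, b)
  | .rem d a b => (6, d, a, b)
  | .and d a b => (7, d, a, b)
  | .or d a b => (8, d, a, b)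
  | .xor d a b => (9, d, a, b)
  | .shl d a b => (10, d, a, b)
  | .shr d a b => (11, d, a, b)
  | .load d a => (12, d, a, 0)
  | .rand d => (13, d, 0, 0)
  | .store s a => (14, 0, s, a)
  | .jump l => (15, l, 0, 0)
  | .jumpIfZero a l => (16, l, a, 0)
  | .jumpIfEq a b l => (17, l, a, b)
  | .jumpIfLt a b l => (18, l, a, b)
  | .halt => (19, 0, 0, 0)

/-- The value written to a register. -/
def Ram_val (w op lit A B M : ℕ) : ℕ :=
  if op = 0 then lit % 2 ^ w else if op = 1 then A else if op = 2 then (A + B) % 2 ^ w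
  else if op = 3 then A - B else if op = 4 then (A * B) % 2 ^ w else if op = 5 then A / B
  else if op = 6 then A % B else if op = 7 then A &&& B else if op = 8 then A ||| B
  else if op = 9 then A ^^^ B
  else if op = 10 then (if B < w then A * 2 ^ min w B % 2 ^ w else 0)
  else if op = 11 then (if B < w then A / 2 ^ min w B else 0)
  else if op = 12 then M else 0

/-- Execute one raw instruction. -/
def Ram_exec (s : Ram_RS) (i : Ram_RI) : Ram_RS :=
  (s.1, s.2.1,
    (if i.1 = 19 then s.2.2.1 else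
      if i.1 = 15 ∨ (i.1 = 16 ∧ Ram_rd s.2.2.2.2.1 i.2.2.1 = 0) ∨
        (i.1 = 17 ∧ Ram_rd s.2.2.2.2.1 i.2.2.1 = Ram_rd s.2.2.2.2.1 i.2.2.2) ∨
        (i.1 = 18 ∧ Ram_rd s.2.2.2.2.1 i.2.2.1 < Ram_rd s.2.2.2.2.1 i.2.2.2)
      then i.2.1 else s.2.2.1 + 1),
    decide (i.1 = 19),
    (if i.1 < 14 then (i.2.1, Ram_val s.2.1.length i.1 i.2.2.1 (Ram_rd s.2.2.2.2.1 i.2.2.1)
      (Ram_rd s.2.2.2.2.1 i.2.2.2) (Ram_rd s.2.2.2.2.2 (Ram_rd s.2.2.2.2.1 i.2.2.1))) :: s.2.2.2.2.1
      else s.2.2.2.2.1),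
    if i.1 = 14 then (Ram_rd s.2.2.2.2.1 i.2.2.2, Ram_rd s.2.2.2.2.1 i.2.2.1) :: s.2.2.2.2.2
      else s.2.2.2.2.2)

/-- One raw step. -/
def Ram_step (s : Ram_RS) : Ram_RS :=
  if s.2.2.2.1 = true then s else Ram_exec s (s.1.getD s.2.2.1 (19, 0, 0, 0))

/-- The raw initial state, from the code, the flag "there is a register", the word length and the
input. -/
def Ram_ini (code : List Ram_RI) (reg : Bool) (w : ℕ) (x : List Bool) : Ram_RS :=
  (code, List.replicate w (), 0, false, (if reg = true then [(0, x.length % 2 ^ w)] else []),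
    (List.range x.length).map fun i => (i, (x.getD i false).toNat % 2 ^ w))

/-- The output test. -/
def Ram_out (s : Ram_RS) : List Bool :=
  [decide (Ram_rd s.2.2.2.2.1 0 = 1 ∧ Ram_rd s.2.2.2.2.2 (Ram_rd s.2.2.2.2.1 1) = 1)]

/-! ### polynomial time -/

section pt

variable {α : Type} [Enc α]

theorem Ram_testBit_ofBits (l : List Bool) (i : ℕ) : (ofBits l).testBit i = l.getD i false := by
  induction l generalizing i with
  | nil => simp
  | cons b l ih =>
    cases i with
    | zero => simp [Nat.testBit_bit_zero]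
    | succ i => rw [ofBits_cons, Nat.testBit_bit_succ, ih]; simp

theorem Ram_bitwise_eq (f : Bool → Bool → Bool) (hf : f false false = false) (A B : ℕ) :
    Nat.bitwise f A B = ofBits ((List.range (Nat.size A + Nat.size B)).map fun i =>
      f (A.testBit i) (B.testBit i)) := by
  refine Nat.eq_of_testBit_eq fun i => ?_
  rw [Nat.testBit_bitwise hf, Ram_testBit_ofBits]
  by_cases h : i < Nat.size A + Nat.size B
  · rw [List.getD_eq_getElem _ _ (by simpa using h)]
    simp
  · rw [List.getD_eq_default _ _ (by simpa using h)]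
    have h1 : A < 2 ^ i := Nat.size_le.1 (by omega)
    have h2 : B < 2 ^ i := Nat.size_le.1 (by omega)
    rw [Nat.testBit_lt_two_pow h1, Nat.testBit_lt_two_pow h2, hf]

@[fun_prop] theorem Ram_pt_land {A B : α → ℕ} (hA : PT A) (hB : PT B) :
    PT fun a => A a &&& B a := by
  have : PT fun a => ofBits ((List.range (Nat.size (A a) + Nat.size (B a))).map fun i =>
      ((A a).testBit i && (B a).testBit i)) := by fun_prop
  exact this.congr fun a => Ram_bitwise_eq and rfl _ _

@[fun_prop] theorem Ram_pt_lor {A B : α → ℕ} (hA : PT A) (hB : PT B) :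
    PT fun a => A a ||| B a := by
  have : PT fun a => ofBits ((List.range (Nat.size (A a) + Nat.size (B a))).map fun i =>
      ((A a).testBit i || (B a).testBit i)) := by fun_prop
  exact this.congr fun a => Ram_bitwise_eq or rfl _ _

@[fun_prop] theorem Ram_pt_xor {A B : α → ℕ} (hA : PT A) (hB : PT B) :
    PT fun a => A a ^^^ B a := by
  have : PT fun a => ofBits ((List.range (Nat.size (A a) + Nat.size (B a))).map fun i =>
      xor ((A a).testBit i) ((B a).testBit i)) := by fun_prop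
  exact this.congr fun a => Ram_bitwise_eq bne rfl _ _

@[fun_prop] theorem Ram_pt_rd {l : α → List (ℕ × ℕ)} {k : α → ℕ} (hl : PT l) (hk : PT k) :
    PT fun a => Ram_rd (l a) (k a) := by
  unfold Ram_rd
  fun_prop

@[fun_prop] theorem Ram_pt_val {w op lit A B M : α → ℕ} (hw : PT w) (hw' : PB w) (hop : PT op)
    (hl : PT lit) (hA : PT A) (hB : PT B) (hM : PT M) :
    PT fun a => Ram_val (w a) (op a) (lit a) (A a) (B a) (M a) := by
  have h1 : PT fun a => 2 ^ w a := by fun_prop
  have h2 : PT fun a => 2 ^ min (w a) (B a) :=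
    PT.pow (PT.const 2) (hw.min hB) (hw'.min_left _)
  unfold Ram_val
  fun_prop

theorem Ram_pt_step : PT Ram_step := by
  have h : PT fun p : Ram_RS × Ram_RI => Ram_exec p.1 p.2 := by
    unfold Ram_exec
    fun_prop
  unfold Ram_step
  fun_prop

theorem Ram_pt_out : PT Ram_out := by
  unfold Ram_out
  fun_prop

theorem Ram_pt_ini {code : α → List Ram_RI} {reg : α → Bool} {w : α → ℕ} {x : α → List Bool}
    (hc : PT code) (hr : PT reg) (hw : PT w) (hw' : PB w) (hx : PT x) :
    PT fun a => Ram_ini (code a) (reg a) (w a) (x a) := by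
  have h1 : PT fun a => 2 ^ w a := by fun_prop
  unfold Ram_ini
  fun_prop

end pt

/-! ### simulation -/

/-- The raw state `s` describes the configuration `c`. -/
def Ram_Sim (P : Program) (w : ℕ) (s : Ram_RS) (c : Cfg P.numRegs) : Prop :=
  s.1 = P.code.map Ram_ins ∧ s.2.1.length = w ∧ s.2.2.1 = c.pc ∧ s.2.2.2.1 = c.halted ∧
    (∀ k, Ram_rd s.2.2.2.2.1 k = c.reg k) ∧ ∀ a, Ram_rd s.2.2.2.2.2 a = c.mem a

theorem Ram_reg_fin {r : ℕ} (c : Cfg r) (j : Fin r) : c.reg j = c.regs j := by
  simp [Cfg.reg]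

theorem Ram_reg_write {r : ℕ} (c : Cfg r) (pc dr : ℕ) (h : Bool) (m : ℕ → ℕ) (d : Fin r) (v k : ℕ) :
    Cfg.reg ⟨pc, h, writeReg c.regs d v, m, dr⟩ k = if k = d then v else c.reg k := by
  unfold Cfg.reg writeReg
  by_cases hk : k < r
  · simp [hk, Fin.ext_iff]
  · have : k ≠ d := by have := d.2; omega
    simp [hk, this]

theorem Ram_reg_same {r : ℕ} (c : Cfg r) (pc dr : ℕ) (h : Bool) (m : ℕ → ℕ) (k : ℕ) :
    Cfg.reg ⟨pc, h, c.regs, m, dr⟩ k = c.reg k := rfl

theorem Ram_sim_step {P : Program} {w : ℕ} {s : Ram_RS} {c : Cfg P.numRegs}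
    (h : Ram_Sim P w s c) : Ram_Sim P w (Ram_step s) (step P w (fun _ => 0) c) := by
  obtain ⟨code, u, pc, hl, regs, mem⟩ := s
  obtain ⟨h1, h2, h3, h4, h5, h6⟩ := h
  simp only at h1 h2 h3 h4 h5 h6
  subst h1 h2 h3 h4
  unfold Ram_step step
  by_cases hh : c.halted = true
  · simp only [hh, if_true]
    exact ⟨rfl, rfl, rfl, hh.symm, h5, h6⟩
  have hh' : c.halted = false := by simpa using hh
  simp only [hh', Bool.false_eq_true, if_false, List.getD_eq_getElem?_getD, List.getElem?_map]
  rcases hc : P.code[c.pc]? with _ | ins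
  · simp [Ram_Sim, Ram_exec, h5, h6, Ram_reg_same]
  · cases ins <;>
      simp [Ram_Sim, Ram_exec, Ram_ins, Ram_val, h5, h6, Ram_reg_same, Ram_reg_write, Ram_rd_cons,
        Ram_reg_fin, writeMem, Nat.shiftLeft_eq, Nat.shiftRight_eq_div_pow]
    all_goals
      intro k
      split_ifs with h7 h8
      · rw [min_eq_right h8.le]
      · rfl
      · rfl

theorem Ram_sim_ini (P : Program) (w : ℕ) (x : List Bool) :
    Ram_Sim P w (Ram_ini (P.code.map Ram_ins) (decide (0 < P.numRegs)) w x)
      (init P w (x.map fun b => if b then 1 else 0)) := by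
  refine ⟨rfl, by simp [Ram_ini], rfl, rfl, fun k => ?_, fun a => ?_⟩
  · simp only [Ram_ini, init, Cfg.reg, decide_eq_true_eq, List.length_map]
    by_cases h : 0 < P.numRegs
    · simp only [h, if_true, Ram_rd_cons, Ram_rd_nil]
      by_cases hk : k = 0
      · simp [hk, h]
      · simp [hk]
    · have : ¬ k < P.numRegs := by omega
      simp [h, this, Ram_rd_nil]
  · simp only [Ram_ini, init, Ram_rd_map, List.mem_range, List.getElem?_map]
    by_cases h : a < x.length
    · simp only [h, if_true, List.getD_eq_getElem?_getD, List.getElem?_eq_getElem h]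
      cases x[a] <;> simp
    · simp [h, List.getElem?_eq_none (not_lt.1 h)]

theorem Ram_sim_run (P : Program) (w : ℕ) (x : List Bool) (t : ℕ) :
    Ram_Sim P w (Ram_step^[t] (Ram_ini (P.code.map Ram_ins) (decide (0 < P.numRegs)) w x))
      (run P w (fun _ => 0) (x.map fun b => if b then 1 else 0) t) := by
  unfold run
  induction t with
  | zero => exact Ram_sim_ini P w x
  | succ t ih =>
    rw [Function.iterate_succ_apply', Function.iterate_succ_apply']
    exact Ram_sim_step ih

theorem Ram_sim_out {P : Program} {w : ℕ} {s : Ram_RS} {c : Cfg P.numRegs}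
    (h : Ram_Sim P w s c) : Ram_out s = [decide (c.output = [1])] := by
  obtain ⟨-, -, -, -, h5, h6⟩ := h
  simp only [Ram_out, h5, h6, Cfg.output, List.cons.injEq, and_true, decide_eq_decide]
  constructor
  · rintro ⟨h1, h2⟩
    simp [h1, h2]
  · intro h
    have h1 : c.reg 0 = 1 := by simpa using congrArg List.length h
    rw [h1] at h
    exact ⟨h1, by simpa using h⟩

theorem Ram_run_halted {P : Program} {w : ℕ} {ρ : ℕ → ℕ} {inp : List ℕ} {t t' : ℕ}
    (h : (run P w ρ inp t).halted = true) (ht : t ≤ t') : run P w ρ inp t' = run P w ρ inp t := by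
  induction t', ht using Nat.le_induction with
  | base => rfl
  | succ t' _ ih =>
    unfold run at ih h ⊢
    rw [Function.iterate_succ_apply', ih, step, if_pos h]

/-! ### sizes -/

theorem Ram_val_lt {w op lit A B M : ℕ} (hA : A < 2 ^ w) (hB : B < 2 ^ w) (hM : M < 2 ^ w) :
    Ram_val w op lit A B M < 2 ^ w := by
  have h0 : 0 < 2 ^ w := by positivity
  have hi : ∀ {p : Prop} [Decidable p] {x y : ℕ}, x < 2 ^ w → y < 2 ^ w →
      (if p then x else y) < 2 ^ w := fun hx hy => by split_ifs <;> assumption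
  unfold Ram_val
  exact hi (Nat.mod_lt _ h0) <| hi hA <| hi (Nat.mod_lt _ h0) <|
    hi ((Nat.sub_le _ _).trans_lt hA) <| hi (Nat.mod_lt _ h0) <|
    hi ((Nat.div_le_self _ _).trans_lt hA) <| hi ((Nat.mod_le _ _).trans_lt hA) <|
    hi (Nat.and_lt_two_pow _ hB) <| hi (Nat.or_lt_two_pow hA hB) <|
    hi (Nat.xor_lt_two_pow hA hB) <| hi (hi (Nat.mod_lt _ h0) h0) <|
    hi (hi ((Nat.div_le_self _ _).trans_lt hA) h0) <| hi hM h0

/-- All stored values are words. -/
def Ram_Bd (code : List Ram_RI) (w : ℕ) (s : Ram_RS) : Prop :=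
  s.1 = code ∧ s.2.1.length = w ∧ (∀ k, Ram_rd s.2.2.2.2.1 k < 2 ^ w) ∧
    ∀ a, Ram_rd s.2.2.2.2.2 a < 2 ^ w

theorem Ram_bd_step {code : List Ram_RI} {w : ℕ} {s : Ram_RS} (h : Ram_Bd code w s) :
    Ram_Bd code w (Ram_step s) ∧ sz (Ram_step s) ≤ sz s + (2 * sz code + 18 * w + 40) := by
  obtain ⟨code', u, pc, hl, regs, mem⟩ := s
  obtain ⟨h1, h2, h3, h4⟩ := h
  simp only at h1 h2 h3 h4
  subst h1 h2
  unfold Ram_step
  split_ifs with hh
  · exact ⟨⟨rfl, rfl, h3, h4⟩, by omega⟩
  have hi : sz (code'.getD pc (19, 0, 0, 0)).2.1 ≤ sz code' := by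
    by_cases hp : pc < code'.length
    · rw [List.getD_eq_getElem _ _ hp]
      exact (sz_fst_le _).trans ((sz_snd_le _).trans (sz_le_of_mem (List.getElem_mem hp)))
    · rw [List.getD_eq_default _ _ (by omega)]
      exact one_le_sz code'
  simp only
  generalize code'.getD pc (19, 0, 0, 0) = i at hi
  have hv := Ram_val_lt (op := i.1) (lit := i.2.2.1) (h3 i.2.2.1) (h3 i.2.2.2)
    (h4 (Ram_rd regs i.2.2.1))
  refine ⟨⟨rfl, rfl, fun k => ?_, fun a => ?_⟩, ?_⟩
  · simp only [Ram_exec]
    split_ifs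
    · rw [Ram_rd_cons]
      split_ifs
      · exact hv
      · exact h3 k
    · exact h3 k
  · simp only [Ram_exec]
    split_ifs
    · rw [Ram_rd_cons]
      split_ifs
      · exact h3 _
      · exact h4 a
    · exact h4 a
  · have e1 := sz_nat_le_of_lt_two_pow hv
    have e2 := sz_nat_le_of_lt_two_pow (h3 i.2.2.1)
    have e3 := sz_nat_le_of_lt_two_pow (h3 i.2.2.2)
    have e4 := sz_add_le pc 1
    have e5 : sz (1 : ℕ) = 7 := by simp [sz_nat]
    simp only [Ram_exec, sz_pair, sz_bool]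
    split_ifs <;> (try simp only [sz_cons, sz_pair]) <;> omega

theorem Ram_bd_ini (code : List Ram_RI) (reg : Bool) (w : ℕ) (x : List Bool) :
    Ram_Bd code w (Ram_ini code reg w x) := by
  have h0 : 0 < 2 ^ w := by positivity
  refine ⟨rfl, by simp [Ram_ini], fun k => ?_, fun a => ?_⟩
  · simp only [Ram_ini]
    split_ifs
    · rw [Ram_rd_cons]
      split_ifs
      · exact Nat.mod_lt _ h0
      · exact h0
    · exact h0
  · simp only [Ram_ini, Ram_rd_map]
    split_ifs
    · exact Nat.mod_lt _ h0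
    · exact h0

theorem Ram_sz_run (code : List Ram_RI) (reg : Bool) (w : ℕ) (x : List Bool) (t : ℕ) :
    Ram_Bd code w (Ram_step^[t] (Ram_ini code reg w x)) ∧
      sz (Ram_step^[t] (Ram_ini code reg w x)) ≤
        sz (Ram_ini code reg w x) + t * (2 * sz code + 18 * w + 40) := by
  induction t with
  | zero => exact ⟨Ram_bd_ini code reg w x, by simp⟩
  | succ t ih =>
    rw [Function.iterate_succ_apply']
    obtain ⟨h1, h2⟩ := Ram_bd_step ih.1
    refine ⟨h1, ?_⟩
    have := ih.2
    rw [add_mul, one_mul]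
    omega

theorem Ram_clog (n : ℕ) : Nat.clog 2 (n + 2) = Nat.size (n + 1) := by
  refine eq_of_forall_ge_iff fun k => ?_
  rw [Nat.size_le, Nat.clog_le_iff_le_pow (by norm_num)]
  omega

theorem exists_ramInterp : ∃ e : ℕ, ∀ (P : Program) (c₀ : ℕ), ∃ (p : Prog) (C : ℕ),
    ∀ (n : ℕ) (r : List Bool) (T : ℕ),
      (run P (c₀ * Nat.clog 2 (n + 2)) (fun _ => 0)
        ((Crest.Enc.natCode n ++ r).map fun b => if b then 1 else 0) T).halted = true →
      EvalLe p (Enc.enc (Crest.Enc.natCode n ++ r))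
        (Enc.enc [decide ((run P (c₀ * Nat.clog 2 (n + 2)) (fun _ => 0)
          ((Crest.Enc.natCode n ++ r).map fun b => if b then 1 else 0) T).output = [1])])
        (C * (T + (Crest.Enc.natCode n ++ r).length + 1) ^ e) := by
  classical
  obtain ⟨par, hpar, hpar'⟩ := SD.natCode.exists_parser
  have hini : PT fun q : (List Ram_RI × Bool × List Unit) × List Bool =>
      Ram_ini q.1.1 q.1.2.1 (q.1.2.2.length * Nat.size ((par q.2).1 + 1)) q.2 :=
    Ram_pt_ini (by fun_prop) (by fun_prop) (by fun_prop) (by fun_prop) (by fun_prop)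
  have hc : PT fun s : Ram_RS => !s.2.2.2.1 := by fun_prop
  obtain ⟨c1, k1, hs⟩ := Ram_pt_step.exists_bound
  obtain ⟨c2, k2, hc⟩ := hc.exists_bound
  obtain ⟨c3, k3, hini⟩ := hini.exists_bound
  obtain ⟨c4, k4, hout⟩ := Ram_pt_out.exists_bound
  have hF : PB fun u : List Unit => 13 * u.length + c3 * (8 * u.length) ^ k3 +
      (u.length + 1) * (c2 * (c3 * (8 * u.length) ^ k3 + u.length * (60 * u.length)) ^ k2 + 5 +
        c1 * (c3 * (8 * u.length) ^ k3 + u.length * (60 * u.length)) ^ k1) +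
      c4 * (c3 * (8 * u.length) ^ k3 + u.length * (60 * u.length)) ^ k4 := by fun_prop
  obtain ⟨c5, k5, hF⟩ := hF
  refine ⟨k5, fun P c₀ => ?_⟩
  set dat : List Ram_RI × Bool × List Unit :=
    (P.code.map Ram_ins, decide (0 < P.numRegs), List.replicate c₀ ()) with hdat
  have hd1 : sz (P.code.map Ram_ins) ≤ sz dat := sz_fst_le dat
  have hd2 : c₀ ≤ sz dat := by
    have h1 := length_le_sz (List.replicate c₀ ())
    rw [List.length_replicate] at h1
    exact h1.trans ((sz_snd_le dat.2).trans (sz_snd_le dat))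
  have hd0 : 1 ≤ sz dat := one_le_sz dat
  let W : List Bool → ℕ := fun x => c₀ * Nat.size ((par x).1 + 1)
  let ι : Type := {x : List Bool // W x ≤ c₀ * x.length ∧
    ∃ t, (run P (W x) (fun _ => 0) (x.map fun b => if b then 1 else 0) t).halted = true}
  let N : ι → ℕ := fun x => Nat.find x.2.2
  let m : ι → ℕ := fun x => sz dat * (N x + x.1.length + 1)
  let ini : ι → Ram_RS := fun x =>
    Ram_ini (P.code.map Ram_ins) (decide (0 < P.numRegs)) (W x.1) x.1
  have hm1 : ∀ x, N x + x.1.length + 1 ≤ m x := fun x => Nat.le_mul_of_pos_left _ hd0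
  have hm2 : ∀ x, sz dat ≤ m x := fun x => Nat.le_mul_of_pos_right _ (by omega)
  have hm3 : ∀ x, W x.1 ≤ m x := fun x => x.2.1.trans (Nat.mul_le_mul hd2 (by omega))
  have hszx : ∀ x : ι, sz x = 6 * x.1.length + 1 := fun x => sz_boolList x.1
  have t0 : TimeF (fun x : ι => (dat, x.1)) fun x => 13 * m x := by
    refine ((TimeF.const dat).pair (TimeF.id.of_enc (f := fun x : ι => x.1) fun _ => rfl)).mono
      fun x => ?_
    have h1 := hm1 x
    have h2 : sz dat * sz x ≤ 6 * m x := by
      rw [hszx, mul_left_comm]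
      exact Nat.mul_le_mul_left _ (by omega)
    have h3 := hszx x
    omega
  have hq : ∀ x : ι, c3 * sz (dat, x.1) ^ k3 ≤ c3 * (8 * m x) ^ k3 := fun x => by
    have h1 := hm1 x
    have h2 := hm2 x
    have h3 := sz_boolList x.1
    refine Nat.mul_le_mul_left _ (Nat.pow_le_pow_left ?_ _)
    rw [sz_pair]
    omega
  have eini : ∀ x : ι, ini x = Ram_ini (dat, x.1).1.1 (dat, x.1).1.2.1
      ((dat, x.1).1.2.2.length * Nat.size ((par (dat, x.1).2).1 + 1)) (dat, x.1).2 := fun x => by
    simp [ini, W, hdat]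
  have t1 : TimeF ini fun x => 13 * m x + c3 * (8 * m x) ^ k3 :=
    ((hini.comp t0).congr eini).mono fun x => Nat.add_le_add_left (hq x) _
  have hsz : ∀ (x : ι) i, i ≤ N x →
      sz (Ram_step^[i] (ini x)) ≤ c3 * (8 * m x) ^ k3 + m x * (60 * m x) := fun x i hi => by
    have h1 := (Ram_sz_run (P.code.map Ram_ins) (decide (0 < P.numRegs)) (W x.1) x.1 i).2
    have h2 : sz (ini x) ≤ c3 * (8 * m x) ^ k3 := by
      rw [eini]
      exact (hini.sz_le (dat, x.1)).trans (hq x)
    have h3 := hm1 x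
    have h4 := hm2 x
    have h5 := hm3 x
    have h6 : i * (2 * sz (P.code.map Ram_ins) + 18 * W x.1 + 40) ≤ m x * (60 * m x) :=
      Nat.mul_le_mul (by omega) (by omega)
    exact h1.trans (Nat.add_le_add h2 h6)
  have hhalt : ∀ (x : ι) i, (Ram_step^[i] (ini x)).2.2.2.1 =
      (run P (W x.1) (fun _ => 0) (x.1.map fun b => if b then 1 else 0) i).halted := fun x i =>
    (Ram_sim_run P (W x.1) x.1 i).2.2.2.1
  have t2 := hs.whileLoop hc t1 N
    (fun x => c2 * (c3 * (8 * m x) ^ k3 + m x * (60 * m x)) ^ k2 + 5 +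
      c1 * (c3 * (8 * m x) ^ k3 + m x * (60 * m x)) ^ k1)
    (fun x i hi => by
      rw [hhalt]
      simpa using Nat.find_min x.2.2 hi)
    (fun x => by
      rw [hhalt]
      simpa using Nat.find_spec x.2.2)
    (fun x i hi => by
      have := hsz x i hi
      gcongr)
  obtain ⟨p, hp⟩ := hout.comp t2
  refine ⟨p, c5 * (3 * sz dat) ^ k5, fun n r T hT => ?_⟩
  have hW : W (Crest.Enc.natCode n ++ r) = c₀ * Nat.clog 2 (n + 2) := by
    simp only [W, hpar', Ram_clog]
  have hW' : W (Crest.Enc.natCode n ++ r) ≤ c₀ * (Crest.Enc.natCode n ++ r).length := by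
    simp only [W, hpar']
    refine Nat.mul_le_mul_left _ ?_
    have h1 := size_add_le n 1
    rw [List.length_append, length_natCode]
    simp only [Nat.size_one] at h1
    omega
  rw [← hW] at hT ⊢
  let x : ι := ⟨Crest.Enc.natCode n ++ r, hW', T, hT⟩
  have hNT : N x ≤ T := Nat.find_min' x.2.2 hT
  have h1 := hp x
  have h2 := Ram_sim_out (Ram_sim_run P (W x.1) x.1 (N x))
  rw [← Ram_run_halted (Nat.find_spec x.2.2) hNT] at h2
  simp only [ini] at h1
  rw [h2] at h1
  refine h1.mono ?_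
  have h3 := hF (List.replicate (m x) ())
  simp only [List.length_replicate, sz_unitList] at h3
  have h4 := hsz x (N x) le_rfl
  have h5 := hm1 x
  calc _ ≤ 13 * m x + c3 * (8 * m x) ^ k3 +
        (m x + 1) * (c2 * (c3 * (8 * m x) ^ k3 + m x * (60 * m x)) ^ k2 + 5 +
          c1 * (c3 * (8 * m x) ^ k3 + m x * (60 * m x)) ^ k1) +
        c4 * (c3 * (8 * m x) ^ k3 + m x * (60 * m x)) ^ k4 := by
        gcongr
        omega
    _ ≤ c5 * (2 * m x + 1) ^ k5 := h3
    _ ≤ c5 * (3 * sz dat * (T + (Crest.Enc.natCode n ++ r).length + 1)) ^ k5 := by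
        refine Nat.mul_le_mul_left _ (Nat.pow_le_pow_left ?_ _)
        have h6 : m x ≤ sz dat * (T + (Crest.Enc.natCode n ++ r).length + 1) :=
          Nat.mul_le_mul_left _ (Nat.add_le_add_right (Nat.add_le_add_right hNT _) _)
        rw [mul_assoc]
        omega
    _ = _ := by rw [mul_pow, mul_assoc]

end Crest.Agent.R290
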