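import Crest.Agent.R290.Diag
import Crest.Agent.R290.Ram
import Crest.Agent.R290.Code
import Crest.Agent.R290.PebWL

/-!
Row 290.  The lower bounds for stack machines and for word-RAM programs.
-/

set_option autoImplicit false

namespace Crest.Agent.R290

open Crest.Agent.Lib.PT Crest.WLRefine Crest.Enc

theorem low_len_le (n : ℕ) : 2 * ((natCode n).length + n * n) + 1 ≤ 7 * (n + 1) ^ 2 := by
  have h1 := length_natCode n
  have h2 := size_le_self' n
  nlinarith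

theorem low_weaken {c : ℝ} (hc : 0 < c) {k K : ℕ} (hk : k ≤ K) {T : ℕ → ℕ}
    (h : ∃ n₀ : ℕ, ∀ n ≥ n₀, (n : ℝ) ^ (c * K) ≤ T n) :
    ∃ n₀ : ℕ, ∀ n ≥ n₀, (n : ℝ) ^ (c * k) ≤ T n := by
  obtain ⟨n₀, h⟩ := h
  refine ⟨n₀ + 1, fun n hn => le_trans ?_ (h n (by omega))⟩
  refine Real.rpow_le_rpow_of_exponent_le (by exact_mod_cast (by omega : 1 ≤ n)) ?_
  have : (k : ℝ) ≤ K := by exact_mod_cast hk
  nlinarith

theorem low_tm_decides {K : ℕ} {g : diamTwoPairCodes → Bool}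
    (hg : ∀ (n : ℕ) (G H : Fin n → Fin n → Bool) (hG : SimpleConnDiamTwo G)
      (hH : SimpleConnDiamTwo H), g ⟨_, n, G, H, hG, hH, rfl⟩ = true ↔ Peb K G H)
    (M : Turing.TM2ComputableInTime (fun x : diamTwoPairCodes => x.1) Computability.encodeBool g) :
    ∃ (p : Prog) (C : ℕ), Decides p K
      (fun n => C * (M.time (2 * ((natCode n).length + n * n)) + n + 1) ^ 4) := by
  obtain ⟨p, C, hp⟩ := simulate (Enc.enc : Bool → D) Enc.inj (Enc.enc : Bool → D)
    M.toTM2ComputableAux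
  refine ⟨p, C * 64, fun n G H hG hH => ⟨_, hg n G H hG hH, ?_⟩⟩
  have h1 := hp _ _ _ (M.outputsFun ⟨_, n, G, H, hG, hH, rfl⟩)
  have e : (adjMatrixCode G ++ adjMatrixCode H).length = 2 * ((natCode n).length + n * n) := by
    rw [List.length_append, length_adjMatrixCode, length_adjMatrixCode]; ring
  simp only [e] at h1
  refine EvalLe.mono h1 ?_
  have h2 := low_len_le n
  beta_reduce
  generalize M.time (2 * ((natCode n).length + n * n)) = t
  generalize 2 * ((natCode n).length + n * n) = l at h2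
  have h3 : t + l + 1 ≤ 8 * (t + n + 1) ^ 2 := by nlinarith
  calc C * (t + l + 1) ^ 2 ≤ C * (8 * (t + n + 1) ^ 2) ^ 2 := by gcongr
    _ = _ := by ring

theorem lower_tm :
    ∃ c : ℝ, 0 < c ∧ ∃ k₀ : ℕ, ∀ k ≥ k₀,
      (∀ (g : diamTwoPairCodes → Bool),
        (∀ x, x.1 ∈ jointEquivLang k ↔ g x = true) →
        ∀ M : Turing.TM2ComputableInTime (fun x : diamTwoPairCodes => x.1)
            Computability.encodeBool g,
          ∃ n₀ : ℕ, ∀ n ≥ n₀,
            (n : ℝ) ^ (c * k) ≤ M.time (2 * ((natCode n).length + n * n))) ∧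
      (∀ (g : diamTwoPairCodes → Bool),
        (∀ x, x.1 ∈ sepEquivLang k ↔ g x = true) →
        ∀ M : Turing.TM2ComputableInTime (fun x : diamTwoPairCodes => x.1)
            Computability.encodeBool g,
          ∃ n₀ : ℕ, ∀ n ≥ n₀,
            (n : ℝ) ^ (c * k) ≤ M.time (2 * ((natCode n).length + n * n))) := by
  obtain ⟨c, hc, K₀, h⟩ := diag 4
  refine ⟨c, hc, K₀ + 2, fun k hk => ⟨fun g hg M => ?_, fun g hg M => ?_⟩⟩
  · obtain ⟨p, C, hp⟩ := low_tm_decides (K := k + 1) (g := g) (fun n G H hG hH => by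
      rw [← hg, mem_joint_iff, jequiv_iff_peb (by omega)]
      exact ⟨fun h => h.2.2, fun h => ⟨hG.1, hH.1, h⟩⟩) M
    exact low_weaken hc (Nat.le_succ k) (h (k + 1) (by omega) p _ C hp)
  · obtain ⟨p, C, hp⟩ := low_tm_decides (K := k) (g := g) (fun n G H hG hH => by
      rw [← hg, mem_sep_iff, sequiv_iff_peb (by omega)]
      exact ⟨fun h => h.2.2, fun h => ⟨hG.1, hH.1, h⟩⟩) M
    exact h k (by omega) p _ C hp

open Crest.WordRAM in
theorem low_ram_decides : ∃ e : ℕ, ∀ (K c₀ : ℕ) (P : Program) (T : ℕ → ℕ),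
    (∀ (n : ℕ) (G H : Fin n → Fin n → Bool), SimpleConnDiamTwo G → SimpleConnDiamTwo H →
      (run P (c₀ * Nat.clog 2 (n + 2)) (fun _ => 0)
        ((adjMatrixCode G ++ adjMatrixCode H).map fun b => if b then 1 else 0) (T n)).halted = true ∧
      ((run P (c₀ * Nat.clog 2 (n + 2)) (fun _ => 0)
        ((adjMatrixCode G ++ adjMatrixCode H).map fun b => if b then 1 else 0) (T n)).output = [1] ↔
          Peb K G H)) →
    ∃ (p : Prog) (C : ℕ), Decides p K (fun n => C * (T n + n + 1) ^ e) := by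
  obtain ⟨e, he⟩ := exists_ramInterp
  refine ⟨2 * e, fun K c₀ P T h => ?_⟩
  obtain ⟨p, C, hp⟩ := he P c₀
  refine ⟨p, C * 8 ^ e, fun n G H hG hH => ?_⟩
  obtain ⟨h1, h2⟩ := h n G H hG hH
  obtain ⟨r, hr⟩ : ∃ r, adjMatrixCode G ++ adjMatrixCode H = natCode n ++ r :=
    ⟨_, List.append_assoc _ _ _⟩
  have e1 : (adjMatrixCode G ++ adjMatrixCode H).length = 2 * ((natCode n).length + n * n) := by
    rw [List.length_append, length_adjMatrixCode, length_adjMatrixCode]; ring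
  have h3 := hp n r (T n) (hr ▸ h1)
  rw [← hr, e1] at h3
  refine ⟨_, by rw [decide_eq_true_eq]; exact h2, h3.mono ?_⟩
  have h4 := low_len_le n
  beta_reduce
  generalize T n = t
  generalize 2 * ((natCode n).length + n * n) = l at h4
  have h5 : t + l + 1 ≤ 8 * (t + n + 1) ^ 2 := by nlinarith
  calc C * (t + l + 1) ^ e ≤ C * (8 * (t + n + 1) ^ 2) ^ e := by gcongr
    _ = _ := by rw [mul_pow, ← pow_mul, mul_assoc]

theorem lower_ram :
    ∃ c : ℝ, 0 < c ∧ ∃ k₀ : ℕ, ∀ k ≥ k₀, ∀ c₀ : ℕ,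
      (∀ (P : Crest.WordRAM.Program) (T : ℕ → ℕ),
        (∀ (n : ℕ) (G H : Fin n → Fin n → Bool), SimpleConnDiamTwo G →
          SimpleConnDiamTwo H → ∀ ρ : ℕ → ℕ,
            (Crest.WordRAM.run P (c₀ * Nat.clog 2 (n + 2)) ρ (((adjMatrixCode G ++ adjMatrixCode H).map fun b => if b then 1 else 0)) (T n)).halted = true ∧
            ((Crest.WordRAM.run P (c₀ * Nat.clog 2 (n + 2)) ρ (((adjMatrixCode G ++ adjMatrixCode H).map fun b => if b then 1 else 0)) (T n)).output = [1] ↔ JEquiv k G H)) →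
        ∃ n₀ : ℕ, ∀ n ≥ n₀, (n : ℝ) ^ (c * k) ≤ T n) ∧
      (∀ (P : Crest.WordRAM.Program) (T : ℕ → ℕ),
        (∀ (n : ℕ) (G H : Fin n → Fin n → Bool), SimpleConnDiamTwo G →
          SimpleConnDiamTwo H → ∀ ρ : ℕ → ℕ,
            (Crest.WordRAM.run P (c₀ * Nat.clog 2 (n + 2)) ρ (((adjMatrixCode G ++ adjMatrixCode H).map fun b => if b then 1 else 0)) (T n)).halted = true ∧
            ((Crest.WordRAM.run P (c₀ * Nat.clog 2 (n + 2)) ρ (((adjMatrixCode G ++ adjMatrixCode H).map fun b => if b then 1 else 0)) (T n)).output = [1] ↔ SEquiv k G H)) →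
        ∃ n₀ : ℕ, ∀ n ≥ n₀, (n : ℝ) ^ (c * k) ≤ T n) := by
  obtain ⟨e, he⟩ := low_ram_decides
  obtain ⟨c, hc, K₀, h⟩ := diag e
  refine ⟨c, hc, K₀ + 2, fun k hk c₀ => ⟨fun P T hP => ?_, fun P T hP => ?_⟩⟩
  · obtain ⟨p, C, hp⟩ := he (k + 1) c₀ P T fun n G H hG hH => by
      rw [← jequiv_iff_peb (by omega)]
      exact hP n G H hG hH _
    exact low_weaken hc (Nat.le_succ k) (h (k + 1) (by omega) p _ C hp)
  · obtain ⟨p, C, hp⟩ := he k c₀ P T fun n G H hG hH => by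
      rw [← sequiv_iff_peb (by omega)]
      exact hP n G H hG hH _
    exact h k (by omega) p _ C hp

end Crest.Agent.R290
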