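import Crest.Agent.R290.PebDec
import Crest.Agent.R290.Code
import Crest.Agent.R290.PebCR
import Crest.Agent.R290.PTGraph

/-!
Row 290.  The three languages are in exponential time.
-/

set_option autoImplicit false

namespace Crest.Agent.R290

open Crest.Agent.Lib.PT Crest.WLRefine Crest.ExpTime

theorem memEXP_exists_mask (N : ℕ) (f : ℕ → Bool) :
    ∃ c < 2 ^ N, ∀ i < N, c.testBit i = f i :=
  ⟨Nat.ofBits fun i : Fin N => f i, Nat.ofBits_lt_two_pow _, fun i hi => by
    rw [Nat.testBit_ofBits_lt _ _ hi]⟩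

theorem memEXP_exists_matrix {n : ℕ} (H : Fin n → Fin n → Bool) :
    ∃ c < 2 ^ (n * n), toMat n (fun u v => c.testBit (u * n + v)) = H := by
  obtain ⟨c, hc, h⟩ := memEXP_exists_mask (n * n)
    (fun i => if h : i / n < n ∧ i % n < n then H ⟨i / n, h.1⟩ ⟨i % n, h.2⟩ else false)
  refine ⟨c, hc, ?_⟩
  funext u v
  have hn : 0 < n := u.pos
  have h1 : (u * n + v) / n = u := by
    rw [add_comm, Nat.add_mul_div_right _ _ hn, Nat.div_eq_of_lt v.2, zero_add]
  have h2 : (u * n + v) % n = v := by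
    rw [add_comm, Nat.add_mul_mod_self_right, Nat.mod_eq_of_lt v.2]
  have h3 : u * n + v < n * n := by
    have := Nat.mul_le_mul_right n (Nat.succ_le_of_lt u.2)
    have := v.2
    rw [Nat.succ_mul] at *
    omega
  show c.testBit (u * n + v) = H u v
  rw [h _ h3, dif_pos ⟨by rw [h1]; exact u.2, by rw [h2]; exact v.2⟩]
  congr 1 <;> exact Fin.ext (by assumption)

theorem memEXP_simple_iff (n : ℕ) (A : ℕ → ℕ → Bool) :
    IsSimple (toMat n A) ↔ (∀ u < n, ∀ v < n, A u v = A v u) ∧ ∀ u < n, A u u = false := by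
  unfold IsSimple toMat
  constructor
  · rintro ⟨h1, h2⟩
    exact ⟨fun u hu v hv => h1 ⟨u, hu⟩ ⟨v, hv⟩, fun u hu => h2 ⟨u, hu⟩⟩
  · rintro ⟨h1, h2⟩
    exact ⟨fun u v => h1 u u.2 v v.2, fun u => h2 u u.2⟩

theorem memEXP_deg_iff (n : ℕ) (A : ℕ → ℕ → Bool) :
    MaxDegLeThree (toMat n A) ↔ ∀ u < n, (List.range n).countP (A u) ≤ 3 := by
  have key : ∀ u : Fin n, (Finset.univ.filter fun w => toMat n A u w = true).card =
      (List.range n).countP (A u) := by
    intro u
    rw [← List.map_coe_finRange_eq_range, List.countP_map, List.countP_eq_length_filter]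
    rw [← List.toFinset_card_of_nodup ((List.nodup_finRange n).filter _)]
    congr 1
    ext w
    simp [toMat]
  unfold MaxDegLeThree
  constructor
  · intro h u hu
    rw [← key ⟨u, hu⟩]; exact h _
  · intro h u
    rw [key]; exact h u u.2

theorem memEXP_conn_iff (n : ℕ) (A : ℕ → ℕ → Bool) :
    (adjGraph (toMat n A)).Connected ↔ 0 < n ∧ ∀ c < 2 ^ n, (c.testBit 0 = true ∧
      ∀ u < n, ∀ v < n, c.testBit u = true → (A u v = true ∨ A v u = true) → c.testBit v = true) →
        ∀ v < n, c.testBit v = true := by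
  constructor
  · intro h
    obtain ⟨x⟩ := h.nonempty
    have hn : 0 < n := x.pos
    refine ⟨hn, fun c _ hc v hv => ?_⟩
    have hr := (SimpleGraph.reachable_iff_reflTransGen _ _).1 (h.preconnected ⟨0, hn⟩ ⟨v, hv⟩)
    have key : ∀ w : Fin n, Relation.ReflTransGen (adjGraph (toMat n A)).Adj ⟨0, hn⟩ w →
        c.testBit w = true := by
      intro w hw
      induction hw with
      | refl => exact hc.1
      | @tail a b _ hab ih =>
        exact hc.2 a a.2 b b.2 ih ((SimpleGraph.fromRel_adj _ _ _).1 hab).2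
    exact key _ hr
  · rintro ⟨hn, h⟩
    classical
    rw [SimpleGraph.connected_iff_exists_forall_reachable]
    refine ⟨⟨0, hn⟩, fun w => ?_⟩
    obtain ⟨c, hc, hb⟩ := memEXP_exists_mask n
      (fun i => if hi : i < n then decide ((adjGraph (toMat n A)).Reachable ⟨0, hn⟩ ⟨i, hi⟩)
        else false)
    have hb' : ∀ i (hi : i < n), c.testBit i = true ↔
        (adjGraph (toMat n A)).Reachable ⟨0, hn⟩ ⟨i, hi⟩ := by
      intro i hi
      rw [hb i hi, dif_pos hi, decide_eq_true_iff]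
    refine (hb' w w.2).1 (h c hc ⟨(hb' 0 hn).2 (SimpleGraph.Reachable.refl _), ?_⟩ w w.2)
    intro u hu v hv h1 h2
    rw [hb' u hu] at h1
    rw [hb' v hv]
    by_cases huv : u = v
    · subst huv; exact h1
    · refine h1.trans (SimpleGraph.Adj.reachable ?_)
      exact (SimpleGraph.fromRel_adj _ _ _).2 ⟨fun e => huv (congrArg Fin.val e), h2⟩

theorem memEXP_ident_iff (k n : ℕ) (G : Fin n → Fin n → Bool) :
    (∀ H : Fin n → Fin n → Bool, IsSimple H → Peb (k + 1) G H → Iso G H) ↔
      ∀ c < 2 ^ (n * n), IsSimple (toMat n fun u v => c.testBit (u * n + v)) →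
        Peb (k + 1) G (toMat n fun u v => c.testBit (u * n + v)) →
          Peb (n + 1) G (toMat n fun u v => c.testBit (u * n + v)) := by
  constructor
  · intro h c _ h1 h2
    exact (h _ h1 h2).peb _
  · intro h H h1 h2
    obtain ⟨c, hc, rfl⟩ := memEXP_exists_matrix H
    exact (h c hc h1 h2).iso (by simp)

section PT

variable {α : Type} [Enc α] {n K : α → ℕ} {A : α → ℕ → ℕ → Bool}

theorem memEXP_pb_sq (hb : PB (fun a => 2 ^ (n a * n a))) : PB (fun a => n a * n a) :=
  hb.of_le fun _ => Nat.lt_two_pow_self.le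

theorem memEXP_pb (hb : PB (fun a => 2 ^ (n a * n a))) : PB n :=
  (memEXP_pb_sq hb).of_le fun _ => Nat.le_mul_self _

theorem memEXP_pb_two_pow (hb : PB (fun a => 2 ^ (n a * n a))) : PB (fun a => 2 ^ n a) :=
  hb.of_le fun _ => Nat.pow_le_pow_right (by norm_num) (Nat.le_mul_self _)

theorem memEXP_app {β : Type} [Enc β] (hA : PT (fun p : α × ℕ × ℕ => A p.1 p.2.1 p.2.2))
    {a : β → α} {u v : β → ℕ} (ha : PT a) (hu : PT u) (hv : PT v) :
    PT (fun b => A (a b) (u b) (v b)) :=
  hA.comp (ha.pair (hu.pair hv))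

open Classical in
theorem memEXP_pt_simple (hn : PT n) (hb : PB n)
    (hA : PT (fun p : α × ℕ × ℕ => A p.1 p.2.1 p.2.2)) :
    PT (fun a => decide (IsSimple (toMat (n a) (A a)))) := by
  have h1 : PT (fun a => decide (∀ u < n a, ∀ v < n a, A a u v = A a v u)) := by
    refine PT.decide_forall_lt hn hb ?_
    refine PT.decide_forall_lt (hn.comp PT.id.fst) (hb.comp PT.id.fst) ?_
    exact PT.decide_eq (memEXP_app hA (by fun_prop) (by fun_prop) (by fun_prop))
      (memEXP_app hA (by fun_prop) (by fun_prop) (by fun_prop))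
  have h2 : PT (fun a => decide (∀ u < n a, A a u u = false)) := by
    refine PT.decide_forall_lt hn hb ?_
    exact PT.decide_eq_false (memEXP_app hA (by fun_prop) (by fun_prop) (by fun_prop))
  exact (PT.decide_and h1 h2).congr fun a => decide_eq_decide.2 (memEXP_simple_iff _ _)

open Classical in
theorem memEXP_pt_deg (hn : PT n) (hb : PB n)
    (hA : PT (fun p : α × ℕ × ℕ => A p.1 p.2.1 p.2.2)) :
    PT (fun a => decide (MaxDegLeThree (toMat (n a) (A a)))) := by
  have h1 : PT (fun a => decide (∀ u < n a, (List.range (n a)).countP (A a u) ≤ 3)) := by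
    refine PT.decide_forall_lt hn hb ?_
    refine PT.decide_le ?_ (PT.const 3)
    refine PT.countP (g := fun (p : α × ℕ) v => A p.1 p.2 v)
      (PT.range (hn.comp PT.id.fst) (hb.comp PT.id.fst)) ?_
    exact memEXP_app hA (by fun_prop) (by fun_prop) (by fun_prop)
  exact h1.congr fun a => decide_eq_decide.2 (memEXP_deg_iff _ _)

open Classical in
theorem memEXP_pt_conn (hn : PT n) (hb2 : PB (fun a => 2 ^ (n a * n a)))
    (hA : PT (fun p : α × ℕ × ℕ => A p.1 p.2.1 p.2.2)) :
    PT (fun a => decide ((adjGraph (toMat (n a) (A a))).Connected)) := by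
  have hb := memEXP_pb hb2
  have h1 : PT (fun a => decide (∀ c < 2 ^ n a, (c.testBit 0 = true ∧
      ∀ u < n a, ∀ v < n a, c.testBit u = true → (A a u v = true ∨ A a v u = true) →
        c.testBit v = true) → ∀ v < n a, c.testBit v = true)) := by
    refine PT.decide_forall_lt (PT.pow (PT.const 2) hn hb) (memEXP_pb_two_pow hb2) ?_
    refine PT.decide_imp (PT.decide_and (PT.decide_eq_true (by fun_prop)) ?_) ?_
    · refine PT.decide_forall_lt (hn.comp PT.id.fst) (hb.comp PT.id.fst) ?_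
      refine PT.decide_forall_lt (hn.comp PT.id.fst.fst) (hb.comp PT.id.fst.fst) ?_
      refine PT.decide_imp (PT.decide_eq_true (by fun_prop)) ?_
      refine PT.decide_imp (PT.decide_or ?_ ?_) (PT.decide_eq_true (by fun_prop))
      · exact PT.decide_eq_true (memEXP_app hA (by fun_prop) (by fun_prop) (by fun_prop))
      · exact PT.decide_eq_true (memEXP_app hA (by fun_prop) (by fun_prop) (by fun_prop))
    · refine PT.decide_forall_lt (hn.comp PT.id.fst) (hb.comp PT.id.fst) ?_
      exact PT.decide_eq_true (by fun_prop)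
  exact (PT.decide_and (PT.decide_lt (PT.const 0) hn) h1).congr fun a =>
    decide_eq_decide.2 (memEXP_conn_iff _ _)

open Classical in
theorem memEXP_pt_subcubic (hn : PT n) (hb2 : PB (fun a => 2 ^ (n a * n a)))
    (hA : PT (fun p : α × ℕ × ℕ => A p.1 p.2.1 p.2.2)) :
    PT (fun a => decide (SimpleConnSubcubic (toMat (n a) (A a)))) :=
  (PT.decide_and (memEXP_pt_simple hn (memEXP_pb hb2) hA)
    (PT.decide_and (memEXP_pt_conn hn hb2 hA) (memEXP_pt_deg hn (memEXP_pb hb2) hA))).congr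
      fun _ => decide_eq_decide.2 Iff.rfl

open Classical in
theorem memEXP_pt_ident (hn : PT n) (hK : PT K) (hb2 : PB (fun a => 2 ^ (n a * n a)))
    (hA : PT (fun p : α × ℕ × ℕ => A p.1 p.2.1 p.2.2)) :
    PT (fun a => decide (∀ H : Fin (n a) → Fin (n a) → Bool, IsSimple H →
      Peb (K a + 1) (toMat (n a) (A a)) H → Iso (toMat (n a) (A a)) H)) := by
  have hb := memEXP_pb hb2
  have hn' : PT (fun p : α × ℕ => n p.1) := hn.comp PT.id.fst
  have hK' : PT (fun p : α × ℕ => K p.1) := hK.comp PT.id.fst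
  have hb2' : PB (fun p : α × ℕ => 2 ^ (n p.1 * n p.1)) := hb2.comp PT.id.fst
  have hA' : PT (fun p : (α × ℕ) × ℕ × ℕ => A p.1.1 p.2.1 p.2.2) :=
    memEXP_app hA (by fun_prop) (by fun_prop) (by fun_prop)
  have hB' : PT (fun p : (α × ℕ) × ℕ × ℕ => p.1.2.testBit (p.2.1 * n p.1.1 + p.2.2)) :=
    PT.testBit (by fun_prop) (((PT.id.snd.fst).mul (hn.comp PT.id.fst.fst)).add PT.id.snd.snd)
  have h1 : PT (fun a => decide (∀ c < 2 ^ (n a * n a),
      IsSimple (toMat (n a) fun u v => c.testBit (u * n a + v)) →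
        Peb (K a + 1) (toMat (n a) (A a)) (toMat (n a) fun u v => c.testBit (u * n a + v)) →
          Peb (n a + 1) (toMat (n a) (A a)) (toMat (n a) fun u v => c.testBit (u * n a + v)))) := by
    refine PT.decide_forall_lt (PT.pow (PT.const 2) (hn.mul hn) (memEXP_pb_sq hb2)) hb2 ?_
    refine PT.decide_imp ?_ (PT.decide_imp ?_ ?_)
    · exact memEXP_pt_simple (A := fun (p : α × ℕ) u v => p.2.testBit (u * n p.1 + v)) hn'
        (memEXP_pb hb2') hB'
    · exact pt_peb (A := fun (p : α × ℕ) => A p.1)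
        (B := fun (p : α × ℕ) u v => p.2.testBit (u * n p.1 + v)) hn' (hK'.add (PT.const 1)) hb2'
        hA' hB'
    · exact pt_peb (A := fun (p : α × ℕ) => A p.1)
        (B := fun (p : α × ℕ) u v => p.2.testBit (u * n p.1 + v)) hn' (hn'.add (PT.const 1)) hb2'
        hA' hB'
  exact h1.congr fun a => decide_eq_decide.2 (memEXP_ident_iff _ _ _)

end PT

/-- A total reader for `natCode k ++ code G ++ code H`, the two graphs having the same order. -/
theorem memEXP_reader :
    ∃ (k n : List Bool → ℕ) (A B : List Bool → ℕ → ℕ → Bool),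
      PT k ∧ PT n ∧ PB (fun x => n x * n x) ∧
      PT (fun p : List Bool × ℕ × ℕ => A p.1 p.2.1 p.2.2) ∧
      PT (fun p : List Bool × ℕ × ℕ => B p.1 p.2.1 p.2.2) ∧
      (∀ (k₀ n₀ : ℕ) (G : Fin n₀ → Fin n₀ → Bool) (r x : List Bool),
        x = Crest.Enc.natCode k₀ ++ adjMatrixCode G ++ r →
          k x = k₀ ∧ n x = n₀ ∧ toMat n₀ (A x) = G) ∧
      ∀ (k₀ n₀ : ℕ) (G H : Fin n₀ → Fin n₀ → Bool) (x : List Bool),
        x = Crest.Enc.natCode k₀ ++ adjMatrixCode G ++ adjMatrixCode H → toMat n₀ (B x) = H := by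
  obtain ⟨P, hP, hPc⟩ := SD.natCode.exists_parser
  obtain ⟨ord, A, rest, h1, h2, h3, h4, h5⟩ := exists_graphReader
  refine ⟨fun x => (P x).1, fun x => ord (P x).2, fun x => A (P x).2, fun x => A (rest (P x).2),
    hP.fst, h1.comp hP.snd, (PB.length hP.snd).of_le fun x => h4 _, ?_, ?_, ?_, ?_⟩
  · exact memEXP_app h2 (hP.snd.comp PT.id.fst) (by fun_prop) (by fun_prop)
  · exact memEXP_app h2 ((h3.comp hP.snd).comp PT.id.fst) (by fun_prop) (by fun_prop)
  · rintro k₀ n₀ G r x rfl
    rw [List.append_assoc]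
    simp only [hPc]
    obtain ⟨e1, -, e3⟩ := h5 n₀ G r
    exact ⟨trivial, e1, funext fun a => funext fun b => e3 a b⟩
  · rintro k₀ n₀ G H x rfl
    rw [List.append_assoc]
    simp only [hPc]
    obtain ⟨-, e2, -⟩ := h5 n₀ G (adjMatrixCode H)
    obtain ⟨-, -, e3⟩ := h5 n₀ H []
    rw [e2]
    rw [List.append_nil] at e3
    exact funext fun a => funext fun b => e3 a b

section Pad

variable {m : List Bool → ℕ}

theorem memEXP_padA {A : List Bool → ℕ → ℕ → Bool}
    (hA : PT (fun p : List Bool × ℕ × ℕ => A p.1 p.2.1 p.2.2)) :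
    PT (fun p : Pad (List Bool) m × ℕ × ℕ => A p.1.val p.2.1 p.2.2) :=
  memEXP_app hA PT.id.fst.padVal (by fun_prop) (by fun_prop)

end Pad

theorem inEXP_varDim : InEXP varDimEquivLang := by
  classical
  obtain ⟨k, n, A, B, hk, hn, hb, hA, hB, h1, h2⟩ := memEXP_reader
  refine inEXP_of_pad (m := fun x => n x * n x) (hn.mul hn) hb
    (g := fun x => decide (x = Crest.Enc.natCode (k x) ++ rawCode (n x) (A x) ++ rawCode (n x) (B x)
      ∧ 2 ≤ k x ∧ IsSimple (toMat (n x) (A x)) ∧ IsSimple (toMat (n x) (B x)) ∧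
        Peb (k x + 1) (toMat (n x) (A x)) (toMat (n x) (B x)))) ?_ ?_
  · have hv : PT (fun x : Pad (List Bool) (fun x => n x * n x) => x.val) := PT.id.padVal
    have hk' := hk.comp hv
    have hn' := hn.comp hv
    have hb2 : PB (fun x : Pad (List Bool) (fun x => n x * n x) => 2 ^ (n x.val * n x.val)) :=
      Pad.pb
    have hb' := memEXP_pb hb2
    have hA' := memEXP_padA (m := fun x => n x * n x) hA
    have hB' := memEXP_padA (m := fun x => n x * n x) hB
    exact PT.decide_and (PT.decide_eq hv ((hk'.natCode.append (pt_rawCode hn' hb' hA')).append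
      (pt_rawCode hn' hb' hB'))) (PT.decide_and (PT.decide_le (PT.const 2) hk')
      (PT.decide_and (memEXP_pt_simple hn' hb' hA') (PT.decide_and (memEXP_pt_simple hn' hb' hB')
        (pt_peb hn' (hk'.add (PT.const 1)) hb2 hA' hB'))))
  · intro x
    rw [decide_eq_true_iff]
    constructor
    · rintro ⟨k₀, n₀, m₀, G, H, hk2, hG, hH, hJ, hx⟩
      have hP := (jequiv_iff_peb hk2).1 hJ
      have hc := hP.card_eq (by omega)
      simp only [Fintype.card_fin] at hc
      subst hc
      obtain ⟨e1, e2, e3⟩ := h1 _ _ _ _ _ hx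
      have e4 := h2 _ _ _ _ _ hx
      rw [e1, e2, ← adjMatrixCode_toMat, ← adjMatrixCode_toMat, e3, e4]
      exact ⟨hx, hk2, hG, hH, hP⟩
    · rintro ⟨hx, hk2, hG, hH, hP⟩
      rw [← adjMatrixCode_toMat, ← adjMatrixCode_toMat] at hx
      exact ⟨_, _, _, _, _, hk2, hG, hH, (jequiv_iff_peb hk2).2 hP, hx⟩

theorem inEXP_subcubic : InEXP subcubicVarDimEquivLang := by
  classical
  obtain ⟨k, n, A, B, hk, hn, hb, hA, hB, h1, h2⟩ := memEXP_reader
  refine inEXP_of_pad (m := fun x => n x * n x) (hn.mul hn) hb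
    (g := fun x => decide (x = Crest.Enc.natCode (k x) ++ rawCode (n x) (A x) ++ rawCode (n x) (B x)
      ∧ 2 ≤ k x ∧ 0 < n x ∧ SimpleConnSubcubic (toMat (n x) (A x)) ∧
        SimpleConnSubcubic (toMat (n x) (B x)) ∧
        Peb (k x + 1) (toMat (n x) (A x)) (toMat (n x) (B x)))) ?_ ?_
  · have hv : PT (fun x : Pad (List Bool) (fun x => n x * n x) => x.val) := PT.id.padVal
    have hk' := hk.comp hv
    have hn' := hn.comp hv
    have hb2 : PB (fun x : Pad (List Bool) (fun x => n x * n x) => 2 ^ (n x.val * n x.val)) :=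
      Pad.pb
    have hb' := memEXP_pb hb2
    have hA' := memEXP_padA (m := fun x => n x * n x) hA
    have hB' := memEXP_padA (m := fun x => n x * n x) hB
    exact PT.decide_and (PT.decide_eq hv ((hk'.natCode.append (pt_rawCode hn' hb' hA')).append
      (pt_rawCode hn' hb' hB'))) (PT.decide_and (PT.decide_le (PT.const 2) hk')
      (PT.decide_and (PT.decide_lt (PT.const 0) hn')
      (PT.decide_and (memEXP_pt_subcubic hn' hb2 hA') (PT.decide_and (memEXP_pt_subcubic hn' hb2 hB')
        (pt_peb hn' (hk'.add (PT.const 1)) hb2 hA' hB')))))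
  · intro x
    rw [decide_eq_true_iff]
    constructor
    · rintro ⟨k₀, n₀, G, H, hk2, hn0, hG, hH, hJ, hx⟩
      have hP := (jequiv_iff_peb hk2).1 hJ
      obtain ⟨e1, e2, e3⟩ := h1 _ _ _ _ _ hx
      have e4 := h2 _ _ _ _ _ hx
      rw [e1, e2, ← adjMatrixCode_toMat, ← adjMatrixCode_toMat, e3, e4]
      exact ⟨hx, hk2, hn0, hG, hH, hP⟩
    · rintro ⟨hx, hk2, hn0, hG, hH, hP⟩
      rw [← adjMatrixCode_toMat, ← adjMatrixCode_toMat] at hx
      exact ⟨_, _, _, _, hk2, hn0, hG, hH, (jequiv_iff_peb hk2).2 hP, hx⟩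

theorem inEXP_wlDimLe : InEXP wlDimLeLang := by
  classical
  obtain ⟨k, n, A, B, hk, hn, hb, hA, -, h1, -⟩ := memEXP_reader
  refine inEXP_of_pad (m := fun x => n x * n x) (hn.mul hn) hb
    (g := fun x => decide (x = Crest.Enc.natCode (k x) ++ rawCode (n x) (A x)
      ∧ 1 ≤ k x ∧ 0 < n x ∧ IsSimple (toMat (n x) (A x)) ∧
        ∀ H : Fin (n x) → Fin (n x) → Bool, IsSimple H →
          Peb (k x + 1) (toMat (n x) (A x)) H → Iso (toMat (n x) (A x)) H)) ?_ ?_
  · have hv : PT (fun x : Pad (List Bool) (fun x => n x * n x) => x.val) := PT.id.padVal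
    have hk' := hk.comp hv
    have hn' := hn.comp hv
    have hb2 : PB (fun x : Pad (List Bool) (fun x => n x * n x) => 2 ^ (n x.val * n x.val)) :=
      Pad.pb
    have hb' := memEXP_pb hb2
    have hA' := memEXP_padA (m := fun x => n x * n x) hA
    exact PT.decide_and (PT.decide_eq hv (hk'.natCode.append (pt_rawCode hn' hb' hA')))
      (PT.decide_and (PT.decide_le (PT.const 1) hk')
      (PT.decide_and (PT.decide_lt (PT.const 0) hn')
      (PT.decide_and (memEXP_pt_simple hn' hb' hA') (memEXP_pt_ident hn' hk' hb2 hA'))))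
  · intro x
    rw [decide_eq_true_iff]
    constructor
    · rintro ⟨k₀, n₀, G, hk1, hn0, hG, hI, hx⟩
      obtain ⟨e1, e2, e3⟩ := h1 _ _ _ [] _ (hx.trans (List.append_nil _).symm)
      subst e1 e2
      rw [← adjMatrixCode_toMat, e3]
      exact ⟨hx, hk1, hn0, hG, (exists_identifies_iff hk1 hG).1 hI⟩
    · rintro ⟨hx, hk1, hn0, hG, hI⟩
      rw [← adjMatrixCode_toMat] at hx
      exact ⟨_, _, _, hk1, hn0, hG, (exists_identifies_iff hk1 hG).2 hI, hx⟩

end Crest.Agent.R290
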