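import Crest.Agent.R290.DefsPeb

/-!
Row 290.  The parity lifts are simple, of equal order, and of bounded order.
-/

set_option autoImplicit false

namespace Crest.Agent.R290

open Finset Crest.WLRefine Crest.WLRefine.ParityLift

variable {t : ℕ}

theorem PLBasic_parity {ι : Type} [Fintype ι] [DecidableEq ι] (i : ι) (b : Bool) :
    Fintype.card {z : ι → Bool // (univ.filter fun a => z a = true).card % 2 = b.toNat} =
      2 ^ (Fintype.card ι - 1) := by
  classical
  have hflip : ∀ z : ι → Bool,
      ((univ.filter fun a => Function.update z i (!z i) a = true).card +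
        (univ.filter fun a => z a = true).card) % 2 = 1 := by
    intro z
    have h1 : ∀ z : ι → Bool, (univ.filter fun a => z a = true).card =
        ((univ.erase i).filter fun a => z a = true).card + (z i).toNat := by
      intro z
      rw [← insert_erase (mem_univ i), filter_insert, insert_erase (mem_univ i)]
      cases hz : z i
      · simp
      · rw [if_pos rfl, card_insert_of_notMem (by simp)]; rfl
    rw [h1 z, h1 (Function.update z i (!z i)), filter_congr (q := fun a => z a = true)
      fun a ha => by rw [Function.update_of_ne (mem_erase.1 ha).1], Function.update_self]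
    cases z i <;> simp <;> omega
  have hinv : ∀ z : ι → Bool, Function.update (Function.update z i (!z i)) i
      (!(Function.update z i (!z i) i)) = z := fun z => by simp
  have hb : b.toNat ≤ 1 := Bool.toNat_le b
  have h2 : (univ.filter fun z : ι → Bool => (univ.filter fun a => z a = true).card % 2 = b.toNat).card =
      (univ.filter fun z : ι → Bool =>
        ¬ (univ.filter fun a => z a = true).card % 2 = b.toNat).card := by
    refine card_nbij' (fun z => Function.update z i (!z i)) (fun z => Function.update z i (!z i))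
      (fun z hz => ?_) (fun z hz => ?_) (fun z _ => hinv z) fun z _ => hinv z
    · have := hflip z
      simp only [coe_filter, mem_univ, true_and, Set.mem_ofPred_eq] at hz ⊢
      omega
    · have := hflip z
      simp only [coe_filter, mem_univ, true_and, Set.mem_ofPred_eq] at hz ⊢
      omega
  have h3 := card_filter_add_card_filter_not (s := (univ : Finset (ι → Bool)))
    fun z => (univ.filter fun a => z a = true).card % 2 = b.toNat
  rw [← h2, card_univ, Fintype.card_fun, Fintype.card_bool] at h3
  have h4 : 0 < Fintype.card ι := Fintype.card_pos_iff.2 ⟨i⟩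
  obtain ⟨n, hn⟩ : ∃ n, Fintype.card ι = n + 1 := ⟨_, (Nat.sub_add_cancel h4).symm⟩
  rw [Fintype.card_subtype, hn, Nat.add_sub_cancel]
  rw [hn, pow_succ] at h3
  omega

theorem PLBasic_nbr (ht : 2 ≤ t) (a : TV t) : Nonempty (Nbr a) := by
  cases a with
  | inl i =>
    have : Nontrivial (Fin t) := Fin.nontrivial_iff_two_le.2 ht
    obtain ⟨j, hj⟩ := exists_ne i
    exact ⟨⟨Sum.inl j, by simp [tAdj, hj.symm]⟩⟩
  | inr h => exact ⟨⟨Sum.inl h.1.1, by simp [tAdj]⟩⟩

theorem PLBasic_card (ht : 2 ≤ t) (C : ChoiceSystem t) (b : TV t → Bool) :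
    Fintype.card (LiftV C b) = ∑ u : BV C, 2 ^ (Fintype.card (Nbr (typeOf C u)) - 1) := by
  classical
  have e : LiftV C b ≃ Σ u : BV C, {z : Nbr (typeOf C u) → Bool //
      (univ.filter fun a => z a = true).card % 2 = (b (typeOf C u)).toNat} :=
    { toFun := fun x => ⟨x.1.1, x.1.2, x.2⟩
      invFun := fun x => ⟨⟨x.1, x.2.1⟩, x.2.2⟩
      left_inv := fun _ => rfl
      right_inv := fun _ => rfl }
  rw [Fintype.card_congr e, Fintype.card_sigma]
  refine Finset.sum_congr rfl fun u _ => ?_
  obtain ⟨i⟩ := PLBasic_nbr ht (typeOf C u)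
  convert PLBasic_parity i (b (typeOf C u))

/-- The three mains of a helper. -/
def PLBasic_set (h : Helper t) : Finset (Fin t) := {h.1.1, h.1.2.1, h.1.2.2}

theorem PLBasic_set_card (h : Helper t) : (PLBasic_set h).card = 3 :=
  card_eq_three.2 ⟨_, _, _, h.2.1.ne, h.2.2.1.symm, h.2.2.2.symm, rfl⟩

theorem PLBasic_fiber (S : Finset (Fin t)) (T : Finset (Helper t))
    (hT : ∀ h ∈ T, PLBasic_set h = S) : T.card ≤ 3 := by
  rcases T.eq_empty_or_nonempty with rfl | ⟨h₀, hh₀⟩
  · simp
  rw [← PLBasic_set_card h₀, hT h₀ hh₀]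
  refine card_le_card_of_injOn (fun h => h.1.2.2) (fun h hh => ?_) fun h hh h' hh' e => ?_
  · rw [← hT h hh]
    simp [PLBasic_set]
  · have h1 : PLBasic_set h = PLBasic_set h' := (hT h hh).trans (hT h' hh').symm
    obtain ⟨⟨i, j, l⟩, h2, h3, h4⟩ := h
    obtain ⟨⟨i', j', l'⟩, h2', h3', h4'⟩ := h'
    clear hh hh'
    have a1 := Finset.ext_iff.1 h1 i
    have a2 := Finset.ext_iff.1 h1 j
    have a3 := Finset.ext_iff.1 h1 i'
    have a4 := Finset.ext_iff.1 h1 j'
    simp only [PLBasic_set, mem_insert, mem_singleton, true_or, or_true, true_iff, iff_true,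
      Fin.ext_iff, Fin.lt_def, ne_eq] at a1 a2 a3 a4 h2 h3 h4 h2' h3' h4' e
    refine Subtype.ext (Prod.ext (Fin.ext ?_) (Prod.ext (Fin.ext ?_) (Fin.ext ?_))) <;>
      simp only <;> omega

theorem PLBasic_card_helper : Fintype.card (Helper t) ≤ 3 * t.choose 3 := by
  have := card_le_mul_card_image_of_maps_to (s := (univ : Finset (Helper t)))
    (t := powersetCard 3 (univ : Finset (Fin t))) (f := PLBasic_set)
    (fun h _ => mem_powersetCard.2 ⟨subset_univ _, PLBasic_set_card h⟩) 3
    fun S _ => PLBasic_fiber S _ fun h hh => (mem_filter.1 hh).2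
  simpa using this

theorem PLBasic_deg_inl (i : Fin t) :
    Fintype.card (Nbr (Sum.inl i : TV t)) ≤ t - 1 + 3 * (t - 1).choose 2 := by
  classical
  have h1 := card_le_mul_card_image_of_maps_to
    (s := (univ : Finset (Helper t)).filter fun h => i ∈ PLBasic_set h)
    (t := powersetCard 2 ((univ : Finset (Fin t)).erase i)) (f := fun h => (PLBasic_set h).erase i)
    (fun h hh => mem_powersetCard.2 ⟨erase_subset_erase _ (subset_univ _), by
      rw [card_erase_of_mem (mem_filter.1 hh).2, PLBasic_set_card]⟩) 3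
    fun S _ => PLBasic_fiber (insert i S) _ fun h hh => by
      rw [← (mem_filter.1 hh).2, insert_erase (mem_filter.1 (mem_filter.1 hh).1).2]
  rw [card_powersetCard, card_erase_of_mem (mem_univ i), card_univ, Fintype.card_fin] at h1
  rw [Fintype.card_subtype]
  have h2 : (univ.filter fun a' : TV t => tAdj (Sum.inl i) a' = true) =
      (univ.erase i).disjSum (univ.filter fun h : Helper t => i ∈ PLBasic_set h) := by
    ext a
    cases a with
    | inl j => simpa [tAdj] using ne_comm
    | inr h => simp [tAdj, PLBasic_set]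
  rw [h2, card_disjSum, card_erase_of_mem (mem_univ i), card_univ, Fintype.card_fin]
  omega

theorem PLBasic_deg_inr (h : Helper t) : Fintype.card (Nbr (Sum.inr h : TV t)) ≤ 3 := by
  classical
  rw [Fintype.card_subtype]
  have h2 : (univ.filter fun a' : TV t => tAdj (Sum.inr h) a' = true) =
      (PLBasic_set h).disjSum ∅ := by
    ext a
    cases a with
    | inl j => simp [tAdj, PLBasic_set]
    | inr h => simp [tAdj]
  rw [h2, card_disjSum, PLBasic_set_card, card_empty]

theorem lift_isSimple (C : ChoiceSystem t) (b : TV t → Bool) :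
    IsSimple (asMatrix (liftAdj C b)) := by
  have hb : ∀ u v : BV C, bAdj C u v = bAdj C v u := by
    rintro (u | u) (v | v) <;> simp [bAdj, Bool.or_comm]
  have ht : ∀ a : TV t, tAdj a a = false := by
    rintro (a | a) <;> simp [tAdj]
  have hs : ∀ x y, liftAdj C b x y = liftAdj C b y x := fun x y => by
    unfold liftAdj
    rw [decide_eq_decide]
    exact ⟨fun ⟨h, h', h1, h2⟩ => ⟨h', h, by rw [hb, h1], h2.symm⟩,
      fun ⟨h, h', h1, h2⟩ => ⟨h', h, by rw [hb, h1], h2.symm⟩⟩
  refine ⟨fun v w => hs _ _, fun v => ?_⟩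
  unfold asMatrix liftAdj
  rw [decide_eq_false_iff_not]
  rintro ⟨h, -⟩
  rw [ht] at h
  exact absurd h (by simp)

theorem lift_card_eq (ht : 2 ≤ t) (C : ChoiceSystem t) (b b' : TV t → Bool) :
    Fintype.card (LiftV C b) = Fintype.card (LiftV C b') := by
  rw [PLBasic_card ht, PLBasic_card ht]

theorem lift_card_le (ht : 3 ≤ t) (C : ChoiceSystem t) (b : TV t → Bool) (A : ℕ)
    (hA : C.SizeAtMost A) : Fintype.card (LiftV C b) ≤ A * orderFactor t := by
  rw [PLBasic_card (by omega), Fintype.sum_sum_type, Fintype.sum_sigma, Fintype.sum_sigma,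
    orderFactor, mul_add]
  refine add_le_add ?_ ?_
  · refine (Finset.sum_le_card_nsmul _ _ (A * 2 ^ (t - 2 + 3 * (t - 1).choose 2))
      fun i _ => ?_).trans (le_of_eq (by simp; ring))
    refine (Finset.sum_le_card_nsmul _ _ (2 ^ (t - 2 + 3 * (t - 1).choose 2))
      fun d _ => Nat.pow_le_pow_right two_pos ?_).trans ?_
    · have := PLBasic_deg_inl i
      change Fintype.card (Nbr (Sum.inl i : TV t)) - 1 ≤ _
      omega
    · rw [card_univ, Fintype.card_fin, smul_eq_mul]
      exact Nat.mul_le_mul_right _ (hA.1 i)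
  · refine (Finset.sum_le_card_nsmul _ _ (A * 2 ^ 2) fun h _ => ?_).trans ?_
    · refine (Finset.sum_le_card_nsmul _ _ (2 ^ 2)
        fun d _ => Nat.pow_le_pow_right two_pos ?_).trans ?_
      · have := PLBasic_deg_inr h
        change Fintype.card (Nbr (Sum.inr h : TV t)) - 1 ≤ _
        omega
      · rw [card_univ, Fintype.card_fin, smul_eq_mul]
        exact Nat.mul_le_mul_right _ (hA.2 _ _ h.2.1)
    · rw [card_univ, smul_eq_mul]
      calc Fintype.card (Helper t) * (A * 2 ^ 2) ≤ 3 * t.choose 3 * (A * 2 ^ 2) :=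
            Nat.mul_le_mul_right _ PLBasic_card_helper
        _ = _ := by ring

end Crest.Agent.R290
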