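import Crest.Agent.R290.PLBasic
import Crest.Agent.R290.DefsPeb

/-!
Row 290.  A successful choice makes the odd lift receive fewer template homomorphisms.
-/

set_option autoImplicit false

namespace Crest.Agent.R290

open Finset Crest.WLRefine Crest.WLRefine.ParityLift

/-- a Boolean as an element of `ZMod 2` -/
def plcBz (b : Bool) : ZMod 2 := if b = true then 1 else 0

theorem plcBz_xor (a b : Bool) : plcBz (xor a b) = plcBz a + plcBz b := by
  cases a <;> cases b <;> decide

theorem plc_card_mod_iff {ι : Type} [Fintype ι] (f : ι → Bool) (c : Bool) :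
    (univ.filter fun i => f i = true).card % 2 = c.toNat ↔ ∑ i, plcBz (f i) = plcBz c := by
  have h1 : ∑ i, plcBz (f i) = (((univ.filter fun i => f i = true).card : ℕ) : ZMod 2) := by
    rw [Finset.natCast_card_filter]
    rfl
  have h2 : plcBz c = ((c.toNat : ℕ) : ZMod 2) := by cases c <;> decide
  rw [h1, h2, ZMod.natCast_eq_natCast_iff']
  cases c <;> simp

variable {t : ℕ} {C : ChoiceSystem t} {b : TV t → Bool}

theorem plc_tAdj_symm (a a' : TV t) : tAdj a a' = tAdj a' a := by
  rcases a with i | h <;> rcases a' with j | h' <;> simp [tAdj, eq_comm]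

theorem plc_tAdj_irrefl (a : TV t) : tAdj a a = false := by
  rcases a with i | h <;> simp [tAdj]

/-- the tag as a total function -/
def plcTag (x : LiftV C b) (a : TV t) : Bool :=
  if h : tAdj (typeOf C x.1.1) a = true then x.1.2 ⟨a, h⟩ else false

theorem plcTag_of_not {x : LiftV C b} {a : TV t} (h : ¬ tAdj (typeOf C x.1.1) a = true) :
    plcTag x a = false := by
  simp [plcTag, h]

theorem plc_ext {x y : LiftV C b} (h : x.1.1 = y.1.1) (h' : ∀ a, plcTag x a = plcTag y a) :
    x = y := by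
  obtain ⟨⟨u, z⟩, hx⟩ := x
  obtain ⟨⟨v, w⟩, hy⟩ := y
  simp only at h
  subst h
  have : z = w := by
    funext a
    have := h' a.1
    simpa [plcTag, a.2] using this
  subst this
  rfl

theorem plc_sum_nbr (a₀ : TV t) (τ : TV t → Bool) (hτ : ∀ a, ¬ tAdj a₀ a = true → τ a = false) :
    ∑ a : Nbr a₀, plcBz (τ a.1) = ∑ a, plcBz (τ a) := by
  rw [← Fintype.sum_subtype_add_sum_subtype (fun a => tAdj a₀ a = true) fun a => plcBz (τ a)]
  have : ∑ a : {a // ¬ tAdj a₀ a = true}, plcBz (τ a.1) = 0 :=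
    Finset.sum_eq_zero fun a _ => by rw [hτ a.1 a.2]; rfl
  rw [this, add_zero]

theorem plc_parity (x : LiftV C b) : ∑ a, plcBz (plcTag x a) = plcBz (b (typeOf C x.1.1)) := by
  rw [← plc_sum_nbr (typeOf C x.1.1) _ fun a ha => plcTag_of_not ha,
    ← (plc_card_mod_iff _ _).mp x.2]
  refine Finset.sum_congr rfl fun a _ => ?_
  simp [plcTag, a.2]

theorem plc_liftAdj_iff (x y : LiftV C b) :
    liftAdj C b x y = true ↔ tAdj (typeOf C x.1.1) (typeOf C y.1.1) = true ∧
      bAdj C x.1.1 y.1.1 = true ∧ plcTag x (typeOf C y.1.1) = plcTag y (typeOf C x.1.1) := by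
  unfold liftAdj
  rw [decide_eq_true_iff]
  constructor
  · rintro ⟨h, h', h1, h2⟩
    refine ⟨h, h1, ?_⟩
    simp only [plcTag, h, h', dite_true]
    exact h2
  · rintro ⟨h, h1, h2⟩
    have h' : tAdj (typeOf C y.1.1) (typeOf C x.1.1) = true := by rwa [plc_tAdj_symm]
    refine ⟨h, h', h1, ?_⟩
    simpa only [plcTag, h, h', dite_true] using h2

/-- a vertex of the even lift from a total tag -/
def plcMk (u : BV C) (τ : TV t → Bool) (hτ : ∀ a, ¬ tAdj (typeOf C u) a = true → τ a = false)
    (hp : ∑ a, plcBz (τ a) = 0) : LiftV C (lift0Parity t) :=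
  ⟨⟨u, fun a => τ a.1⟩, by
    rw [plc_card_mod_iff, plc_sum_nbr _ τ hτ, hp]
    rfl⟩

theorem plcTag_mk (u : BV C) (τ : TV t → Bool)
    (hτ : ∀ a, ¬ tAdj (typeOf C u) a = true → τ a = false)
    (hp : ∑ a, plcBz (τ a) = 0) (a : TV t) : plcTag (plcMk u τ hτ hp) a = τ a := by
  unfold plcTag
  split_ifs with h
  · rfl
  · exact (hτ a h).symm

/-- the difference of two vertices over the same base vertex -/
def plcXor (x y : LiftV C b) (h : y.1.1 = x.1.1) : LiftV C (lift0Parity t) :=
  plcMk x.1.1 (fun a => xor (plcTag x a) (plcTag y a))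
    (fun a ha => by rw [plcTag_of_not ha, plcTag_of_not (by rwa [h])]; rfl)
    (by
      simp only [plcBz_xor, Finset.sum_add_distrib, plc_parity, h]
      exact CharTwo.add_self_eq_zero _)

theorem plcTag_xor (x y : LiftV C b) (h : y.1.1 = x.1.1) (a : TV t) :
    plcTag (plcXor x y h) a = xor (plcTag x a) (plcTag y a) := plcTag_mk _ _ _ _ a

theorem plcXor_base (x y : LiftV C b) (h : y.1.1 = x.1.1) : (plcXor x y h).1.1 = x.1.1 := rfl

/-- template homomorphisms -/
def PlcHom (C : ChoiceSystem t) (b : TV t → Bool) : Type :=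
  {φ : TV t → LiftV C b // ∀ a a', tAdj a a' = true → liftAdj C b (φ a) (φ a') = true}

noncomputable instance : Fintype (PlcHom C b) := by
  classical
  unfold PlcHom
  infer_instance

theorem plc_homCount : homCount t (liftAdj C b) = Fintype.card (PlcHom C b) := by
  classical
  unfold homCount
  rw [← Fintype.card_subtype]
  exact Fintype.card_congr (Equiv.refl _)

/-- the base vertex chosen by a choice function -/
def plcPsi (d : (i : Fin t) → Fin (C.dom i)) : TV t → BV C
  | Sum.inl i => Sum.inl ⟨i, d i⟩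
  | Sum.inr h => Sum.inr ⟨h, C.lamL h.1.1 h.1.2.1 (d h.1.1)⟩

theorem plc_typeOf_psi (d : (i : Fin t) → Fin (C.dom i)) (a : TV t) :
    typeOf C (plcPsi d a) = a := by
  rcases a with i | h <;> rfl

theorem plc_helperAgree {d : (i : Fin t) → Fin (C.dom i)}
    (hd : ∀ i j : Fin t, i < j → C.lamL i j (d i) = C.lamR i j (d j)) (i : Fin t) (h : Helper t)
    (hi : i = h.1.1 ∨ i = h.1.2.1 ∨ i = h.1.2.2) :
    helperAgree C ⟨i, d i⟩ ⟨h, C.lamL h.1.1 h.1.2.1 (d h.1.1)⟩ = true := by
  unfold helperAgree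
  rw [decide_eq_true_iff]
  rcases hi with rfl | rfl | rfl
  · exact Or.inl ⟨rfl, rfl⟩
  · exact Or.inr (Or.inl ⟨rfl, hd _ _ h.2.1⟩)
  · exact Or.inr (Or.inr rfl)

theorem plc_bAdj_psi {d : (i : Fin t) → Fin (C.dom i)}
    (hd : ∀ i j : Fin t, i < j → C.lamL i j (d i) = C.lamR i j (d j)) (a a' : TV t)
    (h : tAdj a a' = true) : bAdj C (plcPsi d a) (plcPsi d a') = true := by
  rcases a with i | hh <;> rcases a' with j | hh'
  · simp only [tAdj, decide_eq_true_iff] at h
    simp only [plcPsi, bAdj, mainAgree, Bool.or_eq_true, decide_eq_true_iff]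
    rcases lt_or_gt_of_ne h with h | h
    · exact Or.inl ⟨h, hd _ _ h⟩
    · exact Or.inr ⟨h, hd _ _ h⟩
  · simp only [tAdj, decide_eq_true_iff] at h
    exact plc_helperAgree hd i hh' h
  · simp only [tAdj, decide_eq_true_iff] at h
    exact plc_helperAgree hd j hh h
  · simp [tAdj] at h

theorem plc_no_star (ht : 0 < t) (φ : PlcHom C (liftStarParity t))
    (hφ : ∀ a, typeOf C (φ.1 a).1.1 = a) : False := by
  have hsym : ∀ a a', plcTag (φ.1 a) a' = plcTag (φ.1 a') a := by
    intro a a'
    by_cases h : tAdj a a' = true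
    · have := ((plc_liftAdj_iff _ _).mp (φ.2 a a' h)).2.2
      rwa [hφ, hφ] at this
    · rw [plcTag_of_not (by rwa [hφ]), plcTag_of_not (by rwa [hφ, plc_tAdj_symm])]
  have h1 : ∑ p : TV t × TV t, plcBz (plcTag (φ.1 p.1) p.2) = 0 := by
    refine Finset.sum_involution (fun p _ => p.swap) ?_ ?_ (fun _ _ => mem_univ _)
      (fun _ _ => rfl)
    · intro p _
      simp only [Prod.fst_swap, Prod.snd_swap]
      rw [hsym p.2 p.1]
      exact CharTwo.add_self_eq_zero _
    · intro p _ hp hs
      apply hp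
      have h2 : p.2 = p.1 := congrArg Prod.fst hs
      rw [h2, plcTag_of_not (by rw [hφ, plc_tAdj_irrefl]; simp)]
      rfl
  rw [Fintype.sum_prod_type] at h1
  simp only [plc_parity, hφ] at h1
  rw [Finset.sum_eq_single (Sum.inl ⟨0, ht⟩)] at h1
  · simp [liftStarParity, plcBz, ht] at h1
  · intro a _ ha
    simp [liftStarParity, plcBz, ht, ha]
  · intro h; exact absurd (mem_univ _) h

theorem homCount_lift_lt {t : ℕ} (ht : 4 ≤ t) (C : ChoiceSystem t) (h : C.Successful) :
    homCount t (liftAdj C (liftStarParity t)) < homCount t (liftAdj C (lift0Parity t)) := by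
  obtain ⟨d, hd⟩ := h
  rw [plc_homCount, plc_homCount]
  let φ₀ : PlcHom C (lift0Parity t) :=
    ⟨fun a => plcMk (plcPsi d a) (fun _ => false) (fun _ _ => rfl) (by simp [plcBz]), by
      intro a a' haa
      rw [plc_liftAdj_iff, plcTag_mk, plcTag_mk]
      refine ⟨?_, plc_bAdj_psi hd a a' haa, rfl⟩
      change tAdj (typeOf C (plcPsi d a)) (typeOf C (plcPsi d a')) = true
      rwa [plc_typeOf_psi, plc_typeOf_psi]⟩
  rcases isEmpty_or_nonempty (PlcHom C (liftStarParity t)) with he | hne
  · rw [Fintype.card_eq_zero]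
    exact Fintype.card_pos_iff.mpr ⟨φ₀⟩
  let base : PlcHom C (liftStarParity t) → TV t → BV C := fun φ a => (φ.1 a).1.1
  have hbase : ∀ φ, base (Function.invFun base (base φ)) = base φ :=
    fun φ => Function.invFun_eq ⟨φ, rfl⟩
  let Ψ : PlcHom C (liftStarParity t) → PlcHom C (lift0Parity t) := fun φ =>
    ⟨fun a => plcXor (φ.1 a) ((Function.invFun base (base φ)).1 a) (congrFun (hbase φ) a), by
      intro a a' haa
      have h1 := (plc_liftAdj_iff _ _).mp (φ.2 a a' haa)
      have h2 := (plc_liftAdj_iff _ _).mp ((Function.invFun base (base φ)).2 a a' haa)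
      have e1 : ((Function.invFun base (base φ)).1 a).1.1 = (φ.1 a).1.1 := congrFun (hbase φ) a
      have e2 : ((Function.invFun base (base φ)).1 a').1.1 = (φ.1 a').1.1 :=
        congrFun (hbase φ) a'
      rw [e1, e2] at h2
      rw [plc_liftAdj_iff, plcTag_xor, plcTag_xor, plcXor_base, plcXor_base]
      exact ⟨h1.1, h1.2.1, by rw [h1.2.2, h2.2.2]⟩⟩
  refine Fintype.card_lt_of_injective_of_notMem Ψ ?_ (b := φ₀) ?_
  · intro φ φ' hφ
    have hb : base φ = base φ' := by
      funext a
      exact congrArg (fun x : PlcHom C (lift0Parity t) => (x.1 a).1.1) hφ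
    refine Subtype.ext (funext fun a => plc_ext (congrFun hb a) fun a' => ?_)
    have h1 := congrArg (fun x : PlcHom C (lift0Parity t) => plcTag (x.1 a) a') hφ
    simp only [Ψ, plcTag_xor] at h1
    rw [hb] at h1
    simpa using h1
  · rintro ⟨φ, hφ⟩
    refine plc_no_star (by omega) φ fun a => ?_
    have h1 : (φ.1 a).1.1 = plcPsi d a :=
      congrArg (fun x : PlcHom C (lift0Parity t) => (x.1 a).1.1) hφ
    rw [h1, plc_typeOf_psi]

end Crest.Agent.R290
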