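import Crest.Agent.R290.PLDupKey

/-!
Row 290.  Without a successful choice Duplicator wins the `t`-pebble game on the two parity lifts.
-/

set_option autoImplicit false

namespace Crest.Agent.R290

open Finset Crest.WLRefine Crest.WLRefine.ParityLift

section Aux

variable {t : ℕ}

/-- a bit as an element of `ZMod 2` -/
def dupB (b : Bool) : ZMod 2 := if b = true then 1 else 0

theorem dupB_inj {b c : Bool} (h : dupB b = dupB c) : b = c := by
  revert h; cases b <;> cases c <;> decide

theorem dupB_xor (b : Bool) (e : ZMod 2) : dupB (xor b (decide (e = 1))) = dupB b + e := by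
  revert b e; decide

theorem dup_mod_iff (n : ℕ) (b : Bool) : n % 2 = b.toNat ↔ (n : ZMod 2) = dupB b := by
  rw [← ZMod.natCast_mod n 2]
  rcases Nat.mod_two_eq_zero_or_one n with h | h <;> rw [h] <;> cases b <;> decide

theorem dup_card_cast {ι : Type} [Fintype ι] (z : ι → Bool) :
    (((univ.filter fun a => z a = true).card : ℕ) : ZMod 2) = ∑ a, dupB (z a) := by
  rw [card_filter]; push_cast; rfl

theorem dupBd_eq (α : TV t → ZMod 2) (a : TV t) : dupBd α a = ∑ a' : Nbr a, α a'.1 := by
  unfold dupBd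
  exact Finset.sum_subtype _ (by simp) _

/-- The tag of a lift vertex, extended by zero. -/
def dupTag {C : ChoiceSystem t} {b : TV t → Bool} (x : LiftV C b) (a : TV t) : ZMod 2 :=
  if h : tAdj (typeOf C x.1.1) a = true then dupB (x.1.2 ⟨a, h⟩) else 0

theorem dup_ext {C : ChoiceSystem t} {b : TV t → Bool} (x y : LiftV C b) (h1 : x.1.1 = y.1.1)
    (h2 : ∀ a, tAdj (typeOf C x.1.1) a = true → dupTag x a = dupTag y a) : x = y := by
  obtain ⟨⟨u, z⟩, hx⟩ := x
  obtain ⟨⟨v, w⟩, hy⟩ := y
  have h1' : u = v := h1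
  subst h1'
  have : z = w := by
    funext a
    have := h2 a.1 a.2
    simp only [dupTag, a.2, dite_true] at this
    exact dupB_inj this
  subst this
  rfl

theorem dup_bAdj_tAdj (C : ChoiceSystem t) (u v : BV C) (h : bAdj C u v = true) :
    tAdj (typeOf C u) (typeOf C v) = true := by
  have key : ∀ (p : Σ i : Fin t, Fin (C.dom i)) (hq : Σ h : Helper t, Fin (C.lab h.1.1 h.1.2.1)),
      helperAgree C p hq = true → (p.1 = hq.1.1.1 ∨ p.1 = hq.1.1.2.1 ∨ p.1 = hq.1.1.2.2) := by
    intro p hq h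
    simp only [helperAgree, decide_eq_true_eq] at h
    rcases h with ⟨e, _⟩ | ⟨e, _⟩ | e
    · exact Or.inl e
    · exact Or.inr (Or.inl e)
    · exact Or.inr (Or.inr e)
  rcases u with p | p <;> rcases v with q | q
  · simp only [bAdj, Bool.or_eq_true, mainAgree, decide_eq_true_eq] at h
    simp only [typeOf, tAdj, decide_eq_true_eq]
    rcases h with ⟨h, _⟩ | ⟨h, _⟩
    · exact h.ne
    · exact h.ne'
  · exact decide_eq_true (key p q h)
  · exact decide_eq_true (key q p h)
  · simp [bAdj] at h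

theorem dup_liftAdj_iff {C : ChoiceSystem t} {b : TV t → Bool} (x y : LiftV C b) :
    liftAdj C b x y = true ↔ bAdj C x.1.1 y.1.1 = true ∧
      dupTag x (typeOf C y.1.1) = dupTag y (typeOf C x.1.1) := by
  simp only [liftAdj, decide_eq_true_eq]
  constructor
  · rintro ⟨h, h', hb, he⟩
    refine ⟨hb, ?_⟩
    simp only [dupTag, h, h', dite_true, he]
  · rintro ⟨hb, he⟩
    have h := dup_bAdj_tAdj C _ _ hb
    have h' : tAdj (typeOf C y.1.1) (typeOf C x.1.1) = true := by
      rw [dup_tAdj_symm]; exact h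
    refine ⟨h, h', hb, ?_⟩
    simp only [dupTag, h, h', dite_true] at he
    exact dupB_inj he

/-- Shift all tags by `ε`. -/
def dupShift {C : ChoiceSystem t} (ε : BV C → TV t → ZMod 2) (b b' : TV t → Bool)
    (h : ∀ w, dupBd (ε w) (typeOf C w) = dupB (b (typeOf C w)) + dupB (b' (typeOf C w)))
    (x : LiftV C b) : LiftV C b' :=
  ⟨⟨x.1.1, fun a => xor (x.1.2 a) (decide (ε x.1.1 a.1 = 1))⟩, by
    have hx := x.2
    rw [dup_mod_iff, dup_card_cast] at hx ⊢
    simp only [dupB_xor, sum_add_distrib]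
    rw [hx, ← dupBd_eq, h]
    linear_combination dup_add_self (dupB (b (typeOf C x.1.1)))⟩

theorem dupShift_base {C : ChoiceSystem t} (ε : BV C → TV t → ZMod 2) (b b' : TV t → Bool)
    (h : ∀ w, dupBd (ε w) (typeOf C w) = dupB (b (typeOf C w)) + dupB (b' (typeOf C w)))
    (x : LiftV C b) : (dupShift ε b b' h x).1.1 = x.1.1 := rfl

theorem dupShift_tag {C : ChoiceSystem t} (ε : BV C → TV t → ZMod 2) (b b' : TV t → Bool)
    (h : ∀ w, dupBd (ε w) (typeOf C w) = dupB (b (typeOf C w)) + dupB (b' (typeOf C w)))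
    (x : LiftV C b) (a : TV t) (ha : tAdj (typeOf C x.1.1) a = true) :
    dupTag (dupShift ε b b' h x) a = dupTag x a + ε x.1.1 a := by
  have ha' : tAdj (typeOf C (dupShift ε b b' h x).1.1) a = true := ha
  simp only [dupTag, ha, ha', dite_true]
  exact dupB_xor _ _

/-- The shift as a bijection. -/
def dupEquiv {C : ChoiceSystem t} (ε : BV C → TV t → ZMod 2) (b b' : TV t → Bool)
    (h : ∀ w, dupBd (ε w) (typeOf C w) = dupB (b (typeOf C w)) + dupB (b' (typeOf C w))) :
    LiftV C b ≃ LiftV C b' where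
  toFun := dupShift ε b b' h
  invFun := dupShift ε b' b (fun w => by rw [h w, add_comm])
  left_inv x := by
    refine dup_ext _ _ rfl fun a ha => ?_
    rw [dupShift_tag _ _ _ _ (dupShift ε b b' h x) _ ha, dupShift_tag _ _ _ _ x _ ha,
      dupShift_base, add_assoc, dup_add_self, add_zero]
  right_inv x := by
    refine dup_ext _ _ rfl fun a ha => ?_
    rw [dupShift_tag _ _ _ _ (dupShift ε b' b _ x) _ ha, dupShift_tag _ _ _ _ x _ ha,
      dupShift_base, add_assoc, dup_add_self, add_zero]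

/-- The pair `p` is matched by `δ`, away from the sink `l`. -/
def DupM {C : ChoiceSystem t} {b b' : TV t → Bool} (δ : BV C → TV t → ZMod 2) (l : Fin t)
    (p : LiftV C b × LiftV C b') : Prop :=
  p.1.1.1 = p.2.1.1 ∧ typeOf C p.1.1.1 ≠ Sum.inl l ∧
    ∀ a, tAdj (typeOf C p.1.1.1) a = true → dupTag p.2 a = dupTag p.1 a + δ p.1.1.1 a

/-- A set of pairs is covered by some structure. -/
def DupCov {C : ChoiceSystem t} {b b' : TV t → Bool} (o : Fin t)
    (Q : Finset (LiftV C b × LiftV C b')) : Prop :=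
  ∃ (δ : BV C → TV t → ZMod 2) (l : Fin t), DupPat C δ o l ∧ ∀ p ∈ Q, DupM δ l p

theorem dupM_eq {C : ChoiceSystem t} {b b' : TV t → Bool} {δ : BV C → TV t → ZMod 2} {l : Fin t}
    {p q : LiftV C b × LiftV C b'} (hp : DupM δ l p) (hq : DupM δ l q) :
    p.1 = q.1 ↔ p.2 = q.2 := by
  obtain ⟨p1, -, p3⟩ := hp
  obtain ⟨q1, -, q3⟩ := hq
  constructor
  · intro h
    refine dup_ext _ _ (by rw [← p1, ← q1, h]) fun a ha => ?_
    rw [← p1] at ha
    rw [p3 a ha, q3 a (h ▸ ha), h]
  · intro h
    have hb : p.1.1.1 = q.1.1.1 := by rw [p1, q1, h]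
    refine dup_ext _ _ hb fun a ha => ?_
    have e1 := p3 a ha
    have e2 := q3 a (hb ▸ ha)
    rw [h, e2, hb] at e1
    exact (add_right_cancel e1).symm

theorem dupM_adj {C : ChoiceSystem t} {b b' : TV t → Bool} {δ : BV C → TV t → ZMod 2}
    {o l : Fin t} (hδ : DupPat C δ o l)
    {p q : LiftV C b × LiftV C b'} (hp : DupM δ l p) (hq : DupM δ l q) :
    liftAdj C b p.1 q.1 = liftAdj C b' p.2 q.2 := by
  obtain ⟨p1, -, p3⟩ := hp
  obtain ⟨q1, -, q3⟩ := hq
  rw [Bool.eq_iff_iff, dup_liftAdj_iff, dup_liftAdj_iff, ← p1, ← q1]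
  refine and_congr_right fun hb => ?_
  have h := dup_bAdj_tAdj C _ _ hb
  have h' : tAdj (typeOf C q.1.1.1) (typeOf C p.1.1.1) = true := by
    rw [dup_tAdj_symm]; exact h
  rw [p3 _ h, q3 _ h', hδ.edge _ _ hb, add_left_inj]

/-- The correction at a vertex of the sink type. -/
theorem dup_corr (C : ChoiceSystem t) (hC : ¬ C.Successful) (P : Finset (BV C))
    (hP : P.card < t) (l : Fin t) (hl : ∀ u ∈ P, typeOf C u ≠ Sum.inl l) (w : BV C)
    (hw : typeOf C w = Sum.inl l) :
    ∃ e : TV t → ZMod 2, ∀ Q ⊆ P, Q.card + 1 < t → ∃ (a : Fin t) (φ : BV C → TV t → ZMod 2),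
      a ≠ l ∧ DupPat C φ l a ∧ φ w = e ∧
        ∀ u ∈ Q, typeOf C u ≠ Sum.inl a ∧ φ u = fun _ => 0 := by
  classical
  by_cases hA : ∃ a, a ≠ l ∧ ∀ u ∈ P, typeOf C u ≠ Sum.inl a
  · obtain ⟨a, hal, ha⟩ := hA
    refine ⟨_, fun Q hQ _ => ⟨a, _, hal, dupPat_edge C hal.symm, rfl, fun u hu => ?_⟩⟩
    refine ⟨ha u (hQ hu), ?_⟩
    funext a'
    exact dupE_of_ne (hl u (hQ hu)) (ha u (hQ hu)) _
  · push Not at hA
    set S : Finset (TV t) := (univ.erase l).image Sum.inl with hS
    have hScard : S.card = t - 1 := by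
      rw [hS, card_image_of_injective _ Sum.inl_injective, card_erase_of_mem (mem_univ _)]
      simp
    have hST : S ⊆ P.image (typeOf C) := by
      intro a ha
      obtain ⟨i, hi, rfl⟩ := mem_image.mp ha
      obtain ⟨u, hu, hu'⟩ := hA i (ne_of_mem_erase hi)
      exact mem_image.mpr ⟨u, hu, hu'⟩
    have hle : (P.image (typeOf C)).card ≤ P.card := card_image_le
    have hge := card_le_card hST
    have hEq : S = P.image (typeOf C) := eq_of_subset_of_card_le hST (by omega)
    have hinj : Set.InjOn (typeOf C) P := card_image_iff.mp (by omega)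
    have hd : ∀ i : Fin t, ∃ x : Fin (C.dom i),
        (i = l → (Sum.inl ⟨i, x⟩ : BV C) = w) ∧ (i ≠ l → (Sum.inl ⟨i, x⟩ : BV C) ∈ P) := by
      have aux : ∀ (u : BV C) (i : Fin t), typeOf C u = Sum.inl i →
          ∃ x : Fin (C.dom i), (Sum.inl ⟨i, x⟩ : BV C) = u := by
        intro u i hu
        rcases u with ⟨k, x⟩ | q
        · have : k = i := by simpa [typeOf] using hu
          subst this
          exact ⟨x, rfl⟩
        · simp [typeOf] at hu
      intro i
      by_cases hi : i = l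
      · subst hi
        obtain ⟨x, hx⟩ := aux w i hw
        exact ⟨x, fun _ => hx, fun h => absurd rfl h⟩
      · obtain ⟨u, hu, hu'⟩ := hA i hi
        obtain ⟨x, hx⟩ := aux u i hu'
        exact ⟨x, fun h => absurd h hi, fun _ => hx ▸ hu⟩
    choose d hd1 hd2 using hd
    obtain ⟨e, he⟩ := dup_key C hC d l
    refine ⟨e, fun Q hQ hQc => ?_⟩
    have : ∃ a ∈ S, a ∉ Q.image (typeOf C) := by
      by_contra hcon
      push Not at hcon
      have h1 := card_le_card (show S ⊆ Q.image (typeOf C) from hcon)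
      have h2 : (Q.image (typeOf C)).card ≤ Q.card := card_image_le
      omega
    obtain ⟨a', ha', haQ⟩ := this
    obtain ⟨a, ha, rfl⟩ := mem_image.mp ha'
    have hal : a ≠ l := ne_of_mem_erase ha
    obtain ⟨φ, h1, h2, h3⟩ := he a hal
    refine ⟨a, φ, hal, h1, hd1 l rfl ▸ h2, fun u hu => ?_⟩
    have hua : typeOf C u ≠ Sum.inl a := fun h => haQ (mem_image.mpr ⟨u, hu, h⟩)
    refine ⟨hua, ?_⟩
    have : typeOf C u ∈ S := hEq ▸ mem_image_of_mem _ (hQ hu)
    obtain ⟨i, hi, hiu⟩ := mem_image.mp this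
    have hil : i ≠ l := ne_of_mem_erase hi
    have hu' : u = Sum.inl ⟨i, d i⟩ := hinj (hQ hu) (hd2 i hil) hiu.symm
    rw [hu']
    exact h3 i (fun h => hua (h ▸ hiu.symm)) hil

end Aux

theorem peb_lift_of_not_successful {t : ℕ} (ht : 4 ≤ t) (C : ChoiceSystem t)
    (h : ¬ C.Successful) :
    Peb t (liftAdj C (lift0Parity t)) (liftAdj C (liftStarParity t)) := by
  classical
  set o : Fin t := ⟨0, by omega⟩ with ho
  have hstar : ∀ a : TV t, dupB (lift0Parity t a) + dupB (liftStarParity t a) =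
      dupI a (Sum.inl o) := by
    intro a
    have h0 : 0 < t := by omega
    simp [dupB, lift0Parity, liftStarParity, dupI, ho, h0]
  refine ⟨{P | ∀ Q ⊆ P, Q.card < t → DupCov o Q}, ?_, ?_, ?_, ?_, ?_⟩
  · intro Q hQ _
    refine ⟨_, o, DupPat.zero C o, fun p hp => ?_⟩
    exact absurd (hQ hp) (notMem_empty _)
  · intro P hP Q hQ R hR
    exact hP R (hR.trans hQ)
  · intro P hP a ha b hb
    obtain ⟨δ, l, -, hm⟩ := hP {a, b} (by simp [insert_subset_iff, ha, hb])
      (lt_of_le_of_lt card_le_two (by omega))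
    exact dupM_eq (hm a (by simp)) (hm b (by simp))
  · intro P hP a ha b hb
    obtain ⟨δ, l, hδ, hm⟩ := hP {a, b} (by simp [insert_subset_iff, ha, hb])
      (lt_of_le_of_lt card_le_two (by omega))
    exact dupM_adj hδ (hm a (by simp)) (hm b (by simp))
  · intro P hP hc
    obtain ⟨δ, l, hδ, hm⟩ := hP P Subset.rfl hc
    set P' : Finset (BV C) := P.image fun p => p.1.1.1 with hP'
    have hP'c : P'.card < t := lt_of_le_of_lt card_image_le hc
    have hP'l : ∀ u ∈ P', typeOf C u ≠ Sum.inl l := by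
      intro u hu
      obtain ⟨p, hp, rfl⟩ := mem_image.mp hu
      exact (hm p hp).2.1
    choose e he using dup_corr C h P' hP'c l hP'l
    set ε : BV C → TV t → ZMod 2 := fun w a =>
      if hw : typeOf C w = Sum.inl l then δ w a + e w hw a else δ w a with hε
    have hεb : ∀ w, dupBd (ε w) (typeOf C w) =
        dupB (lift0Parity t (typeOf C w)) + dupB (liftStarParity t (typeOf C w)) := by
      intro w
      rw [hstar]
      by_cases hw : typeOf C w = Sum.inl l
      · obtain ⟨a, φ, hal, h1, h2, -⟩ := he w hw ∅ (empty_subset _) (by simp; omega)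
        have := (hδ.add h1).par w
        have e1 : ε w = fun a' => δ w a' + φ w a' := by
          funext a'; simp only [hε, hw, dite_true, h2]
        have e2 : dupI (typeOf C w) (Sum.inl a) = 0 := by
          rw [hw]; simp [dupI, hal.symm]
        rw [e1, this, e2, add_zero]
      · have e1 : ε w = δ w := by
          funext a'; simp only [hε, hw, dite_false]
        rw [e1, hδ.par w]
        simp [dupI, hw]
    refine ⟨dupEquiv ε _ _ hεb, fun z Q hQ hQc => ?_⟩
    have htag : ∀ a, tAdj (typeOf C z.1.1) a = true →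
        dupTag (dupEquiv ε _ _ hεb z) a = dupTag z a + ε z.1.1 a :=
      fun a ha => dupShift_tag ε _ _ hεb z a ha
    by_cases hw : typeOf C z.1.1 = Sum.inl l
    · by_cases hz : (z, dupEquiv ε _ _ hεb z) ∈ Q
      · set Q' := Q.erase (z, dupEquiv ε _ _ hεb z) with hQ'
        have hQ'P : Q' ⊆ P := by
          intro p hp
          rcases mem_insert.mp (hQ (mem_of_mem_erase hp)) with h1 | h1
          · exact absurd h1 (ne_of_mem_erase hp)
          · exact h1
        have hQ'c : Q'.card + 1 = Q.card := card_erase_add_one hz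
        have hle : (Q'.image fun p => p.1.1.1).card ≤ Q'.card := card_image_le
        obtain ⟨a, φ, hal, h1, h2, h3⟩ := he z.1.1 hw (Q'.image fun p => p.1.1.1)
          (image_subset_image hQ'P) (by omega)
        refine ⟨_, a, hδ.add h1, fun p hp => ?_⟩
        by_cases hpz : p = (z, dupEquiv ε _ _ hεb z)
        · subst hpz
          refine ⟨rfl, ?_, fun a' ha' => ?_⟩
          · show typeOf C z.1.1 ≠ _
            rw [hw]; simpa using hal.symm
          · show dupTag (dupEquiv ε _ _ hεb z) a' = dupTag z a' + (δ z.1.1 a' + φ z.1.1 a')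
            rw [htag a' ha', h2]
            simp only [hε, hw, dite_true]
        · have hp' : p ∈ Q' := mem_erase.mpr ⟨hpz, hp⟩
          obtain ⟨h4, h5⟩ := h3 p.1.1.1 (mem_image_of_mem _ hp')
          obtain ⟨m1, -, m3⟩ := hm p (hQ'P hp')
          refine ⟨m1, h4, fun a' ha' => ?_⟩
          show _ = _ + (δ p.1.1.1 a' + φ p.1.1.1 a')
          rw [m3 a' ha', h5, add_zero]
      · refine ⟨δ, l, hδ, fun p hp => hm p ?_⟩
        rcases mem_insert.mp (hQ hp) with h1 | h1
        · exact absurd (h1 ▸ hp) hz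
        · exact h1
    · refine ⟨δ, l, hδ, fun p hp => ?_⟩
      rcases mem_insert.mp (hQ hp) with h1 | h1
      · subst h1
        refine ⟨rfl, hw, fun a' ha' => ?_⟩
        show dupTag (dupEquiv ε _ _ hεb z) a' = dupTag z a' + δ z.1.1 a'
        rw [htag a' ha']
        simp only [hε, hw, dite_false]
      · exact hm p h1

end Crest.Agent.R290
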