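import Crest.Agent.R290.PLCount
import Crest.Agent.R290.DefsPeb

/-!
Row 290.  Flip patterns on the base graph of a choice system (auxiliary file for `PLDup`).
-/

set_option autoImplicit false

namespace Crest.Agent.R290

open Finset Crest.WLRefine Crest.WLRefine.ParityLift

variable {t : ℕ}

/-- indicator of the unordered template pair `{x, y}` -/
def dupE (x y a a' : TV t) : ZMod 2 :=
  (if a = x ∧ a' = y then 1 else 0) + (if a = y ∧ a' = x then 1 else 0)

/-- sum over the template neighbours of `a` -/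
def dupBd (α : TV t → ZMod 2) (a : TV t) : ZMod 2 :=
  ∑ a' ∈ univ.filter (fun a' => tAdj a a' = true), α a'

/-- indicator of equality -/
def dupI (a x : TV t) : ZMod 2 := if a = x then 1 else 0

theorem dup_tAdj_symm (a a' : TV t) : tAdj a a' = tAdj a' a := by
  cases a <;> cases a' <;> simp [tAdj, eq_comm]

theorem dupE_symm (x y a a' : TV t) : dupE x y a a' = dupE x y a' a := by
  unfold dupE
  rw [add_comm]
  congr 1 <;> simp [and_comm]

theorem dupBd_add (α β : TV t → ZMod 2) (a : TV t) :
    dupBd (fun a' => α a' + β a') a = dupBd α a + dupBd β a := by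
  simp [dupBd, sum_add_distrib]

theorem dupBd_mul (α : TV t → ZMod 2) (c : ZMod 2) (a : TV t) :
    dupBd (fun a' => α a' * c) a = dupBd α a * c := by
  simp [dupBd, sum_mul]

theorem dupBd_E (x y : TV t) (hxy : tAdj x y = true) (a : TV t) :
    dupBd (fun a' => dupE x y a a') a = dupI a x + dupI a y := by
  have hyx : tAdj y x = true := by rw [dup_tAdj_symm]; exact hxy
  unfold dupE
  rw [dupBd_add]
  congr 1
  · unfold dupBd dupI
    by_cases h : a = x
    · subst h
      simp [hxy]
    · simp [h]
  · unfold dupBd dupI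
    by_cases h : a = y
    · subst h
      simp [hyx]
    · simp [h]

theorem dupE_of_ne {x y a : TV t} (h1 : a ≠ x) (h2 : a ≠ y) (a' : TV t) : dupE x y a a' = 0 := by
  simp [dupE, h1, h2]

theorem dupE_of_ne' {x y a' : TV t} (h1 : a' ≠ x) (h2 : a' ≠ y) (a : TV t) :
    dupE x y a a' = 0 := by
  simp [dupE, h1, h2]

theorem dup_add_self (c : ZMod 2) : c + c = 0 := by
  revert c; decide

/-- A flip pattern, odd exactly on the types `l` and `a`. -/
structure DupPat (C : ChoiceSystem t) (φ : BV C → TV t → ZMod 2) (l a : Fin t) : Prop where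
  edge : ∀ u v, bAdj C u v = true → φ u (typeOf C v) = φ v (typeOf C u)
  par : ∀ u, dupBd (φ u) (typeOf C u) =
    dupI (typeOf C u) (Sum.inl l) + dupI (typeOf C u) (Sum.inl a)

theorem DupPat.add {C : ChoiceSystem t} {φ ψ : BV C → TV t → ZMod 2} {k l a : Fin t}
    (h1 : DupPat C φ k l) (h2 : DupPat C ψ l a) :
    DupPat C (fun u a' => φ u a' + ψ u a') k a := by
  refine ⟨fun u v huv => ?_, fun u => ?_⟩
  · rw [h1.edge u v huv, h2.edge u v huv]
  · rw [dupBd_add, h1.par, h2.par]
    have := dup_add_self (dupI (typeOf C u) (Sum.inl l))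
    linear_combination this

theorem DupPat.zero (C : ChoiceSystem t) (k : Fin t) : DupPat C (fun _ _ => 0) k k := by
  refine ⟨fun _ _ _ => rfl, fun u => ?_⟩
  rw [dup_add_self]
  simp [dupBd]

/-- A path `α` plus a cycle `β` inside the label region, weighted by the side function. -/
theorem dupPat_of (C : ChoiceSystem t) (L : TV t → Prop) (s : BV C → ZMod 2)
    (hs : ∀ u v, bAdj C u v = true → L (typeOf C u) → L (typeOf C v) → s u = s v)
    (α β : TV t → TV t → ZMod 2) (hα : ∀ a a', α a a' = α a' a) (hβ : ∀ a a', β a a' = β a' a)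
    (hL : ∀ a a', ¬ L a → β a a' = 0) (l k : Fin t)
    (hαb : ∀ a, dupBd (fun a' => α a a') a = dupI a (Sum.inl l) + dupI a (Sum.inl k))
    (hβb : ∀ a, dupBd (fun a' => β a a') a = 0) :
    DupPat C (fun u a' => α (typeOf C u) a' + β (typeOf C u) a' * s u) l k := by
  refine ⟨fun u v huv => ?_, fun u => ?_⟩
  · rw [hα (typeOf C u), hβ (typeOf C u)]
    by_cases hu : L (typeOf C u)
    · by_cases hv : L (typeOf C v)
      · rw [hs u v huv hu hv]
      · simp [hL _ _ hv]
    · rw [hβ (typeOf C v), hL _ _ hu]; simp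
  · rw [dupBd_add, dupBd_mul, hαb, hβb]; simp

/-- The pattern flipping one main edge. -/
theorem dupPat_edge (C : ChoiceSystem t) {l a : Fin t} (h : l ≠ a) :
    DupPat C (fun u a' => dupE (Sum.inl l) (Sum.inl a) (typeOf C u) a') l a := by
  refine ⟨fun u v _ => dupE_symm _ _ _ _, fun u => dupBd_E _ _ (by simp [tAdj, h]) _⟩

/-- The abstract key lemma: a pair `x, y` of mains whose chosen elements lie on different sides. -/
theorem dup_key_abs (C : ChoiceSystem t) (d : (i : Fin t) → Fin (C.dom i)) (x y : Fin t)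
    (hxy : x ≠ y) (L : TV t → Prop) (s : BV C → ZMod 2)
    (hs : ∀ u v, bAdj C u v = true → L (typeOf C u) → L (typeOf C v) → s u = s v)
    (H : (m : Fin t) → m ≠ x → m ≠ y → Helper t)
    (hHx : ∀ m h1 h2, tAdj (Sum.inl x) (Sum.inr (H m h1 h2)) = true)
    (hHy : ∀ m h1 h2, tAdj (Sum.inl y) (Sum.inr (H m h1 h2)) = true)
    (hHm : ∀ m h1 h2, tAdj (Sum.inl m) (Sum.inr (H m h1 h2)) = true)
    (hLx : L (Sum.inl x)) (hLy : L (Sum.inl y)) (hLH : ∀ m h1 h2, L (Sum.inr (H m h1 h2)))
    (hsx : s (Sum.inl ⟨x, d x⟩) = 1) (hsy : s (Sum.inl ⟨y, d y⟩) = 0)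
    (l : Fin t) (hlx : l ≠ x) :
    ∃ e : TV t → ZMod 2, ∀ a, a ≠ l → ∃ φ : BV C → TV t → ZMod 2, DupPat C φ l a ∧
      φ (Sum.inl ⟨l, d l⟩) = e ∧ ∀ i, i ≠ a → i ≠ l → φ (Sum.inl ⟨i, d i⟩) = fun _ => 0 := by
  have sy : ∀ {a b : TV t}, tAdj a b = true → tAdj b a = true := fun h => by
    rw [dup_tAdj_symm]; exact h
  by_cases hly : l = y
  · subst hly
    refine ⟨fun a' => dupE (Sum.inl l) (Sum.inl x) (Sum.inl l) a', fun a hal => ?_⟩
    by_cases hax : a = x
    · subst hax
      refine ⟨_, dupPat_edge C hlx, rfl, fun i hi1 hi2 => ?_⟩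
      funext a'
      exact dupE_of_ne (by simpa [typeOf] using hi2) (by simpa [typeOf] using hi1) _
    · set h' : TV t := Sum.inr (H a hax hal) with hh'
      have t1 : tAdj (Sum.inl l : TV t) (Sum.inl x) = true := by simp [tAdj, hlx]
      have t2 : tAdj (Sum.inl x : TV t) h' = true := hHx _ _ _
      have t3 : tAdj h' (Sum.inl a) = true := sy (hHm _ _ _)
      have t4 : tAdj h' (Sum.inl l) = true := sy (hHy _ _ _)
      refine ⟨_, dupPat_of C L s hs
        (fun b b' => dupE (Sum.inl l) (Sum.inl x) b b' + dupE (Sum.inl x) h' b b'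
          + dupE h' (Sum.inl a) b b')
        (fun b b' => dupE (Sum.inl l) (Sum.inl x) b b' + dupE (Sum.inl x) h' b b'
          + dupE h' (Sum.inl l) b b') ?_ ?_ ?_ l a ?_ ?_, ?_, ?_⟩
      · intro b b'; simp only [dupE_symm _ _ b b']
      · intro b b'; simp only [dupE_symm _ _ b b']
      · intro b b' hb
        have n1 : b ≠ Sum.inl l := fun h => hb (h ▸ hLy)
        have n2 : b ≠ Sum.inl x := fun h => hb (h ▸ hLx)
        have n3 : b ≠ h' := fun h => hb (h ▸ hLH _ _ _)
        simp [dupE_of_ne n1 n2, dupE_of_ne n2 n3, dupE_of_ne n3 n1]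
      · intro b
        rw [dupBd_add, dupBd_add, dupBd_E _ _ t1, dupBd_E _ _ t2, dupBd_E _ _ t3]
        linear_combination dup_add_self (dupI b (Sum.inl x)) + dup_add_self (dupI b h')
      · intro b
        rw [dupBd_add, dupBd_add, dupBd_E _ _ t1, dupBd_E _ _ t2, dupBd_E _ _ t4]
        linear_combination dup_add_self (dupI b (Sum.inl x)) + dup_add_self (dupI b h')
          + dup_add_self (dupI b (Sum.inl l))
      · funext a'
        have n1 : (Sum.inl l : TV t) ≠ Sum.inl x := by simpa using hlx
        have n2 : (Sum.inl l : TV t) ≠ h' := by simp [hh']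
        have n3 : (Sum.inl l : TV t) ≠ Sum.inl a := by simpa using hal.symm
        simp only [typeOf, hsy, mul_zero, add_zero, dupE_of_ne n1 n2, dupE_of_ne n2 n3]
      · intro i hia hil
        funext a'
        have n1 : (Sum.inl i : TV t) ≠ Sum.inl l := by simpa using hil
        have n2 : (Sum.inl i : TV t) ≠ h' := by simp [hh']
        have n3 : (Sum.inl i : TV t) ≠ Sum.inl a := by simpa using hia
        by_cases hix : i = x
        · subst hix
          simp only [typeOf, hsx, mul_one, add_zero, dupE_of_ne n2 n3, dupE_of_ne n2 n1]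
          exact dup_add_self _
        · have n4 : (Sum.inl i : TV t) ≠ Sum.inl x := by simpa using hix
          simp [typeOf, dupE_of_ne n2 n3, dupE_of_ne n2 n1, dupE_of_ne n1 n4, dupE_of_ne n4 n2]
  · set h : TV t := Sum.inr (H l hlx hly) with hh
    have t1 : tAdj (Sum.inl l : TV t) h = true := hHm _ _ _
    have t2 : tAdj h (Sum.inl x) = true := sy (hHx _ _ _)
    have t3 : tAdj (Sum.inl y : TV t) h = true := hHy _ _ _
    refine ⟨fun a' => dupE (Sum.inl l) h (Sum.inl l) a', fun a hal => ?_⟩
    have m1 : (Sum.inl l : TV t) ≠ Sum.inl x := by simpa using hlx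
    have m2 : (Sum.inl l : TV t) ≠ h := by simp [hh]
    have m3 : (Sum.inl l : TV t) ≠ Sum.inl a := by simpa using hal.symm
    have m4 : (Sum.inl l : TV t) ≠ Sum.inl y := by simpa using hly
    by_cases haxy : a = x ∨ a = y
    · have t4 : tAdj h (Sum.inl a) = true := by
        rcases haxy with rfl | rfl
        · exact t2
        · exact sy t3
      refine ⟨_, dupPat_of C L s hs
        (fun b b' => dupE (Sum.inl l) h b b' + dupE h (Sum.inl a) b b')
        (fun _ _ => 0) ?_ ?_ ?_ l a ?_ ?_, ?_, ?_⟩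
      · intro b b'; simp only [dupE_symm _ _ b b']
      · intro b b'; rfl
      · intro b b' _; rfl
      · intro b
        rw [dupBd_add, dupBd_E _ _ t1, dupBd_E _ _ t4]
        linear_combination dup_add_self (dupI b h)
      · intro b; simp [dupBd]
      · funext a'
        simp only [typeOf, zero_mul, add_zero, dupE_of_ne m2 m3]
      · intro i hia hil
        funext a'
        have n1 : (Sum.inl i : TV t) ≠ Sum.inl l := by simpa using hil
        have n2 : (Sum.inl i : TV t) ≠ h := by simp [hh]
        have n3 : (Sum.inl i : TV t) ≠ Sum.inl a := by simpa using hia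
        simp [typeOf, dupE_of_ne n2 n3, dupE_of_ne n1 n2]
    · have hax : a ≠ x := fun h => haxy (Or.inl h)
      have hay : a ≠ y := fun h => haxy (Or.inr h)
      set h' : TV t := Sum.inr (H a hax hay) with hh'
      have t5 : tAdj (Sum.inl x : TV t) h' = true := hHx _ _ _
      have t6 : tAdj h' (Sum.inl a) = true := sy (hHm _ _ _)
      have t7 : tAdj h' (Sum.inl y) = true := sy (hHy _ _ _)
      refine ⟨_, dupPat_of C L s hs
        (fun b b' => dupE (Sum.inl l) h b b' + dupE h (Sum.inl x) b b' + dupE (Sum.inl x) h' b b'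
          + dupE h' (Sum.inl a) b b')
        (fun b b' => dupE h (Sum.inl x) b b' + dupE (Sum.inl x) h' b b'
          + dupE h' (Sum.inl y) b b' + dupE (Sum.inl y) h b b') ?_ ?_ ?_ l a ?_ ?_, ?_, ?_⟩
      · intro b b'; simp only [dupE_symm _ _ b b']
      · intro b b'; simp only [dupE_symm _ _ b b']
      · intro b b' hb
        have n1 : b ≠ Sum.inl y := fun h => hb (h ▸ hLy)
        have n2 : b ≠ Sum.inl x := fun h => hb (h ▸ hLx)
        have n3 : b ≠ h' := fun h => hb (h ▸ hLH _ _ _)
        have n4 : b ≠ h := fun h => hb (h ▸ hLH _ _ _)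
        simp [dupE_of_ne n4 n2, dupE_of_ne n2 n3, dupE_of_ne n3 n1, dupE_of_ne n1 n4]
      · intro b
        rw [dupBd_add, dupBd_add, dupBd_add, dupBd_E _ _ t1, dupBd_E _ _ t2, dupBd_E _ _ t5,
          dupBd_E _ _ t6]
        linear_combination dup_add_self (dupI b (Sum.inl x)) + dup_add_self (dupI b h')
          + dup_add_self (dupI b h)
      · intro b
        rw [dupBd_add, dupBd_add, dupBd_add, dupBd_E _ _ t2, dupBd_E _ _ t5, dupBd_E _ _ t7,
          dupBd_E _ _ t3]
        linear_combination dup_add_self (dupI b (Sum.inl x)) + dup_add_self (dupI b h')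
          + dup_add_self (dupI b h) + dup_add_self (dupI b (Sum.inl y))
      · funext a'
        have m5 : (Sum.inl l : TV t) ≠ h' := by simp [hh']
        simp [typeOf, dupE_of_ne m2 m1, dupE_of_ne m1 m5, dupE_of_ne m5 m3, dupE_of_ne m5 m4,
          dupE_of_ne m4 m2]
      · intro i hia hil
        funext a'
        have n1 : (Sum.inl i : TV t) ≠ Sum.inl l := by simpa using hil
        have n2 : (Sum.inl i : TV t) ≠ h' := by simp [hh']
        have n3 : (Sum.inl i : TV t) ≠ Sum.inl a := by simpa using hia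
        have n5 : (Sum.inl i : TV t) ≠ h := by simp [hh]
        by_cases hix : i = x
        · subst hix
          have n6 : (Sum.inl i : TV t) ≠ Sum.inl y := by simpa using hxy
          simp only [typeOf, hsx, mul_one, add_zero, zero_add, dupE_of_ne n2 n3, dupE_of_ne n1 n5,
            dupE_of_ne n2 n6, dupE_of_ne n6 n5]
          exact dup_add_self _
        · have n4 : (Sum.inl i : TV t) ≠ Sum.inl x := by simpa using hix
          by_cases hiy : i = y
          · subst hiy
            simp only [typeOf, hsy, mul_zero, add_zero, dupE_of_ne n2 n3,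
              dupE_of_ne n1 n5, dupE_of_ne n5 n4, dupE_of_ne n4 n2]
          · have n6 : (Sum.inl i : TV t) ≠ Sum.inl y := by simpa using hiy
            simp [typeOf, dupE_of_ne n2 n3, dupE_of_ne n1 n5, dupE_of_ne n5 n4, dupE_of_ne n4 n2,
              dupE_of_ne n2 n6, dupE_of_ne n6 n5]

end Crest.Agent.R290
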