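import Crest.Agent.R290.PLDupAux

/-!
Row 290.  The key lemma on flip patterns for an unsuccessful choice (auxiliary file for `PLDup`).
-/

set_option autoImplicit false

namespace Crest.Agent.R290

open Finset Crest.WLRefine Crest.WLRefine.ParityLift

variable {t : ℕ}

/-- The label of a base vertex for the pair `(i, j)`. -/
def dupLab (C : ChoiceSystem t) (i j : Fin t) : BV C → ℕ
  | Sum.inl p =>
      if e : p.1 = i then (C.lamL i j (Fin.cast (congrArg C.dom e) p.2)).val
      else if e : p.1 = j then (C.lamR i j (Fin.cast (congrArg C.dom e) p.2)).val else 0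
  | Sum.inr hq => hq.2.val

/-- The label region of the pair `(i, j)`. -/
def dupL (i j : Fin t) (a : TV t) : Prop :=
  a = Sum.inl i ∨ a = Sum.inl j ∨ ∃ h : Helper t, a = Sum.inr h ∧ h.1.1 = i ∧ h.1.2.1 = j

theorem dupLab_left (C : ChoiceSystem t) (i j : Fin t) (x : Fin (C.dom i)) :
    dupLab C i j (Sum.inl ⟨i, x⟩) = (C.lamL i j x).val := by
  simp [dupLab]

theorem dupLab_right (C : ChoiceSystem t) {i j : Fin t} (hij : i < j) (x : Fin (C.dom j)) :
    dupLab C i j (Sum.inl ⟨j, x⟩) = (C.lamR i j x).val := by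
  simp [dupLab, hij.ne']

theorem dupLab_main (C : ChoiceSystem t) {i j : Fin t} (hij : i < j)
    (p q : Σ i : Fin t, Fin (C.dom i)) (h : mainAgree C p q = true)
    (hp : dupL i j (Sum.inl p.1)) (hq : dupL i j (Sum.inl q.1)) :
    dupLab C i j (Sum.inl p) = dupLab C i j (Sum.inl q) := by
  obtain ⟨k, x⟩ := p
  obtain ⟨m, y⟩ := q
  simp only [mainAgree, decide_eq_true_eq] at h
  obtain ⟨hlt, he⟩ := h
  simp only [dupL, Sum.inl.injEq, reduceCtorEq, false_and, exists_false, or_false] at hp hq
  have hk : k = i := by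
    rcases hp with hp | hp
    · exact hp
    · rcases hq with hq | hq
      · subst hp; subst hq; exact absurd hlt (not_lt.mpr hij.le)
      · subst hp; subst hq; exact absurd hlt (lt_irrefl _)
  have hm : m = j := by
    rcases hq with hq | hq
    · subst hk; subst hq; exact absurd hlt (lt_irrefl _)
    · exact hq
  subst hk; subst hm
  rw [dupLab_left, dupLab_right C hij, he]

theorem dupLab_helper (C : ChoiceSystem t) {i j : Fin t} (hij : i < j)
    (p : Σ i : Fin t, Fin (C.dom i)) (hq : Σ h : Helper t, Fin (C.lab h.1.1 h.1.2.1))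
    (h : helperAgree C p hq = true)
    (hp : dupL i j (Sum.inl p.1)) (hh : dupL i j (Sum.inr hq.1)) :
    dupLab C i j (Sum.inl p) = dupLab C i j (Sum.inr hq) := by
  obtain ⟨k, x⟩ := p
  obtain ⟨⟨⟨a, b, c⟩, h1, h2, h3⟩, q⟩ := hq
  simp only [dupL, Sum.inl.injEq, reduceCtorEq, false_and, exists_false, or_false, false_or,
    Sum.inr.injEq, exists_eq_left'] at hp hh
  obtain ⟨rfl, rfl⟩ := hh
  simp only [helperAgree, decide_eq_true_eq] at h
  rcases h with ⟨e, he⟩ | ⟨e, he⟩ | e
  · have e' : k = a := e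
    subst e'
    rw [dupLab_left]
    exact (congrArg Fin.val he).symm
  · have e' : k = b := e
    subst e'
    rw [dupLab_right C hij]
    exact (congrArg Fin.val he).symm
  · have e' : k = c := e
    subst e'
    rcases hp with hp | hp
    · exact absurd hp h2
    · exact absurd hp h3

theorem dupLab_adj (C : ChoiceSystem t) {i j : Fin t} (hij : i < j) (u v : BV C)
    (h : bAdj C u v = true) (hu : dupL i j (typeOf C u)) (hv : dupL i j (typeOf C v)) :
    dupLab C i j u = dupLab C i j v := by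
  rcases u with p | p <;> rcases v with q | q
  · simp only [bAdj, Bool.or_eq_true] at h
    rcases h with h | h
    · exact dupLab_main C hij p q h hu hv
    · exact (dupLab_main C hij q p h hv hu).symm
  · exact dupLab_helper C hij p q h hu hv
  · exact (dupLab_helper C hij q p h hv hu).symm
  · simp [bAdj] at h

theorem dup_key (C : ChoiceSystem t) (hC : ¬ C.Successful) (d : (i : Fin t) → Fin (C.dom i))
    (l : Fin t) :
    ∃ e : TV t → ZMod 2, ∀ a, a ≠ l → ∃ φ : BV C → TV t → ZMod 2, DupPat C φ l a ∧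
      φ (Sum.inl ⟨l, d l⟩) = e ∧ ∀ i, i ≠ a → i ≠ l → φ (Sum.inl ⟨i, d i⟩) = fun _ => 0 := by
  unfold ChoiceSystem.Successful at hC
  push Not at hC
  obtain ⟨i, j, hij, hne⟩ := hC d
  have hne' : (C.lamL i j (d i)).val ≠ (C.lamR i j (d j)).val := fun h => hne (Fin.ext h)
  by_cases hl : l = i
  · refine dup_key_abs C d j i hij.ne' (dupL i j)
      (fun u => if dupLab C i j u = (C.lamR i j (d j)).val then 1 else 0)
      (fun u v h hu hv => by rw [dupLab_adj C hij u v h hu hv])
      (fun m h1 h2 => ⟨(i, j, m), hij, h2, h1⟩) ?_ ?_ ?_ ?_ ?_ ?_ ?_ ?_ l (hl ▸ hij.ne)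
    · intro m h1 h2; simp [tAdj]
    · intro m h1 h2; simp [tAdj]
    · intro m h1 h2; simp [tAdj]
    · exact Or.inr (Or.inl rfl)
    · exact Or.inl rfl
    · intro m h1 h2; exact Or.inr (Or.inr ⟨_, rfl, rfl, rfl⟩)
    · simp [dupLab_right C hij]
    · simp [dupLab_left, hne']
  · refine dup_key_abs C d i j hij.ne (dupL i j)
      (fun u => if dupLab C i j u = (C.lamL i j (d i)).val then 1 else 0)
      (fun u v h hu hv => by rw [dupLab_adj C hij u v h hu hv])
      (fun m h1 h2 => ⟨(i, j, m), hij, h1, h2⟩) ?_ ?_ ?_ ?_ ?_ ?_ ?_ ?_ l hl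
    · intro m h1 h2; simp [tAdj]
    · intro m h1 h2; simp [tAdj]
    · intro m h1 h2; simp [tAdj]
    · exact Or.inl rfl
    · exact Or.inr (Or.inl rfl)
    · intro m h1 h2; exact Or.inr (Or.inr ⟨_, rfl, rfl, rfl⟩)
    · simp [dupLab_left]
    · simp [dupLab_right C hij, hne'.symm]

end Crest.Agent.R290
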