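import Crest.Agent.R290.PebUnion
import Crest.Agent.R290.PLDup
import Crest.Agent.R290.PebBasic

/-!
Row 290.  The number of homomorphisms from the template is read off early colour histograms.
-/

set_option autoImplicit false

namespace Crest.Agent.R290

open Finset Crest.WLRefine Crest.WLRefine.ParityLift

variable {n m k : ℕ} {G : Fin n → Fin n → Bool} {H : Fin m → Fin m → Bool}

theorem homCount_iso {t : ℕ} {V W : Type} [Fintype V] [Fintype W] {A : V → V → Bool}
    {B : W → W → Bool} (h : Iso A B) : homCount t A = homCount t B := by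
  classical
  obtain ⟨e, he⟩ := h
  unfold homCount
  refine card_equiv (Equiv.arrowCongr (Equiv.refl _) e) fun φ => ?_
  simp only [mem_filter, mem_univ, true_and, Equiv.arrowCongr_apply, Equiv.coe_refl,
    Equiv.refl_symm, Function.comp_apply, id_eq, he]

theorem plh_equiv_of_map_eq {A B C : Type} [Fintype A] [Fintype B] {f : A → C} {g : B → C}
    (h : (univ : Finset A).val.map f = (univ : Finset B).val.map g) :
    ∃ π : A ≃ B, ∀ x, f x = g (π x) := by
  classical
  have hc : ∀ c, Fintype.card {a // f a = c} = Fintype.card {b // g b = c} := by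
    intro c
    have h1 := congrArg (Multiset.count c) h
    rw [Multiset.count_map, Multiset.count_map] at h1
    rw [Fintype.card_subtype, Fintype.card_subtype]
    simp only [Finset.card_def, Finset.filter_val]
    simpa only [eq_comm] using h1
  exact ⟨Equiv.ofFiberEquiv fun c => Fintype.equivOfCardEq (hc c),
    fun x => (Equiv.ofFiberEquiv_map _ x).symm⟩

section general

variable {V W : Type} [Fintype V] [Fintype W]

/-- The set of two-sided common neighbours of three vertices. -/
def plhCn (X : V → V → Bool) (a b c : V) : Finset V :=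
  univ.filter fun z => (X a z = true ∧ X z a = true) ∧ (X b z = true ∧ X z b = true) ∧
    (X c z = true ∧ X z c = true)

/-- The number of template homomorphisms with prescribed images of the mains. -/
noncomputable def plhWt (X : V → V → Bool) {t : ℕ} (u : Fin t → V) : ℕ := by
  classical
  exact if ∀ i j, i ≠ j → X (u i) (u j) = true then
    ∏ h : Helper t, (plhCn X (u h.1.1) (u h.1.2.1) (u h.1.2.2)).card else 0

theorem plh_homCount_eq (t : ℕ) (X : V → V → Bool) :
    homCount t X = ∑ u : Fin t → V, plhWt X u := by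
  classical
  unfold homCount
  rw [card_eq_sum_card_fiberwise (f := fun φ : TV t → V => fun i => φ (Sum.inl i))
    (t := univ) (fun _ _ => mem_coe.2 (mem_univ _))]
  refine sum_congr rfl fun u _ => ?_
  unfold plhWt
  split_ifs with hu
  · rw [← Fintype.card_piFinset]
    refine card_bij' (fun φ _ => fun h => φ (Sum.inr h)) (fun g _ => Sum.elim u g) ?_ ?_ ?_ ?_
    · intro φ hφ
      simp only [mem_filter, mem_univ, true_and] at hφ
      obtain ⟨h1, rfl⟩ := hφ
      rw [Fintype.mem_piFinset]
      intro h
      simp only [plhCn, mem_filter, mem_univ, true_and]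
      exact ⟨⟨h1 _ _ (by simp [tAdj]), h1 _ _ (by simp [tAdj])⟩,
        ⟨h1 _ _ (by simp [tAdj]), h1 _ _ (by simp [tAdj])⟩,
        ⟨h1 _ _ (by simp [tAdj]), h1 _ _ (by simp [tAdj])⟩⟩
    · intro g hg
      rw [Fintype.mem_piFinset] at hg
      simp only [plhCn, mem_filter, mem_univ, true_and] at hg ⊢
      refine ⟨fun a a' haa => ?_, rfl⟩
      rcases a with i | h <;> rcases a' with j | h'
      · exact hu i j (by simpa [tAdj] using haa)
      · simp only [tAdj, decide_eq_true_eq] at haa
        rcases haa with rfl | rfl | rfl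
        · exact (hg h').1.1
        · exact (hg h').2.1.1
        · exact (hg h').2.2.1
      · simp only [tAdj, decide_eq_true_eq] at haa
        rcases haa with rfl | rfl | rfl
        · exact (hg h).1.2
        · exact (hg h).2.1.2
        · exact (hg h).2.2.2
      · simp [tAdj] at haa
    · intro φ hφ
      simp only [mem_filter, mem_univ, true_and] at hφ
      obtain ⟨-, rfl⟩ := hφ
      funext a
      rcases a with i | h <;> rfl
    · intro g _
      rfl
  · rw [card_eq_zero, filter_eq_empty_iff]
    intro φ hφ h2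
    simp only [mem_filter, mem_univ, true_and] at hφ
    subst h2
    exact hu fun i j hij => hφ _ _ (by simpa [tAdj] using hij)

/-- Two tuples look the same as far as the weight is concerned. -/
def PlhLoc (X : V → V → Bool) (Y : W → W → Bool) {t : ℕ} (u : Fin t → V) (v : Fin t → W) : Prop :=
  (∀ i j, X (u i) (u j) = Y (v i) (v j)) ∧
    ∀ i j l, (plhCn X (u i) (u j) (u l)).card = (plhCn Y (v i) (v j) (v l)).card

theorem PlhLoc.wt_eq {X : V → V → Bool} {Y : W → W → Bool} {t : ℕ} {u : Fin t → V}
    {v : Fin t → W} (h : PlhLoc X Y u v) : plhWt X u = plhWt Y v := by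
  unfold plhWt
  simp only [h.1, h.2]

/-- The weight of a tuple summed over one more main. -/
noncomputable def plhWt' (X : V → V → Bool) {t : ℕ} (u : Fin t → V) : ℕ :=
  ∑ z, plhWt X (Fin.snoc u z : Fin (t + 1) → V)

theorem plh_homCount_succ_eq (t : ℕ) (X : V → V → Bool) :
    homCount (t + 1) X = ∑ u : Fin t → V, plhWt' X u := by
  classical
  rw [plh_homCount_eq, ← (Fin.snocEquiv fun _ => V).sum_comp, Fintype.sum_prod_type, sum_comm]
  rfl

/-- An embedding onto a union of components. -/
structure PlhEmb (X : V → V → Bool) (Y : W → W → Bool) (ι : V → W) : Prop where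
  inj : Function.Injective ι
  adj : ∀ a b, Y (ι a) (ι b) = X a b
  closed : ∀ a z, Y (ι a) z = true → ∃ b, ι b = z

theorem PlhEmb.loc {X : V → V → Bool} {Y : W → W → Bool} {ι : V → W} (h : PlhEmb X Y ι) {t : ℕ}
    (u : Fin t → V) : PlhLoc X Y u (ι ∘ u) := by
  refine ⟨fun i j => (h.adj _ _).symm, fun i j l => ?_⟩
  refine card_bij (fun z _ => ι z) ?_ (fun a _ b _ hab => h.inj hab) ?_
  · intro z hz
    simpa only [plhCn, mem_filter, mem_univ, true_and, Function.comp_apply, h.adj] using hz
  · intro z hz
    simp only [plhCn, mem_filter, mem_univ, true_and, Function.comp_apply] at hz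
    obtain ⟨b, rfl⟩ := h.closed _ _ hz.1.1
    exact ⟨b, by simpa only [plhCn, mem_filter, mem_univ, true_and, h.adj] using hz, rfl⟩

theorem PlhEmb.wt' {X : V → V → Bool} {Y : W → W → Bool} {ι : V → W} (h : PlhEmb X Y ι) {t : ℕ}
    (ht : 0 < t) (u : Fin t → V) : plhWt' X u = plhWt' Y (ι ∘ u) := by
  classical
  unfold plhWt'
  refine sum_of_injOn ι h.inj.injOn (fun _ _ => mem_univ _) (fun z _ hz => ?_) (fun z _ => ?_)
  · unfold plhWt
    rw [if_neg]
    intro hc
    have := hc (Fin.castSucc ⟨0, ht⟩) (Fin.last t) (Fin.castSucc_ne_last _)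
    simp only [Fin.snoc_castSucc, Fin.snoc_last, Function.comp_apply] at this
    obtain ⟨b, rfl⟩ := h.closed _ _ this
    exact hz ⟨b, mem_coe.2 (mem_univ _), rfl⟩
  · rw [(h.loc _).wt_eq, Fin.comp_snoc]

end general

theorem plh_emb_inl (G : Fin n → Fin n → Bool) (H : Fin m → Fin m → Bool) :
    PlhEmb G (asMatrix (unionAdj G H)) (Fintype.equivFin _ ∘ Sum.inl) := by
  refine ⟨(Fintype.equivFin _).injective.comp Sum.inl_injective, fun a b => ?_, fun a z hz => ?_⟩
  · simp [asMatrix, unionAdj]
  · obtain ⟨z, rfl⟩ := (Fintype.equivFin (Fin n ⊕ Fin m)).surjective z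
    rcases z with z | z
    · exact ⟨z, rfl⟩
    · simp [asMatrix, unionAdj] at hz

theorem plh_emb_inr (G : Fin n → Fin n → Bool) (H : Fin m → Fin m → Bool) :
    PlhEmb H (asMatrix (unionAdj G H)) (Fintype.equivFin _ ∘ Sum.inr) := by
  refine ⟨(Fintype.equivFin _).injective.comp Sum.inr_injective, fun a b => ?_, fun a z hz => ?_⟩
  · simp [asMatrix, unionAdj]
  · obtain ⟨z, rfl⟩ := (Fintype.equivFin (Fin n ⊕ Fin m)).surjective z
    rcases z with z | z
    · simp [asMatrix, unionAdj] at hz
    · exact ⟨z, rfl⟩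

theorem plh_free (hk : 4 ≤ k) {α : Type} [DecidableEq α] (f : Fin k → α)
    (hf : Function.Injective f) (a b c : α) : ∃ i, f i ≠ a ∧ f i ≠ b ∧ f i ≠ c := by
  by_contra hcon
  push Not at hcon
  have h1 : (univ : Finset (Fin k)).card ≤ ({a, b, c} : Finset α).card :=
    card_le_card_of_injOn f (fun i _ => by
      by_cases h1 : f i = a
      · simp [h1]
      by_cases h2 : f i = b
      · simp [h2]
      simp [hcon i h1 h2]) hf.injOn
  have h2 : ({a, b, c} : Finset α).card ≤ 3 := card_le_three
  rw [card_univ, Fintype.card_fin] at h1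
  omega

theorem plh_loc_of (hk : 4 ≤ k) {u : Fin k → Fin n} {v : Fin k → Fin m}
    (h0 : atomicType G u = atomicType H v)
    (h1 : ∀ c, ∃ π : Fin n ≃ Fin m, ∀ z, atomicType G (Function.update u c z) =
      atomicType H (Function.update v c (π z))) : PlhLoc G H u v := by
  refine ⟨fun i j => congrFun (congrFun (congrArg Prod.snd h0) i) j, fun i j l => ?_⟩
  obtain ⟨c, hi, hj, hl⟩ := plh_free hk id Function.injective_id i j l
  obtain ⟨π, hπ⟩ := h1 c
  have ha : ∀ z a, c ≠ a → G (u a) z = H (v a) (π z) ∧ G z (u a) = H (π z) (v a) := by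
    intro z a ha
    have h2 := congrFun (congrFun (congrArg Prod.snd (hπ z)) a) c
    have h3 := congrFun (congrFun (congrArg Prod.snd (hπ z)) c) a
    simp only [atomicType, Function.update_self, Function.update_of_ne ha.symm] at h2 h3
    exact ⟨h2, h3⟩
  refine card_equiv π fun z => ?_
  simp only [plhCn, mem_filter, mem_univ, true_and, (ha z i hi).1, (ha z i hi).2, (ha z j hj).1,
    (ha z j hj).2, (ha z l hl).1, (ha z l hl).2]

theorem plh_loc_of_s (hk : 4 ≤ k) {u : Fin k → Fin n} {v : Fin k → Fin m}
    (h : scolor G k 1 u = scolor H k 1 v) : PlhLoc G H u v :=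
  plh_loc_of hk (congrArg Prod.fst h) fun c =>
    plh_equiv_of_map_eq (f := fun z => atomicType G (Function.update u c z))
      (g := fun z => atomicType H (Function.update v c z)) (congrFun (congrArg Prod.snd h) c)

theorem plh_loc_of_j (hk : 4 ≤ k) {u : Fin k → Fin n} {v : Fin k → Fin m}
    (h : jcolor G k 1 u = jcolor H k 1 v) : PlhLoc G H u v := by
  obtain ⟨π, hπ⟩ := plh_equiv_of_map_eq
    (f := fun z => fun i => atomicType G (Function.update u i z))
    (g := fun z => fun i => atomicType H (Function.update v i z)) (congrArg Prod.snd h)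
  exact plh_loc_of hk (congrArg Prod.fst h) fun c => ⟨π, fun z => congrFun (hπ z) c⟩

theorem plh_snoc_update {α : Type} (u : Fin k → α) (z : α) (c : Fin k) (a : Fin (k + 1))
    (ha : Fin.castSucc c ≠ a) :
    (Fin.snoc u z : Fin (k + 1) → α) a = Function.update u c z (Fin.lastCases c id a) := by
  induction a using Fin.lastCases with
  | last => simp
  | cast a =>
    have : a ≠ c := fun h => ha (by rw [h])
    simp [Function.update_of_ne this]

theorem plh_wt'_of_j (hk : 4 ≤ k) {u : Fin k → Fin n} {v : Fin k → Fin m}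
    (h : jcolor G k 2 u = jcolor H k 2 v) : plhWt' G u = plhWt' H v := by
  obtain ⟨π, hπ⟩ := plh_equiv_of_map_eq
    (f := fun z => fun i => jcolor G k 1 (Function.update u i z))
    (g := fun z => fun i => jcolor H k 1 (Function.update v i z)) (congrArg Prod.snd h)
  have hl : ∀ z c, PlhLoc G H (Function.update u c z) (Function.update v c (π z)) := fun z c =>
    plh_loc_of_j hk (congrFun (hπ z) c)
  unfold plhWt'
  refine Fintype.sum_equiv π _ _ fun z => PlhLoc.wt_eq ⟨fun i j => ?_, fun i j l => ?_⟩
  · obtain ⟨c, hi, hj, -⟩ := plh_free hk Fin.castSucc (Fin.castSucc_injective k) i j j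
    rw [plh_snoc_update u z c i hi, plh_snoc_update u z c j hj, plh_snoc_update v _ c i hi,
      plh_snoc_update v _ c j hj]
    exact (hl z c).1 _ _
  · obtain ⟨c, hi, hj, hl'⟩ := plh_free hk Fin.castSucc (Fin.castSucc_injective k) i j l
    rw [plh_snoc_update u z c i hi, plh_snoc_update u z c j hj, plh_snoc_update u z c l hl',
      plh_snoc_update v _ c i hi, plh_snoc_update v _ c j hj, plh_snoc_update v _ c l hl']
    exact (hl z c).2 _ _ _

theorem homCount_eq_of_jhist (hk : 4 ≤ k) (hG : IsSimple G) (hH : IsSimple H)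
    (h : (univ : Finset (Fin k → Fin n)).val.map (jcolor G k 2) =
      (univ : Finset (Fin k → Fin m)).val.map (jcolor H k 2)) :
    homCount (k + 1) G = homCount (k + 1) H := by
  have _ := hG
  have _ := hH
  obtain ⟨π, hπ⟩ := plh_equiv_of_map_eq h
  rw [plh_homCount_succ_eq, plh_homCount_succ_eq]
  exact Fintype.sum_equiv π _ _ fun u => plh_wt'_of_j hk (hπ u)

theorem homCount_eq_of_pureJ (hk : 4 ≤ k) (hG : IsSimple G) (hH : IsSimple H)
    (h : PureJHistEq k 2 G H) : homCount (k + 1) G = homCount (k + 1) H := by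
  have _ := hG
  have _ := hH
  obtain ⟨π, hπ⟩ := plh_equiv_of_map_eq h
  rw [plh_homCount_succ_eq, plh_homCount_succ_eq]
  refine Fintype.sum_equiv π _ _ fun u => ?_
  rw [(plh_emb_inl G H).wt' (by omega), (plh_emb_inr G H).wt' (by omega)]
  exact plh_wt'_of_j hk (hπ u)

theorem homCount_eq_of_shist (hk : 4 ≤ k) (hG : IsSimple G) (hH : IsSimple H)
    (h : (univ : Finset (Fin k → Fin n)).val.map (scolor G k 1) =
      (univ : Finset (Fin k → Fin m)).val.map (scolor H k 1)) :
    homCount k G = homCount k H := by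
  have _ := hG
  have _ := hH
  obtain ⟨π, hπ⟩ := plh_equiv_of_map_eq h
  rw [plh_homCount_eq, plh_homCount_eq]
  exact Fintype.sum_equiv π _ _ fun u => (plh_loc_of_s hk (hπ u)).wt_eq

theorem homCount_eq_of_pureS (hk : 4 ≤ k) (hG : IsSimple G) (hH : IsSimple H)
    (h : PureSHistEq k 1 G H) : homCount k G = homCount k H := by
  have _ := hG
  have _ := hH
  obtain ⟨π, hπ⟩ := plh_equiv_of_map_eq h
  rw [plh_homCount_eq, plh_homCount_eq]
  refine Fintype.sum_equiv π _ _ fun u => ?_
  rw [((plh_emb_inl G H).loc u).wt_eq, ((plh_emb_inr G H).loc (π u)).wt_eq]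
  exact (plh_loc_of_s hk (hπ u)).wt_eq

end Crest.Agent.R290
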