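import Crest.Agent.R290.DefsRed

/-!
Row 290.  The rule list is produced in polynomial time.
-/

set_option autoImplicit false

namespace Crest.Agent.R290

open Crest.Agent.Lib.PT

variable {α : Type} [Enc α]

section Acc

variable {τ : α → TabD}

@[fun_prop] theorem ptTab_a (hτ : PT τ) : PT (fun a => (τ a).a) := by
  unfold TabD.a; fun_prop

@[fun_prop] theorem pbTab_a (hτ : PT τ) : PB (fun a => (τ a).a) := by
  unfold TabD.a; exact PB.length hτ.fst

@[fun_prop] theorem ptTab_d (hτ : PT τ) : PT (fun a => (τ a).d) := by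
  unfold TabD.d; fun_prop

@[fun_prop] theorem pbTab_d (hτ : PT τ) : PB (fun a => (τ a).d) := by
  unfold TabD.d; exact PB.length hτ.snd.fst

@[fun_prop] theorem ptTab_i0 (hτ : PT τ) : PT (fun a => (τ a).i0) := hτ.snd.snd.fst

@[fun_prop] theorem ptTab_i1 (hτ : PT τ) : PT (fun a => (τ a).i1) := hτ.snd.snd.snd.fst

@[fun_prop] theorem ptTab_ib (hτ : PT τ) : PT (fun a => (τ a).ib) := hτ.snd.snd.snd.snd.fst

@[fun_prop] theorem ptTab_gates (hτ : PT τ) : PT (fun a => (τ a).gates) :=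
  hτ.snd.snd.snd.snd.snd.fst

@[fun_prop] theorem ptTab_outs (hτ : PT τ) : PT (fun a => (τ a).outs) :=
  hτ.snd.snd.snd.snd.snd.snd.fst

@[fun_prop] theorem ptTab_ow (hτ : PT τ) : PT (fun a => (τ a).ow) :=
  hτ.snd.snd.snd.snd.snd.snd.snd

@[fun_prop] theorem ptTab_nin (hτ : PT τ) : PT (fun a => (τ a).nin) := by
  unfold TabD.nin; fun_prop

end Acc

section Atoms

variable {j b : α → ℕ} {β : α → Bool}

@[fun_prop] theorem ptTab_val (hb : PT b) (hβ : PT β) : PT (fun a => Atom.val (b a) (β a)) :=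
  (PT.const 0).pair ((PT.const 0).pair (hb.pair hβ))

@[fun_prop] theorem ptTab_top (hj : PT j) (hb : PT b) (hβ : PT β) :
    PT (fun a => Atom.top (j a) (b a) (β a)) :=
  (PT.const 1).pair (hj.pair (hb.pair hβ))

@[fun_prop] theorem ptTab_lft (hj : PT j) (hb : PT b) (hβ : PT β) :
    PT (fun a => Atom.lft (j a) (b a) (β a)) :=
  (PT.const 2).pair (hj.pair (hb.pair hβ))

@[fun_prop] theorem ptTab_rgt (hj : PT j) (hb : PT b) (hβ : PT β) :
    PT (fun a => Atom.rgt (j a) (b a) (β a)) :=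
  (PT.const 3).pair (hj.pair (hb.pair hβ))

@[fun_prop] theorem ptTab_wire (hb : PT b) (hβ : PT β) : PT (fun a => Atom.wire (b a) (β a)) :=
  (PT.const 4).pair ((PT.const 0).pair (hb.pair hβ))

@[fun_prop] theorem ptTab_const (hj : PT j) (hb : PT b) : PT (fun a => Mode.const (j a) (b a)) :=
  (hj.pair hb).inr

end Atoms

theorem ptTab_bitRules {τ : α → TabD} {W b : α → ℕ} {β : α → Bool} (hτ : PT τ) (hW : PT W)
    (hb : PT b) (hβ : PT β) : PT (fun a => bitRules (τ a) (W a) (b a) (β a)) := by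
  unfold bitRules
  refine PT.append (PT.append (PT.append (PT.flatMap ?_ ?_) ?_) (PT.map ?_ ?_)) (PT.map ?_ ?_)
  · fun_prop
  · fun_prop
  · fun_prop
  · fun_prop
  · fun_prop
  · fun_prop
  · fun_prop

theorem pt_tabRules {τ : α → TabD} {x : α → List Bool} {W : α → ℕ} {flag : α → Bool} (hτ : PT τ)
    (hx : PT x) (hW : PT W) (hf : PT flag) :
    PT (fun a => tabRules (τ a) (x a) (W a) (flag a)) := by
  unfold tabRules
  refine PT.append (PT.append ?_ (PT.flatMap ?_ ?_)) (PT.flatMap ?_ ?_)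
  · fun_prop
  · fun_prop
  · refine PT.append (PT.append (PT.cons ?_ (PT.map ?_ ?_)) (ptTab_bitRules ?_ ?_ ?_ ?_))
      (ptTab_bitRules ?_ ?_ ?_ ?_) <;> fun_prop
  · fun_prop
  · fun_prop

theorem ptTab_pats {n h : α → ℕ} {μ : α → Mode} (hn : PT n) (hn' : PB n) (hh : PT h) (hh' : PB h)
    (hμ : PT μ) : PT (fun a => Mode.pats (n a) (h a) (μ a)) := by
  unfold Mode.pats
  refine PT.sumElim hμ (PT.optionElim ?_ ?_ ?_) (PT.ite ?_ (PT.cons (PT.map_mem ?_ ?_) ?_) ?_)
  · fun_prop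
  · fun_prop
  · fun_prop
  · fun_prop
  · fun_prop
  · have hb : PB (fun p : {p : (α × ℕ × ℕ) × ℕ // p.2 ∈ List.range (h p.1.1)} => p.1.2) :=
      (show PB (fun p : {p : (α × ℕ × ℕ) × ℕ // p.2 ∈ List.range (h p.1.1)} => h p.1.1.1) by
        fun_prop).of_le fun p => (List.mem_range.mp p.2).le
    fun_prop
  · fun_prop
  · fun_prop

theorem pt_gridRules {n h : α → ℕ} {gs : α → List (GRule Atom)} (hn : PT n) (hn' : PB n)
    (hh : PT h) (hh' : PB h) (hg : PT gs) : PT (fun a => gridRules (n a) (h a) (gs a)) := by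
  unfold gridRules
  refine PT.flatMap hg (PT.flatMap (ptTab_pats ?_ ?_ ?_ ?_ ?_)
    (PT.map (ptTab_pats ?_ ?_ ?_ ?_ ?_) ?_)) <;> fun_prop

theorem pt_rules : PT (fun I : Inp => I.rules) := by
  have hn : PT (fun I : Inp => I.n) := by unfold Inp.n; fun_prop
  have hn' : PB (fun I : Inp => I.n) := PB.length PT.id.snd.snd.snd.fst
  have hm : PT (fun I : Inp => I.m / 4) := by unfold Inp.m; fun_prop
  have hm' : PB (fun I : Inp => I.m / 4) := (PB.length PT.id.snd.snd.fst).div _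
  exact pt_gridRules hn hn' hm hm' (pt_tabRules PT.id.fst PT.id.snd.fst (hn.pow hm hm')
    PT.id.snd.snd.snd.snd)

end Crest.Agent.R290
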