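import Crest.Agent.R290.DefsRed
import Crest.Agent.R290.PebBasic

/-!
Row 290.  Deciding the pebble game by a greatest fixed point, in time polynomial in `2 ^ (n * n)`.
-/

set_option autoImplicit false

namespace Crest.Agent.R290

open Crest.Agent.Lib.PT

namespace PebDec

open Finset

/-- The pair `(u, v)` belongs to the position with number `c`. -/
def bt (n c u v : ℕ) : Bool := c.testBit (u * n + v)

/-- The position with number `c`. -/
def dec (n c : ℕ) : Finset (Fin n × Fin n) := univ.filter fun p => bt n c p.1 p.2 = true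

theorem mem_dec {n c : ℕ} {p : Fin n × Fin n} : p ∈ dec n c ↔ bt n c p.1 p.2 = true := by
  simp [dec]

theorem dec_zero (n : ℕ) : dec n 0 = ∅ := by
  ext p
  simp [mem_dec, bt]

theorem dec_surj {n : ℕ} (P : Finset (Fin n × Fin n)) : ∃ c < 2 ^ (n * n), dec n c = P := by
  refine ⟨Nat.ofBits fun i : Fin (n * n) => decide (∃ p ∈ P, (p.1 : ℕ) * n + p.2 = i),
    Nat.ofBits_lt_two_pow _, ?_⟩
  ext ⟨u, v⟩
  have hlt : (u : ℕ) * n + v < n * n := by
    have h1 := u.2
    have h2 := v.2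
    calc (u : ℕ) * n + v < (u + 1) * n := by rw [add_mul, one_mul]; omega
      _ ≤ n * n := Nat.mul_le_mul_right _ h1
  rw [mem_dec, bt, Nat.testBit_ofBits_lt _ _ hlt, decide_eq_true_iff]
  constructor
  · rintro ⟨⟨a, b⟩, hp, h⟩
    simp only at h
    have hn : 0 < n := u.pos
    have h1 : (b : ℕ) = v := by
      have := congrArg (· % n) h
      simpa [Nat.mod_eq_of_lt b.2, Nat.mod_eq_of_lt v.2] using this
    have h2 : (a : ℕ) = u := by
      rw [h1] at h
      exact Nat.eq_of_mul_eq_mul_right hn (by omega)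
    rwa [Fin.ext h1, Fin.ext h2] at hp
  · intro h
    exact ⟨_, h, rfl⟩

/-- The number of pairs of a position. -/
def cnt (n c : ℕ) : ℕ := ∑ u ∈ range n, ∑ v ∈ range n, if bt n c u v = true then 1 else 0

theorem card_dec (n c : ℕ) : (dec n c).card = cnt n c := by
  rw [dec, card_filter, Fintype.sum_prod_type, cnt,
    ← Fin.sum_univ_eq_sum_range (fun u => ∑ v ∈ range n, if bt n c u v = true then 1 else 0)]
  refine sum_congr rfl fun u _ => ?_
  rw [← Fin.sum_univ_eq_sum_range (fun v => if bt n c u v = true then 1 else 0)]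

def sub (n c' c : ℕ) : Bool := decide (∀ u < n, ∀ v < n, bt n c' u v = true → bt n c u v = true)

theorem sub_iff {n c' c : ℕ} : sub n c' c = true ↔ dec n c' ⊆ dec n c := by
  rw [sub, decide_eq_true_iff]
  constructor
  · intro h p hp
    exact mem_dec.2 (h _ p.1.2 _ p.2.2 (mem_dec.1 hp))
  · intro h u hu v hv hb
    exact mem_dec.1 (h ((mem_dec (p := (⟨u, hu⟩, ⟨v, hv⟩))).2 hb))

def ins (n c' c u v : ℕ) : Bool :=
  decide (∀ a < n, ∀ b < n, (bt n c' a b = true ↔ ((a = u ∧ b = v) ∨ bt n c a b = true)))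

theorem ins_iff {n c' c : ℕ} {u v : Fin n} :
    ins n c' c u v = true ↔ dec n c' = insert (u, v) (dec n c) := by
  rw [ins, decide_eq_true_iff]
  constructor
  · intro h
    ext ⟨a, b⟩
    rw [mem_insert, mem_dec, mem_dec, h _ a.2 _ b.2, Prod.mk.injEq, Fin.ext_iff, Fin.ext_iff]
  · intro h a ha b hb
    have := Finset.ext_iff.1 h (⟨a, ha⟩, ⟨b, hb⟩)
    rwa [mem_insert, mem_dec, mem_dec, Prod.mk.injEq, Fin.ext_iff, Fin.ext_iff] at this

set_option synthInstance.maxSize 1024 in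
def piso (n : ℕ) (A B : ℕ → ℕ → Bool) (c : ℕ) : Bool :=
  decide (∀ u < n, ∀ v < n, ∀ u' < n, ∀ v' < n, bt n c u v = true → bt n c u' v' = true →
    (u = u' ↔ v = v') ∧ A u u' = B v v')

set_option synthInstance.maxSize 1024 in
theorem piso_iff {n : ℕ} {A B : ℕ → ℕ → Bool} {c : ℕ} :
    piso n A B c = true ↔ ∀ a ∈ dec n c, ∀ b ∈ dec n c,
      (a.1 = b.1 ↔ a.2 = b.2) ∧ toMat n A a.1 b.1 = toMat n B a.2 b.2 := by
  rw [piso, decide_eq_true_iff]
  constructor
  · intro h a ha b hb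
    have := h _ a.1.2 _ a.2.2 _ b.1.2 _ b.2.2 (mem_dec.1 ha) (mem_dec.1 hb)
    rwa [Fin.ext_iff, Fin.ext_iff]
  · intro h u hu v hv u' hu' v' hv' h1 h2
    have := h (⟨u, hu⟩, ⟨v, hv⟩) (mem_dec.2 h1) (⟨u', hu'⟩, ⟨v', hv'⟩) (mem_dec.2 h2)
    rwa [Fin.ext_iff, Fin.ext_iff] at this

def bij (n g : ℕ) : Bool :=
  decide ((∀ u < n, ∃ v < n, bt n g u v = true) ∧
    ∀ u < n, ∀ u' < n, ∀ v < n, bt n g u v = true → bt n g u' v = true → u = u')

theorem bij_equiv {n g : ℕ} (h : bij n g = true) :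
    ∃ π : Fin n ≃ Fin n, ∀ z : Fin n, bt n g z (π z) = true := by
  rw [bij, decide_eq_true_iff] at h
  choose f hf hf' using fun z : Fin n => h.1 z z.2
  have hinj : Function.Injective fun z : Fin n => (⟨f z, hf z⟩ : Fin n) := by
    intro z z' hz
    have e : f z = f z' := congrArg Fin.val hz
    exact Fin.ext (h.2 _ z.2 _ z'.2 _ (hf z) (hf' z) (by rw [e]; exact hf' z'))
  exact ⟨Equiv.ofBijective _ (Finite.injective_iff_bijective.1 hinj), hf'⟩

def ext (n N : ℕ) (S : List ℕ) (c : ℕ) : Bool :=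
  decide (∃ g < N, bij n g = true ∧
    ∀ u < n, ∀ v < n, bt n g u v = true → ∃ c' ∈ S, ins n c' c u v = true)

def good (n K N : ℕ) (A B : ℕ → ℕ → Bool) (S : List ℕ) (c : ℕ) : Bool :=
  piso n A B c && decide (∀ c' < N, sub n c' c = true → c' ∈ S) &&
    (decide (K ≤ cnt n c) || ext n N S c)

def step (n K N : ℕ) (A B : ℕ → ℕ → Bool) (S : List ℕ) : List ℕ := S.filter (good n K N A B S)

theorem fix_or_len (g : List ℕ → ℕ → Bool) (S₀ : List ℕ) (k : ℕ) :
    (∀ c ∈ (fun S => S.filter (g S))^[k] S₀, g ((fun S => S.filter (g S))^[k] S₀) c = true) ∨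
      ((fun S => S.filter (g S))^[k] S₀).length + k ≤ S₀.length := by
  induction k with
  | zero => exact Or.inr le_rfl
  | succ k ih =>
    rw [Function.iterate_succ_apply']
    generalize (fun S => S.filter (g S))^[k] S₀ = S at ih ⊢
    by_cases h : ∀ c ∈ S, g S c = true
    · left
      rw [List.filter_eq_self.2 h]
      exact h
    · right
      have h1 : (S.filter (g S)).length < S.length := by
        rw [List.length_filter_lt_length_iff_exists]
        push Not at h
        exact h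
      have h2 := ih.resolve_left h
      omega

theorem peb_iff (n K : ℕ) (A B : ℕ → ℕ → Bool) :
    Peb K (toMat n A) (toMat n B) ↔
      0 ∈ (step n K (2 ^ (n * n)) A B)^[2 ^ (n * n) + 1] (List.range (2 ^ (n * n))) := by
  constructor
  · rintro ⟨F, hF⟩
    have key : ∀ k, ∀ c < 2 ^ (n * n), dec n c ∈ F →
        c ∈ (step n K (2 ^ (n * n)) A B)^[k] (List.range (2 ^ (n * n))) := by
      intro k
      induction k with
      | zero => intro c hc _; exact List.mem_range.2 hc
      | succ k ih =>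
        intro c hc hcF
        rw [Function.iterate_succ_apply', step, List.mem_filter]
        refine ⟨ih c hc hcF, ?_⟩
        simp only [good, Bool.and_eq_true, Bool.or_eq_true, decide_eq_true_iff]
        refine ⟨⟨piso_iff.2 fun a ha b hb => ⟨hF.eq _ hcF a ha b hb, hF.adj _ hcF a ha b hb⟩,
          fun c' hc' hs => ih c' hc' (hF.down _ hcF _ (sub_iff.1 hs))⟩, ?_⟩
        rcases le_or_gt K (cnt n c) with h | h
        · exact Or.inl h
        right
        obtain ⟨π, hπ⟩ := hF.ext _ hcF (by rwa [card_dec])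
        obtain ⟨g, hg, hgπ⟩ := dec_surj (univ.filter fun p : Fin n × Fin n => p.2 = π p.1)
        have hb : ∀ u v : Fin n, bt n g u v = true ↔ v = π u := by
          intro u v
          rw [← mem_dec (p := (u, v)), hgπ]
          simp
        rw [ext, decide_eq_true_iff]
        refine ⟨g, hg, ?_, fun u hu v hv huv => ?_⟩
        · rw [bij, decide_eq_true_iff]
          refine ⟨fun u hu => ⟨π ⟨u, hu⟩, (π _).2, (hb ⟨u, hu⟩ _).2 rfl⟩,
            fun u hu u' hu' v hv h1 h2 => ?_⟩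
          have e1 := (hb ⟨u, hu⟩ ⟨v, hv⟩).1 h1
          have e2 := (hb ⟨u', hu'⟩ ⟨v, hv⟩).1 h2
          exact congrArg Fin.val (π.injective (e1.symm.trans e2))
        · have e := (hb ⟨u, hu⟩ ⟨v, hv⟩).1 huv
          obtain ⟨c', hc', h'⟩ := dec_surj (insert (⟨u, hu⟩, ⟨v, hv⟩) (dec n c))
          refine ⟨c', ih c' hc' ?_, (ins_iff (u := ⟨u, hu⟩) (v := ⟨v, hv⟩)).2 h'⟩
          rw [h', e]
          exact hπ _
    exact key _ 0 (by positivity) (by rw [dec_zero]; exact hF.empty)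
  · intro h0
    have hfix := (fix_or_len (good n K (2 ^ (n * n)) A B) (List.range (2 ^ (n * n)))
      (2 ^ (n * n) + 1)).resolve_right (by rw [List.length_range]; omega)
    change ∀ c ∈ (step n K (2 ^ (n * n)) A B)^[2 ^ (n * n) + 1] (List.range (2 ^ (n * n))),
      good n K (2 ^ (n * n)) A B
        ((step n K (2 ^ (n * n)) A B)^[2 ^ (n * n) + 1] (List.range (2 ^ (n * n)))) c = true
      at hfix
    generalize (step n K (2 ^ (n * n)) A B)^[2 ^ (n * n) + 1] (List.range (2 ^ (n * n))) = S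
      at h0 hfix
    simp only [good, Bool.and_eq_true, Bool.or_eq_true, decide_eq_true_iff] at hfix
    refine ⟨{P | ∃ c ∈ S, dec n c = P}, ⟨0, h0, dec_zero n⟩, ?_, ?_, ?_, ?_⟩
    · rintro _ ⟨c, hc, rfl⟩ Q hQ
      obtain ⟨c', hc', rfl⟩ := dec_surj Q
      exact ⟨c', (hfix c hc).1.2 c' hc' (sub_iff.2 hQ), rfl⟩
    · rintro _ ⟨c, hc, rfl⟩ a ha b hb
      exact (piso_iff.1 (hfix c hc).1.1 a ha b hb).1
    · rintro _ ⟨c, hc, rfl⟩ a ha b hb
      exact (piso_iff.1 (hfix c hc).1.1 a ha b hb).2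
    · rintro _ ⟨c, hc, rfl⟩ hK
      rw [card_dec] at hK
      have he := (hfix c hc).2.resolve_left (by omega)
      rw [ext, decide_eq_true_iff] at he
      obtain ⟨g, -, hg, he⟩ := he
      obtain ⟨π, hπ⟩ := bij_equiv hg
      refine ⟨π, fun z => ?_⟩
      obtain ⟨c', hc', h'⟩ := he z z.2 (π z) (π z).2 (hπ z)
      exact ⟨c', hc', ins_iff.1 h'⟩

section pt

variable {α : Type} [Enc α]

@[fun_prop] theorem pt_bt {n c u v : α → ℕ} (hn : PT n) (hc : PT c) (hu : PT u) (hv : PT v) :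
    PT (fun a => bt (n a) (c a) (u a) (v a)) := by
  unfold bt; fun_prop

@[fun_prop] theorem pt_cnt {n c : α → ℕ} (hn : PT n) (hb : PB n) (hc : PT c) :
    PT (fun a => cnt (n a) (c a)) := by
  unfold cnt; fun_prop

@[fun_prop] theorem pt_sub {n c c' : α → ℕ} (hn : PT n) (hb : PB n) (hc : PT c) (hc' : PT c') :
    PT (fun a => sub (n a) (c' a) (c a)) := by
  unfold sub; fun_prop

@[fun_prop] theorem pt_ins {n c c' u v : α → ℕ} (hn : PT n) (hb : PB n) (hc : PT c) (hc' : PT c')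
    (hu : PT u) (hv : PT v) : PT (fun a => ins (n a) (c' a) (c a) (u a) (v a)) := by
  unfold ins; fun_prop

@[fun_prop] theorem pt_bij {n g : α → ℕ} (hn : PT n) (hb : PB n) (hg : PT g) :
    PT (fun a => bij (n a) (g a)) := by
  unfold bij; fun_prop

@[fun_prop] theorem pt_ext {n N c : α → ℕ} {S : α → List ℕ} (hn : PT n) (hb : PB n) (hN : PT N)
    (hNb : PB N) (hS : PT S) (hc : PT c) : PT (fun a => ext (n a) (N a) (S a) (c a)) := by
  unfold ext; fun_prop

set_option synthInstance.maxSize 1024 in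
theorem pt_piso {n c : α → ℕ} {A B : α → ℕ → ℕ → Bool} (hn : PT n) (hb : PB n) (hc : PT c)
    (hA : PT (fun p : α × ℕ × ℕ => A p.1 p.2.1 p.2.2))
    (hB : PT (fun p : α × ℕ × ℕ => B p.1 p.2.1 p.2.2)) :
    PT (fun a => piso (n a) (A a) (B a) (c a)) := by
  unfold piso; fun_prop

theorem pt_step {n K N : α → ℕ} {A B : α → ℕ → ℕ → Bool} (hn : PT n) (hb : PB n) (hK : PT K)
    (hN : PT N) (hNb : PB N)
    (hA : PT (fun p : α × ℕ × ℕ => A p.1 p.2.1 p.2.2))
    (hB : PT (fun p : α × ℕ × ℕ => B p.1 p.2.1 p.2.2)) :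
    PT (fun p : α × List ℕ => step (n p.1) (K p.1) (N p.1) (A p.1) (B p.1) p.2) := by
  have h1 : PT (fun q : (α × List ℕ) × ℕ => piso (n q.1.1) (A q.1.1) (B q.1.1) q.2) :=
    pt_piso (n := fun q : (α × List ℕ) × ℕ => n q.1.1) (c := fun q => q.2)
      (A := fun q => A q.1.1) (B := fun q => B q.1.1) (by fun_prop) (by fun_prop) (by fun_prop)
      (by fun_prop) (by fun_prop)
  unfold step good
  refine PT.filter (by fun_prop) (PT.and (PT.and h1 ?_) ?_) <;> fun_prop

end pt

end PebDec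

open Classical in
theorem pt_peb {α : Type} [Enc α] {n K : α → ℕ} {A B : α → ℕ → ℕ → Bool} (hn : PT n) (hK : PT K)
    (hb : PB (fun a => 2 ^ (n a * n a)))
    (hA : PT (fun p : α × ℕ × ℕ => A p.1 p.2.1 p.2.2))
    (hB : PT (fun p : α × ℕ × ℕ => B p.1 p.2.1 p.2.2)) :
    PT (fun a => decide (Peb (K a) (toMat (n a) (A a)) (toMat (n a) (B a)))) := by
  have hnn : PB (fun a => n a * n a) := hb.of_le fun a => Nat.lt_two_pow_self.le
  have hnb : PB n := hnn.of_le fun a => Nat.le_mul_self _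
  have hN : PT (fun a => 2 ^ (n a * n a)) := PT.pow (PT.const 2) (hn.mul hn) hnn
  have hr : PT (fun a => List.range (2 ^ (n a * n a))) := PT.range hN hb
  have hit : PT (fun a => (PebDec.step (n a) (K a) (2 ^ (n a * n a)) (A a) (B a))^[2 ^ (n a * n a) + 1]
      (List.range (2 ^ (n a * n a)))) :=
    PT.iterate_inv (f := fun a => PebDec.step (n a) (K a) (2 ^ (n a * n a)) (A a) (B a))
      (fun a S => sz S ≤ sz (List.range (2 ^ (n a * n a))))
      (fun a => sz (List.range (2 ^ (n a * n a))))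
      (PebDec.pt_step hn hnb hK hN hb hA hB) (hN.add (PT.const 1)) (hb.add (PB.const 1)) hr
      (PB.sz hr) (fun _ => le_rfl) (fun _ _ h => (sz_filter_le _ _).trans h) (fun _ _ h => h)
  refine (PT.decide_mem (PT.const 0) hit).congr fun a => ?_
  exact decide_eq_decide.2 (PebDec.peb_iff _ _ _ _)

end Crest.Agent.R290
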