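import Crest.Agent.R290.PebWL

/-!
Row 290.  The pebble game gives pure-tuple equivalence in the disjoint union.
-/

set_option autoImplicit false

namespace Crest.Agent.R290

open Finset Crest.WLRefine Crest.WLRefine.ParityLift

section PU

variable {V W X : Type} [DecidableEq V] [DecidableEq W] [DecidableEq X] [Fintype V] [Fintype W]

/-- The pairs of a position that go from the first part to the second part. -/
def puL (e : V ⊕ W ≃ X) (P : Finset (X × X)) : Finset (V × W) :=
  univ.filter fun a => (e (Sum.inl a.1), e (Sum.inr a.2)) ∈ P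

/-- The pairs of a position that go from the second part to the first part. -/
def puR (e : V ⊕ W ≃ X) (P : Finset (X × X)) : Finset (V × W) :=
  univ.filter fun a => (e (Sum.inr a.2), e (Sum.inl a.1)) ∈ P

theorem mem_puL {e : V ⊕ W ≃ X} {P : Finset (X × X)} {a : V × W} :
    a ∈ puL e P ↔ (e (Sum.inl a.1), e (Sum.inr a.2)) ∈ P := by
  simp [puL]

theorem mem_puR {e : V ⊕ W ≃ X} {P : Finset (X × X)} {a : V × W} :
    a ∈ puR e P ↔ (e (Sum.inr a.2), e (Sum.inl a.1)) ∈ P := by
  simp [puR]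

/-- The family of crossing positions on the union. -/
def puFam (e : V ⊕ W ≃ X) (F : Set (Finset (V × W))) : Set (Finset (X × X)) :=
  {P | (∀ a ∈ P, (∃ v w, a = (e (Sum.inl v), e (Sum.inr w))) ∨
      (∃ v w, a = (e (Sum.inr w), e (Sum.inl v)))) ∧ puL e P ∈ F ∧ puR e P ∈ F}

theorem puL_card_le (e : V ⊕ W ≃ X) (P : Finset (X × X)) : (puL e P).card ≤ P.card := by
  refine Finset.card_le_card_of_injOn (fun a => (e (Sum.inl a.1), e (Sum.inr a.2))) ?_ ?_
  · intro a ha
    exact mem_puL.1 ha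
  · intro a _ b _ hab
    simp only [Prod.mk.injEq, EmbeddingLike.apply_eq_iff_eq, Sum.inl.injEq, Sum.inr.injEq] at hab
    exact Prod.ext hab.1 hab.2

theorem puR_card_le (e : V ⊕ W ≃ X) (P : Finset (X × X)) : (puR e P).card ≤ P.card := by
  refine Finset.card_le_card_of_injOn (fun a => (e (Sum.inr a.2), e (Sum.inl a.1))) ?_ ?_
  · intro a ha
    exact mem_puR.1 ha
  · intro a _ b _ hab
    simp only [Prod.mk.injEq, EmbeddingLike.apply_eq_iff_eq, Sum.inl.injEq, Sum.inr.injEq] at hab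
    exact Prod.ext hab.2 hab.1

theorem puFam_isPeb {K : ℕ} {G : V → V → Bool} {H : W → W → Bool} {F : Set (Finset (V × W))}
    (h : IsPeb K G H F) (e : V ⊕ W ≃ X) (A : X → X → Bool)
    (hll : ∀ a b, A (e (Sum.inl a)) (e (Sum.inl b)) = G a b)
    (hrr : ∀ a b, A (e (Sum.inr a)) (e (Sum.inr b)) = H a b)
    (hlr : ∀ a b, A (e (Sum.inl a)) (e (Sum.inr b)) = false)
    (hrl : ∀ a b, A (e (Sum.inr a)) (e (Sum.inl b)) = false) :
    IsPeb K A A (puFam e F) where
  empty := by
    refine ⟨by simp, ?_, ?_⟩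
    · have : puL e ∅ = ∅ := by ext a; simp [mem_puL]
      rw [this]; exact h.empty
    · have : puR e ∅ = ∅ := by ext a; simp [mem_puR]
      rw [this]; exact h.empty
  down := by
    rintro P ⟨h1, h2, h3⟩ Q hQ
    refine ⟨fun a ha => h1 a (hQ ha), h.down _ h2 _ ?_, h.down _ h3 _ ?_⟩
    · intro a ha
      exact mem_puL.2 (hQ (mem_puL.1 ha))
    · intro a ha
      exact mem_puR.2 (hQ (mem_puR.1 ha))
  eq := by
    rintro P ⟨h1, h2, h3⟩ a ha b hb
    rcases h1 a ha with ⟨v, w, rfl⟩ | ⟨v, w, rfl⟩ <;>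
      rcases h1 b hb with ⟨v', w', rfl⟩ | ⟨v', w', rfl⟩
    · have := h.eq _ h2 (v, w) (mem_puL.2 ha) (v', w') (mem_puL.2 hb)
      simpa using this
    · simp
    · simp
    · have := h.eq _ h3 (v, w) (mem_puR.2 ha) (v', w') (mem_puR.2 hb)
      simpa using this.symm
  adj := by
    rintro P ⟨h1, h2, h3⟩ a ha b hb
    rcases h1 a ha with ⟨v, w, rfl⟩ | ⟨v, w, rfl⟩ <;>
      rcases h1 b hb with ⟨v', w', rfl⟩ | ⟨v', w', rfl⟩
    · have := h.adj _ h2 (v, w) (mem_puL.2 ha) (v', w') (mem_puL.2 hb)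
      simpa [hll, hrr] using this
    · simp [hlr, hrl]
    · simp [hlr, hrl]
    · have := h.adj _ h3 (v, w) (mem_puR.2 ha) (v', w') (mem_puR.2 hb)
      simpa [hll, hrr] using this.symm
  ext := by
    rintro P ⟨h1, h2, h3⟩ hK
    obtain ⟨π₁, hπ₁⟩ := h.ext _ h2 (lt_of_le_of_lt (puL_card_le e P) hK)
    obtain ⟨π₂, hπ₂⟩ := h.ext _ h3 (lt_of_le_of_lt (puR_card_le e P) hK)
    refine ⟨e.symm.trans (((Equiv.sumCongr π₁ π₂.symm).trans (Equiv.sumComm W V)).trans e), ?_⟩
    intro z
    obtain ⟨y, rfl⟩ := e.surjective z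
    rcases y with v | w
    · have hz : (e.symm.trans (((Equiv.sumCongr π₁ π₂.symm).trans (Equiv.sumComm W V)).trans e))
          (e (Sum.inl v)) = e (Sum.inr (π₁ v)) := by simp
      rw [hz]
      refine ⟨?_, ?_, ?_⟩
      · intro a ha
        rcases Finset.mem_insert.1 ha with rfl | ha
        · exact Or.inl ⟨v, π₁ v, rfl⟩
        · exact h1 a ha
      · have : puL e (insert (e (Sum.inl v), e (Sum.inr (π₁ v))) P) =
            insert (v, π₁ v) (puL e P) := by
          ext a
          simp [mem_puL, Prod.ext_iff]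
        rw [this]; exact hπ₁ v
      · have : puR e (insert (e (Sum.inl v), e (Sum.inr (π₁ v))) P) = puR e P := by
          ext a
          simp [mem_puR]
        rw [this]; exact h3
    · have hz : (e.symm.trans (((Equiv.sumCongr π₁ π₂.symm).trans (Equiv.sumComm W V)).trans e))
          (e (Sum.inr w)) = e (Sum.inl (π₂.symm w)) := by simp
      rw [hz]
      refine ⟨?_, ?_, ?_⟩
      · intro a ha
        rcases Finset.mem_insert.1 ha with rfl | ha
        · exact Or.inr ⟨π₂.symm w, w, rfl⟩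
        · exact h1 a ha
      · have : puL e (insert (e (Sum.inr w), e (Sum.inl (π₂.symm w))) P) = puL e P := by
          ext a
          simp [mem_puL]
        rw [this]; exact h2
      · have : puR e (insert (e (Sum.inr w), e (Sum.inl (π₂.symm w))) P) =
            insert (π₂.symm w, π₂ (π₂.symm w)) (puR e P) := by
          ext a
          simp [mem_puR, Prod.ext_iff, and_comm]
        rw [this]; exact hπ₂ _

theorem puFam_pairsOf {K k : ℕ} {G : V → V → Bool} {H : W → W → Bool} {F : Set (Finset (V × W))}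
    (h : IsPeb K G H F) (e : V ⊕ W ≃ X) (u : Fin k → V) (v : Fin k → W) (huv : pairsOf u v ∈ F) :
    pairsOf (e ∘ Sum.inl ∘ u) (e ∘ Sum.inr ∘ v) ∈ puFam e F := by
  refine ⟨?_, ?_, ?_⟩
  · intro a ha
    simp only [pairsOf, Finset.mem_image, Finset.mem_univ, true_and] at ha
    obtain ⟨i, rfl⟩ := ha
    exact Or.inl ⟨u i, v i, rfl⟩
  · have : puL e (pairsOf (e ∘ Sum.inl ∘ u) (e ∘ Sum.inr ∘ v)) = pairsOf u v := by
      ext a
      simp [mem_puL, pairsOf, Prod.ext_iff]
    rw [this]; exact huv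
  · have : puR e (pairsOf (e ∘ Sum.inl ∘ u) (e ∘ Sum.inr ∘ v)) = ∅ := by
      ext a
      simp [mem_puR, pairsOf]
    rw [this]; exact h.empty

end PU

variable {n m k : ℕ} {G : Fin n → Fin n → Bool} {H : Fin m → Fin m → Bool}

theorem puFam_isPeb_union {K : ℕ} {F : Set (Finset (Fin n × Fin m))} (h : IsPeb K G H F) :
    IsPeb K (asMatrix (unionAdj G H)) (asMatrix (unionAdj G H))
      (puFam (Fintype.equivFin (Fin n ⊕ Fin m)) F) := by
  refine puFam_isPeb h _ _ ?_ ?_ ?_ ?_ <;> intro a b <;> simp [asMatrix, unionAdj]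

theorem pu_map_equiv {α β γ : Type} [Fintype α] [Fintype β] (Φ : α ≃ β) (f : α → γ) (g : β → γ)
    (hfg : ∀ a, f a = g (Φ a)) :
    (univ : Finset α).val.map f = (univ : Finset β).val.map g := by
  have h1 : (univ : Finset β).val = (univ : Finset α).val.map Φ := by
    have := congrArg Finset.val (Finset.map_univ_equiv Φ)
    rw [← this]; rfl
  rw [h1, Multiset.map_map]
  exact Multiset.map_congr rfl fun a _ => hfg a

theorem pureJEquiv_of_peb (h : Peb (k + 1) G H) : PureJEquiv k G H := by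
  obtain ⟨F, hF⟩ := h
  obtain ⟨Φ, hΦ⟩ := hF.exists_tupleEquiv (k := k) (Nat.le_succ k)
  intro s
  refine pu_map_equiv Φ _ _ fun u => ?_
  exact (puFam_isPeb_union hF).jcolor_eq le_rfl s _ _ (puFam_pairsOf hF _ u (Φ u) (hΦ u))

theorem pureSEquiv_of_peb (h : Peb k G H) : PureSEquiv k G H := by
  obtain ⟨F, hF⟩ := h
  obtain ⟨Φ, hΦ⟩ := hF.exists_tupleEquiv (k := k) le_rfl
  intro s
  refine pu_map_equiv Φ _ _ fun u => ?_
  exact (puFam_isPeb_union hF).scolor_eq le_rfl s _ _ (puFam_pairsOf hF _ u (Φ u) (hΦ u))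

end Crest.Agent.R290
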